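import Vale.Agent.P046.Prob

/-!
From presence probabilities of single edges and pairs of edges to the first two moments of the
number of remaining edges, and from two moments to convergence in probability.
-/

namespace Vale.Agent.P046.Full.Count

open Finset Filter
open scoped Classical Topology

variable {n : ℕ} {G : Finset (Sym2 (Fin n))}

/-- The presence indicator of an edge. -/
noncomputable def ind (f : Sym2 (Fin n)) (H : Finset (Sym2 (Fin n))) : ℝ := if f ∈ H then 1 else 0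

lemma ind_nonneg (f : Sym2 (Fin n)) (H : Finset (Sym2 (Fin n))) : 0 ≤ ind f H := by
  unfold ind; split <;> norm_num

lemma ind_le_one (f : Sym2 (Fin n)) (H : Finset (Sym2 (Fin n))) : ind f H ≤ 1 := by
  unfold ind; split <;> norm_num

lemma card_eq_sum_ind {H : Finset (Sym2 (Fin n))} (h : H ⊆ G) :
    (H.card : ℝ) = ∑ f ∈ G, ind f H := by
  simp only [ind, sum_boole, filter_mem_eq_inter, inter_eq_right.2 h]

/-- The expected number of remaining edges as a sum over edges. -/
lemma Ev_card_eq_sum (G : Finset (Sym2 (Fin n))) :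
    Ev (fun H => (H.card : ℝ)) G = ∑ f ∈ G, Ev (ind f) G := by
  rw [← Ev_sum]
  exact Ev_congr fun H hH _ => card_eq_sum_ind hH

/-- The second moment of the number of remaining edges as a sum over pairs of edges. -/
lemma Ev_sq_eq_sum (G : Finset (Sym2 (Fin n))) :
    Ev (fun H => (H.card : ℝ) ^ 2) G =
      ∑ f ∈ G, ∑ g ∈ G, Ev (fun H => ind f H * ind g H) G := by
  rw [Ev_congr fun H hH _ => (by rw [card_eq_sum_ind hH, sq, sum_mul_sum] :
    (H.card : ℝ) ^ 2 = ∑ f ∈ G, ∑ g ∈ G, ind f H * ind g H), Ev_sum]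
  exact sum_congr rfl fun f _ => Ev_sum _ _ _

lemma Ev_le_one {φ : Finset (Sym2 (Fin n)) → ℝ} (h : ∀ H, φ H ≤ 1) (G : Finset (Sym2 (Fin n))) :
    Ev φ G ≤ 1 :=
  (Ev_mono fun H _ _ => h H).trans (Ev_const 1 G).le

lemma Ev_nonneg {φ : Finset (Sym2 (Fin n)) → ℝ} (h : ∀ H, 0 ≤ φ H) (G : Finset (Sym2 (Fin n))) :
    0 ≤ Ev φ G :=
  (Ev_const 0 G).ge.trans (Ev_mono fun H _ _ => h H)

/-- Upper first moment: per-edge bounds outside an exceptional set. -/
theorem Ev_card_le_of_edge (bad : Sym2 (Fin n) → Prop) (a : Sym2 (Fin n) → ℝ)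
    (ha : ∀ f ∈ G, 0 ≤ a f) (h : ∀ f ∈ G, ¬ bad f → Ev (ind f) G ≤ a f) :
    Ev (fun H => (H.card : ℝ)) G ≤ ∑ f ∈ G, a f + (#{f ∈ G | bad f} : ℝ) := by
  rw [Ev_card_eq_sum, ← sum_boole, ← sum_add_distrib]
  refine sum_le_sum fun f hf => ?_
  split_ifs with hb
  · linarith [Ev_le_one (ind_le_one f) G, ha f hf]
  · linarith [h f hf hb]

/-- Lower first moment: per-edge bounds outside an exceptional set. -/
theorem le_Ev_card_of_edge (bad : Sym2 (Fin n) → Prop) (b : Sym2 (Fin n) → ℝ)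
    (hb : ∀ f ∈ G, b f ≤ 1) (h : ∀ f ∈ G, ¬ bad f → b f ≤ Ev (ind f) G) :
    ∑ f ∈ G, b f - (#{f ∈ G | bad f} : ℝ) ≤ Ev (fun H => (H.card : ℝ)) G := by
  rw [Ev_card_eq_sum, ← sum_boole, ← sum_sub_distrib]
  refine sum_le_sum fun f hf => ?_
  split_ifs with hf'
  · linarith [Ev_nonneg (ind_nonneg f) G, hb f hf]
  · linarith [h f hf hf']

/-- Upper second moment: product bounds outside exceptional edges and exceptional pairs. -/
theorem Ev_sq_le_of_pairs (bad : Sym2 (Fin n) → Prop) (clash : Sym2 (Fin n) → Sym2 (Fin n) → Prop)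
    (a : Sym2 (Fin n) → ℝ) (ha : ∀ f ∈ G, 0 ≤ a f)
    (h : ∀ f ∈ G, ∀ g ∈ G, ¬ bad f → ¬ bad g → ¬ clash f g →
      Ev (fun H => ind f H * ind g H) G ≤ a f * a g) :
    Ev (fun H => (H.card : ℝ) ^ 2) G ≤
      (∑ f ∈ G, a f) ^ 2 + 2 * (#{f ∈ G | bad f} : ℝ) * G.card +
        ∑ f ∈ G, (#{g ∈ G | ¬ bad f ∧ clash f g} : ℝ) := by
  have one : ∀ f ∈ G, ∀ g ∈ G, Ev (fun H => ind f H * ind g H) G ≤
      a f * a g + ((if bad f then 1 else 0) + (if bad g then 1 else 0)) +
        (if ¬ bad f ∧ clash f g then 1 else 0) := by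
    intro f hf g hg
    have h1 : Ev (fun H => ind f H * ind g H) G ≤ 1 :=
      Ev_le_one (fun H => mul_le_one₀ (ind_le_one f H) (ind_nonneg g H) (ind_le_one g H)) G
    have h2 := mul_nonneg (ha f hf) (ha g hg)
    by_cases b1 : bad f
    · simp only [b1, if_true, not_true, false_and, if_false]
      split_ifs <;> linarith
    by_cases b2 : bad g
    · simp only [b1, b2, if_true, if_false, not_false_iff, true_and]
      split_ifs <;> linarith
    by_cases c : clash f g
    · simp only [b1, b2, c, if_true, if_false, not_false_iff, and_self]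
      linarith
    · have := h f hf g hg b1 b2 c
      simp only [b1, b2, c, if_false, and_false]
      linarith
  rw [Ev_sq_eq_sum]
  refine (sum_le_sum fun f hf => sum_le_sum fun g hg => one f hf g hg).trans (le_of_eq ?_)
  have e1 : ∀ f, (∑ _g ∈ G, if bad f then (1 : ℝ) else 0) = G.card * if bad f then 1 else 0 :=
    fun f => by rw [sum_const, nsmul_eq_mul]
  simp only [sum_add_distrib, e1, ← mul_sum, sum_boole, sum_const, nsmul_eq_mul, ← sum_mul]
  ring

/-- A bound at the stopping states, up to an exceptional event. -/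
theorem EvUntil_le_add_bad (stop bad : Finset (Sym2 (Fin n)) → Prop)
    {ψ : Finset (Sym2 (Fin n)) → ℝ} {c B : ℝ} (G : Finset (Sym2 (Fin n)))
    (hgood : ∀ H, H ⊆ G → stop H ∨ triangles H = ∅ → ¬ bad H → ψ H ≤ c)
    (hbad : ∀ H, H ⊆ G → stop H ∨ triangles H = ∅ → bad H → ψ H ≤ c + B) :
    EvUntil stop ψ G ≤ c + B * EvUntil stop (fun H => if bad H then 1 else 0) G := by
  rw [← EvUntil_const_mul, ← EvUntil_const stop c G, ← EvUntil_add]
  refine EvUntil_mono fun H hH hs => ?_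
  split_ifs with hb
  · linarith [hbad H hH hs hb]
  · linarith [hgood H hH hs hb]

/-- The mean square distance from a constant. -/
lemma Ev_dist_sq (c r : ℝ) (G : Finset (Sym2 (Fin n))) :
    Ev (fun H => ((H.card : ℝ) / r - c) ^ 2) G =
      Ev (fun H => (H.card : ℝ) ^ 2) G / r ^ 2 - 2 * c * (Ev (fun H => (H.card : ℝ)) G / r) +
        c ^ 2 := by
  have e : (fun H : Finset (Sym2 (Fin n)) => ((H.card : ℝ) / r - c) ^ 2) =
      fun H => 1 / r ^ 2 * (H.card : ℝ) ^ 2 + (-(2 * c / r) * (H.card : ℝ) + c ^ 2) := by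
    funext H; ring
  rw [e, Ev_add, Ev_add, Ev_const_mul, Ev_const_mul, Ev_const]
  ring

/-- Two moments give convergence in probability. -/
theorem tendsto_prob_of_moments {c : ℝ} (r : ℕ → ℝ)
    (h1 : Tendsto (fun n => Ev (fun H => (H.card : ℝ)) (completeEdges n) / r n) atTop (𝓝 c))
    (h2 : Tendsto (fun n => Ev (fun H => (H.card : ℝ) ^ 2) (completeEdges n) / r n ^ 2) atTop
      (𝓝 (c ^ 2)))
    {ε : ℝ} (hε : 0 < ε) :
    Tendsto (fun n => Ev (fun H => if ε < |(H.card : ℝ) / r n - c| then 1 else 0)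
      (completeEdges n)) atTop (𝓝 0) := by
  have h3 : Tendsto (fun n => 1 / ε ^ 2 *
      Ev (fun H => ((H.card : ℝ) / r n - c) ^ 2) (completeEdges n)) atTop (𝓝 0) := by
    have h := ((h2.sub (h1.const_mul (2 * c))).add_const (c ^ 2)).const_mul (1 / ε ^ 2)
    rw [show 1 / ε ^ 2 * (c ^ 2 - 2 * c * c + c ^ 2) = 0 by ring] at h
    refine h.congr fun n => ?_
    rw [Ev_dist_sq]
  refine squeeze_zero (fun n => Ev_nonneg (fun H => by split <;> norm_num) _) (fun n => ?_) h3
  rw [← Ev_const_mul]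
  refine Ev_mono fun H _ _ => ?_
  split_ifs with h
  · rw [one_div_mul_eq_div, le_div_iff₀ (by positivity), one_mul, ← sq_abs ((H.card : ℝ) / r n - c)]
    exact pow_le_pow_left₀ hε.le h.le 2
  · positivity

end Vale.Agent.P046.Full.Count
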