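import Vale.Agent.P046.Process

/-!
Independent coarse labels on the triangles of a fixed edge set, the two-sided alternating
recursion for the presence of an edge, and its deterministic value on hypertree balls.
-/

namespace Vale.Agent.P046.Full.Labels

open Finset
open scoped Classical

variable {n : ℕ}

/-- All vertex sets, enumerated. -/
noncomputable def idx (n : ℕ) : Fin (Fintype.card (Finset (Fin n))) ≃ Finset (Fin n) :=
  (Fintype.equivFin _).symm

/-- The greedy system of an edge set: every vertex set is labelled, only the triangles of `G`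
carry edges. -/
noncomputable def sysOn (G : Finset (Sym2 (Fin n))) (M : ℕ) (hM : 0 < M) : Sys (Sym2 (Fin n)) where
  N := Fintype.card (Finset (Fin n))
  M := M
  ed i := if idx n i ∈ triangles G then edgesOf (idx n i) else ∅
  hN := Fintype.card_pos
  hM := hM

/-- The weight of a labelling with independent labels. -/
def wt {ι κ : Type*} [Fintype ι] (w : κ → ℝ) (x : ι → κ) : ℝ := ∏ i, w (x i)

/-- The triangles of `G` at `f` other than the parent `P` (use `∅` at a root). -/
noncomputable def kids (G : Finset (Sym2 (Fin n))) (P : Finset (Fin n)) (f : Sym2 (Fin n)) :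
    Finset (Finset (Fin n)) :=
  (triangles G).filter fun T => f ∈ edgesOf T ∧ T ≠ P

/-- The cell at which the children of a level `k + 1` node are read: upper bounds (`k` even) at
the start of the cell of their parent, lower bounds (`k` odd) at its end. -/
def nxt (k i : ℕ) : ℕ := if Even k then i else i + 1

/-- Alternating presence at the start of cell `c`: necessary for `k` even, sufficient for `k` odd. -/
def Pres (G : Finset (Sym2 (Fin n))) (x : Finset (Fin n) → ℕ) :
    ℕ → Finset (Fin n) → Sym2 (Fin n) → ℕ → Prop
  | 0, _, _, _ => True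
  | k + 1, P, f, c => ∀ T ∈ kids G P f, x T < c →
      ∃ h ∈ (edgesOf T).erase f, ¬ Pres G x k T h (nxt k (x T))

/-- The deterministic value of `Pres` on a hypertree ball, for label weights `w`. -/
noncomputable def val (G : Finset (Sym2 (Fin n))) (w : ℕ → ℝ) :
    ℕ → Finset (Fin n) → Sym2 (Fin n) → ℕ → ℝ
  | 0, _, _, _ => 1
  | k + 1, P, f, c => ∏ T ∈ kids G P f,
      (1 - ∑ i ∈ range c, w i * ∏ h ∈ (edgesOf T).erase f, val G w k T h (nxt k i))

/-- The triangles whose labels `Pres` reads. -/
noncomputable def dep (G : Finset (Sym2 (Fin n))) :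
    ℕ → Finset (Fin n) → Sym2 (Fin n) → Finset (Finset (Fin n))
  | 0, _, _ => ∅
  | k + 1, P, f => (kids G P f).biUnion fun T =>
      insert T (((edgesOf T).erase f).biUnion fun h => dep G k T h)

/-- The ball of radius `k` below `f` is a hypertree: no triangle is read along two branches. -/
def Tree (G : Finset (Sym2 (Fin n))) : ℕ → Finset (Fin n) → Sym2 (Fin n) → Prop
  | 0, _, _ => True
  | k + 1, P, f =>
      (∀ T ∈ kids G P f, ∀ h ∈ (edgesOf T).erase f, Tree G k T h ∧ T ∉ dep G k T h ∧
        ∀ h' ∈ (edgesOf T).erase f, h' ≠ h → Disjoint (dep G k T h) (dep G k T h')) ∧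
      ∀ T ∈ kids G P f, ∀ T' ∈ kids G P f, T ≠ T' →
        Disjoint (insert T (((edgesOf T).erase f).biUnion fun h => dep G k T h))
          (insert T' (((edgesOf T').erase f).biUnion fun h => dep G k T' h))

end Vale.Agent.P046.Full.Labels
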