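import Mathlib

/-!
Finite dimensional spectral bound: the adjacency operator `N` of a family of triples satisfies
`N ≥ -(maximum degree)`, and a truncated exponential of `-τ N` commutes with `N`.
-/

namespace Vale.Agent.P046.Full.Spectral

open Finset

variable {ι α : Type*} [Fintype ι] [DecidableEq ι]

/-- Two different points are adjacent with multiplicity the number of members containing both. -/
def adj (S : Finset α) (inc : α → Finset ι) (i j : ι) : ℝ :=
  if i = j then 0 else ((S.filter fun t => i ∈ inc t ∧ j ∈ inc t).card : ℝ)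

/-- The number of members through a point. -/
def deg (S : Finset α) (inc : α → Finset ι) (i : ι) : ℕ := (S.filter fun t => i ∈ inc t).card

/-- A matrix applied to a vector. -/
def apply (M : ι → ι → ℝ) (v : ι → ℝ) : ι → ℝ := fun i => ∑ j, M i j * v j

/-- A polynomial in a matrix, applied to a vector. -/
def poly (M : ι → ι → ℝ) (c : ℕ → ℝ) (K : ℕ) (v : ι → ℝ) : ι → ℝ :=
  fun i => ∑ k ∈ range K, c k * ((apply M)^[k] v) i

/-- The truncated exponential of `-τ M`, applied to a vector. -/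
noncomputable def expT (M : ι → ι → ℝ) (τ : ℝ) (K : ℕ) (v : ι → ℝ) : ι → ℝ :=
  poly M (fun k => (-τ) ^ k / (k.factorial : ℝ)) K v

variable {S : Finset α} {inc : α → Finset ι} {M : ι → ι → ℝ}

omit [Fintype ι] in
lemma adj_symm (i j : ι) : adj S inc i j = adj S inc j i := by
  unfold adj
  by_cases h : i = j
  · subst h; rfl
  · rw [if_neg h, if_neg (Ne.symm h)]
    simp only [and_comm]

omit [Fintype ι] in
lemma adj_nonneg (i j : ι) : 0 ≤ adj S inc i j := by
  unfold adj; split_ifs <;> positivity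

omit [Fintype ι] in
lemma adj_eq_sum (i j : ι) :
    adj S inc i j = ∑ t ∈ S, (if i ∈ inc t ∧ j ∈ inc t then (1 : ℝ) else 0) -
      if i = j then (deg S inc i : ℝ) else 0 := by
  unfold adj deg
  rw [sum_boole]
  by_cases h : i = j
  · subst h; simp
  · simp [h]

/-- The quadratic form of the adjacency, as a sum of squares minus the diagonal. -/
lemma quad_eq (v : ι → ℝ) :
    ∑ i, v i * apply (adj S inc) v i =
      ∑ t ∈ S, (∑ i ∈ inc t, v i) ^ 2 - ∑ i, (deg S inc i : ℝ) * v i ^ 2 := by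
  have h1 : ∀ t ∈ S, (∑ i ∈ inc t, v i) ^ 2 =
      ∑ i, ∑ j, (if i ∈ inc t ∧ j ∈ inc t then v i * v j else 0) := by
    intro t _
    rw [sq, sum_mul_sum]
    simp only [ite_and, sum_ite_mem, univ_inter, sum_ite_irrel, sum_const_zero]
  rw [sum_congr rfl h1, sum_comm, ← sum_sub_distrib]
  refine sum_congr rfl fun i _ => ?_
  rw [apply, mul_sum, sum_comm]
  simp only [adj_eq_sum, sub_mul, mul_sub, sum_sub_distrib]
  congr 1
  · refine sum_congr rfl fun j _ => ?_
    rw [sum_mul, mul_sum]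
    exact sum_congr rfl fun t _ => by split_ifs <;> ring
  · simp only [ite_mul, zero_mul, mul_ite, mul_zero, sum_ite_eq, mem_univ, if_true]
    ring

/-- The adjacency is bounded below by minus the maximum degree. -/
lemma quad_lower {Y : ℝ} (hY : ∀ i, (deg S inc i : ℝ) ≤ Y) (v : ι → ℝ) :
    -Y * ∑ i, v i ^ 2 ≤ ∑ i, v i * apply (adj S inc) v i := by
  rw [quad_eq]
  have h1 : ∑ i, (deg S inc i : ℝ) * v i ^ 2 ≤ Y * ∑ i, v i ^ 2 := by
    rw [mul_sum]; exact sum_le_sum fun i _ => mul_le_mul_of_nonneg_right (hY i) (sq_nonneg _)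
  have h2 : 0 ≤ ∑ t ∈ S, (∑ i ∈ inc t, v i) ^ 2 := sum_nonneg fun t _ => sq_nonneg _
  linarith

lemma row_sum (h3 : ∀ t ∈ S, (inc t).card = 3) (i : ι) :
    ∑ j, adj S inc i j = 2 * (deg S inc i : ℝ) := by
  simp only [adj_eq_sum, sum_sub_distrib, sum_ite_eq, mem_univ, if_true]
  rw [sum_comm]
  have : ∀ t ∈ S, ∑ j, (if i ∈ inc t ∧ j ∈ inc t then (1 : ℝ) else 0) =
      if i ∈ inc t then 3 else 0 := by
    intro t ht
    by_cases h : i ∈ inc t
    · simp [h, h3 t ht]
    · simp [h]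
  rw [sum_congr rfl this, ← sum_filter, sum_const, deg, nsmul_eq_mul]
  ring

lemma adj_delta (h3 : ∀ t ∈ S, (inc t).card = 3)
    (hlin : ∀ i j, i ≠ j → (S.filter fun t => i ∈ inc t ∧ j ∈ inc t).card ≤ 1) (e : ι) :
    ∑ i, (apply (adj S inc) (fun j => if j = e then 1 else 0) i) ^ 2 =
      2 * (deg S inc e : ℝ) := by
  simp only [apply, mul_ite, mul_one, mul_zero, sum_ite_eq', mem_univ, if_true]
  rw [← row_sum h3 e]
  refine sum_congr rfl fun i _ => ?_
  rw [adj_symm i e]
  unfold adj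
  split_ifs with h
  · simp
  · rcases Nat.le_one_iff_eq_zero_or_eq_one.1 (hlin e i h) with h' | h' <;> rw [h'] <;> norm_num

omit [DecidableEq ι] in
lemma apply_sum {κ : Type*} (s : Finset κ) (a : κ → ℝ) (f : κ → ι → ℝ) (i : ι) :
    apply M (fun i => ∑ k ∈ s, a k * f k i) i = ∑ k ∈ s, a k * apply M (f k) i := by
  simp only [apply, mul_sum]
  rw [sum_comm]
  exact sum_congr rfl fun k _ => sum_congr rfl fun j _ => by ring

omit [DecidableEq ι] in
lemma apply_poly (c : ℕ → ℝ) (K : ℕ) (v : ι → ℝ) :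
    apply M (poly M c K v) = poly M c K (apply M v) := by
  funext i
  show apply M (fun i => ∑ k ∈ range K, c k * ((apply M)^[k] v) i) i = _
  rw [apply_sum]
  refine sum_congr rfl fun k _ => ?_
  rw [← Function.iterate_succ_apply' (apply M) k v, ← Function.iterate_succ_apply]

omit [DecidableEq ι] in
lemma apply_expT (τ : ℝ) (K : ℕ) (v : ι → ℝ) :
    apply M (expT M τ K v) = expT M τ K (apply M v) := apply_poly _ K v

omit [DecidableEq ι] in
lemma apply_adjoint (hM : ∀ i j, M i j = M j i) (u v : ι → ℝ) :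
    ∑ i, apply M u i * v i = ∑ i, u i * apply M v i := by
  simp only [apply, sum_mul, mul_sum]
  rw [sum_comm]
  exact sum_congr rfl fun i _ => sum_congr rfl fun j _ => by rw [hM j i]; ring

omit [DecidableEq ι] in
lemma iterate_adjoint (hM : ∀ i j, M i j = M j i) (k : ℕ) : ∀ u v : ι → ℝ,
    ∑ i, ((apply M)^[k] u) i * v i = ∑ i, u i * ((apply M)^[k] v) i := by
  induction k with
  | zero => intro u v; rfl
  | succ k ih =>
    intro u v
    rw [Function.iterate_succ_apply, ih, apply_adjoint hM]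
    simp only [Function.iterate_succ_apply']

omit [DecidableEq ι] in
lemma poly_adjoint (hM : ∀ i j, M i j = M j i) (c : ℕ → ℝ) (K : ℕ) (u v : ι → ℝ) :
    ∑ i, poly M c K u i * v i = ∑ i, u i * poly M c K v i := by
  simp only [poly, sum_mul, mul_sum]
  rw [sum_comm]
  conv_rhs => rw [sum_comm]
  refine sum_congr rfl fun k _ => ?_
  have h1 : ∀ i, c k * ((apply M)^[k] u) i * v i = c k * (((apply M)^[k] u) i * v i) :=
    fun i => by ring
  have h2 : ∀ i, u i * (c k * ((apply M)^[k] v) i) = c k * (u i * ((apply M)^[k] v) i) :=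
    fun i => by ring
  simp only [h1, h2, ← mul_sum, iterate_adjoint hM k u v]

/-- A polynomial bound on the spectral interval bounds the polynomial of the matrix. -/
theorem poly_bound (hM : ∀ i j, M i j = M j i) {a ρ C : ℝ}
    (hlow : ∀ v : ι → ℝ, -a * ∑ i, v i ^ 2 ≤ ∑ i, v i * apply M v i)
    (hrow : ∀ i, ∑ j, |M i j| ≤ ρ) (c : ℕ → ℝ) (K : ℕ)
    (hC : ∀ x : ℝ, -a ≤ x → x ≤ ρ → |∑ k ∈ range K, c k * x ^ k| ≤ C) (v : ι → ℝ) :
    ∑ i, poly M c K v i ^ 2 ≤ C ^ 2 * ∑ i, v i ^ 2 := by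
  have hA : (Matrix.of M).IsHermitian := by
    ext i j; simp [Matrix.conjTranspose_apply, hM i j]
  obtain ⟨u, hu⟩ : ∃ u : ι → ι → ℝ, u = fun j i => hA.eigenvectorBasis j i := ⟨_, rfl⟩
  obtain ⟨l, hl⟩ : ∃ l : ι → ℝ, l = hA.eigenvalues := ⟨_, rfl⟩
  have heig : ∀ j i, apply M (u j) i = l j * u j i := by
    intro j i
    have := congrFun (hA.mulVec_eigenvectorBasis j) i
    simpa [Matrix.mulVec, dotProduct, apply, hu, hl] using this
  have horth : ∀ j k, ∑ i, u j i * u k i = if j = k then 1 else 0 := by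
    intro j k
    have := orthonormal_iff_ite.1 hA.eigenvectorBasis.orthonormal j k
    simpa [PiLp.inner_apply, hu, mul_comm] using this
  have hcomp : ∀ (w : ι → ℝ) i, w i = ∑ j, (∑ k, u j k * w k) * u j i := by
    intro w i
    have := congrArg (fun x : EuclideanSpace ℝ ι => x i)
      (hA.eigenvectorBasis.sum_repr' (WithLp.toLp 2 w))
    simpa [PiLp.inner_apply, hu, mul_comm] using this.symm
  have norm : ∀ a : ι → ℝ, ∑ i, (∑ j, a j * u j i) ^ 2 = ∑ j, a j ^ 2 := by
    intro a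
    simp only [sq, sum_mul_sum]
    rw [sum_comm]
    refine sum_congr rfl fun j _ => ?_
    rw [sum_comm]
    have : ∀ k, ∑ i, a j * u j i * (a k * u k i) = a j * a k * if j = k then 1 else 0 := by
      intro k; rw [← horth, mul_sum]; exact sum_congr rfl fun i _ => by ring
    simp [this]
  obtain ⟨d, hd⟩ : ∃ d : ι → ℝ, d = fun j => ∑ k, u j k * v k := ⟨_, rfl⟩
  have hit : ∀ k i, ((apply M)^[k] v) i = ∑ j, d j * l j ^ k * u j i := by
    intro k
    induction k with
    | zero => intro i; simp [hd, ← hcomp v i]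
    | succ k ih =>
      intro i
      rw [Function.iterate_succ_apply', funext ih]
      rw [apply_sum]
      exact sum_congr rfl fun j _ => by rw [heig]; ring
  have hu1 : ∀ j, ∑ i, u j i ^ 2 = 1 := fun j => by simpa [sq] using horth j j
  have hl1 : ∀ j, ∑ i, u j i * apply M (u j) i = l j := by
    intro j
    simp only [heig]
    calc ∑ i, u j i * (l j * u j i) = l j * ∑ i, u j i ^ 2 := by
          rw [mul_sum]; exact sum_congr rfl fun i _ => by ring
      _ = l j := by rw [hu1, mul_one]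
  have hlo : ∀ j, -a ≤ l j := fun j => by simpa [hu1, hl1] using hlow (u j)
  have hhi : ∀ j, l j ≤ ρ := by
    intro j
    rw [← hl1 j]
    have h1 : ∑ i, u j i * apply M (u j) i ≤
        ∑ i, ∑ k, |M i k| * (u j i ^ 2 / 2) + ∑ i, ∑ k, |M i k| * (u j k ^ 2 / 2) := by
      rw [← sum_add_distrib]
      refine sum_le_sum fun i _ => ?_
      rw [apply, mul_sum, ← sum_add_distrib]
      refine sum_le_sum fun k _ => ?_
      rw [← mul_add]
      calc u j i * (M i k * u j k) ≤ |M i k| * |u j i * u j k| := by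
            rw [← abs_mul]; exact le_of_eq_of_le (by ring) (le_abs_self _)
        _ ≤ |M i k| * (u j i ^ 2 / 2 + u j k ^ 2 / 2) := by
            refine mul_le_mul_of_nonneg_left ?_ (abs_nonneg _)
            rw [abs_mul]
            nlinarith [sq_nonneg (|u j i| - |u j k|), sq_abs (u j i), sq_abs (u j k)]
    have h2 : ∑ i, ∑ k, |M i k| * (u j i ^ 2 / 2) ≤ ρ / 2 := by
      simp only [← sum_mul]
      calc ∑ i, (∑ k, |M i k|) * (u j i ^ 2 / 2) ≤ ∑ i, ρ * (u j i ^ 2 / 2) :=
            sum_le_sum fun i _ => mul_le_mul_of_nonneg_right (hrow i) (by positivity)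
        _ = ρ / 2 := by rw [← mul_sum, ← sum_div, hu1]; ring
    have h3 : ∑ i, ∑ k, |M i k| * (u j k ^ 2 / 2) = ∑ i, ∑ k, |M i k| * (u j i ^ 2 / 2) := by
      rw [sum_comm]; exact sum_congr rfl fun i _ => sum_congr rfl fun k _ => by rw [hM k i]
    linarith
  have hp : ∀ i, poly M c K v i = ∑ j, (d j * ∑ k ∈ range K, c k * l j ^ k) * u j i := by
    intro i
    simp only [poly, hit, mul_sum, sum_mul]
    rw [sum_comm]
    exact sum_congr rfl fun j _ => sum_congr rfl fun k _ => by ring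
  have hv : ∑ i, v i ^ 2 = ∑ j, d j ^ 2 := by
    rw [← norm d, hd]; exact sum_congr rfl fun i _ => by rw [← hcomp v i]
  rw [hv, mul_sum]
  simp only [hp, norm]
  refine sum_le_sum fun j _ => ?_
  rw [mul_pow, mul_comm]
  refine mul_le_mul_of_nonneg_right ?_ (sq_nonneg _)
  exact sq_le_sq' (by linarith [abs_le.1 (hC (l j) (hlo j) (hhi j))])
    (by linarith [abs_le.1 (hC (l j) (hlo j) (hhi j))])

/-- The truncated exponential series against the exponential. -/
lemma exp_series_bound {a ρ τ x : ℝ} {K : ℕ} (hτ : 0 ≤ τ) (haρ : a ≤ ρ)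
    (hx : -a ≤ x) (hx' : x ≤ ρ) (hK : 2 * τ * ρ ≤ K + 1) :
    |∑ k ∈ range K, (-τ) ^ k / (k.factorial : ℝ) * x ^ k| ≤
      Real.exp (τ * a) + 2 * (τ * ρ) ^ K / (K.factorial : ℝ) := by
  have habs : |-(τ * x)| ≤ τ * ρ := by
    rw [abs_neg, abs_mul, abs_of_nonneg hτ]
    exact mul_le_mul_of_nonneg_left (abs_le.2 ⟨by linarith, hx'⟩) hτ
  have hc : ‖((-(τ * x) : ℝ) : ℂ)‖ / (K.succ : ℝ) ≤ 1 / 2 := by
    rw [Complex.norm_real, Real.norm_eq_abs, div_le_iff₀ (by positivity)]
    push_cast; linarith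
  have h := Complex.exp_bound' hc
  rw [← Complex.ofReal_exp] at h
  norm_cast at h
  rw [Real.norm_eq_abs, Real.norm_eq_abs] at h
  have he : ∑ k ∈ range K, (-τ) ^ k / (k.factorial : ℝ) * x ^ k =
      ∑ k ∈ range K, (-(τ * x)) ^ k / (k.factorial : ℝ) :=
    sum_congr rfl fun k _ => by rw [← neg_mul, mul_pow]; ring
  rw [he]
  have h2 : Real.exp (-(τ * x)) ≤ Real.exp (τ * a) := by
    apply Real.exp_le_exp.2; nlinarith
  have h3 : |-(τ * x)| ^ K / (K.factorial : ℝ) * 2 ≤ 2 * (τ * ρ) ^ K / (K.factorial : ℝ) := by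
    rw [mul_comm, ← mul_div_assoc]; gcongr
  rw [abs_le] at h ⊢
  constructor <;> linarith [Real.exp_pos (-(τ * x)), Real.exp_pos (τ * a)]

/-- The main bound: the truncated exponential of `-τ N / m` grows the image of `N / m` at rate
at most `1 + η`. -/
theorem expT_adj_bound (h3 : ∀ t ∈ S, (inc t).card = 3) {m η τ : ℝ} (hm : 0 < m) (hη : 0 ≤ 1 + η)
    (hdeg : ∀ i, (deg S inc i : ℝ) ≤ (1 + η) * m) (hτ : 0 ≤ τ) {K : ℕ}
    (hK : 4 * τ * (1 + η) ≤ K + 1) (v : ι → ℝ) :
    ∑ i, expT (fun i j => adj S inc i j / m) τ K (apply (fun i j => adj S inc i j / m) v) i ^ 2 ≤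
      (Real.exp (τ * (1 + η)) + 2 * (2 * τ * (1 + η)) ^ K / (K.factorial : ℝ)) ^ 2 *
        ∑ i, apply (fun i j => adj S inc i j / m) v i ^ 2 := by
  have hq : ∀ w i, apply (fun i j => adj S inc i j / m) w i = apply (adj S inc) w i / m := by
    intro w i; simp only [apply, sum_div]; exact sum_congr rfl fun j _ => by ring
  refine poly_bound (fun i j => by rw [adj_symm i j]) (a := 1 + η) (ρ := 2 * (1 + η)) (fun w => ?_)
    (fun i => ?_) _ K (fun x hx hx' => ?_) _
  · simp only [hq, ← mul_div_assoc, ← sum_div]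
    rw [le_div_iff₀ hm]
    calc -(1 + η) * (∑ i, w i ^ 2) * m = -((1 + η) * m) * ∑ i, w i ^ 2 := by ring
      _ ≤ _ := quad_lower hdeg w
  · have : ∀ j, |adj S inc i j / m| = adj S inc i j / m := fun j =>
      abs_of_nonneg (div_nonneg (adj_nonneg i j) hm.le)
    simp only [this, ← sum_div, row_sum h3, div_le_iff₀ hm]
    nlinarith [hdeg i]
  · have := exp_series_bound hτ (by linarith) hx hx' (K := K) (by linarith)
    calc _ ≤ _ := this
      _ = _ := by ring

end Vale.Agent.P046.Full.Spectral
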