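import Vale.Agent.P046.Prob
import Vale.Agent.P046.Full.Spectral
import Vale.Agent.P046.Full.LabelDefs

/-!
# The exact constant for random triangle removal: parameters and objects

Two stages are used: `M = (log n)^2000` edges-per-codegree, where the process is stopped, and
`mLo = (log n)^60`, down to which the propagated deviation is controlled pointwise. See
`Full/NOTES.md`.
-/

namespace Vale.Agent.P046.Full

open Finset Filter
open scoped Classical

/-- An edge set on `Fin n`. -/
abbrev Gr (n : ℕ) := Finset (Sym2 (Fin n))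

variable {n : ℕ}

/-- `log n`. -/
noncomputable def lg (n : ℕ) : ℝ := Real.log n

/-- The ideal codegree at `E` edges. -/
noncomputable def mI (n : ℕ) (E : ℝ) : ℝ := 4 * E ^ 2 / (n : ℝ) ^ 3

/-- The ideal edge density at `E` edges. -/
noncomputable def pI (n : ℕ) (E : ℝ) : ℝ := 2 * E / (n : ℝ) ^ 2

/-- The last pointwise target codegree. -/
noncomputable def mLo (n : ℕ) : ℝ := lg n ^ 60

/-- The codegree of the stage at which the process is stopped. -/
noncomputable def mHi (n : ℕ) : ℝ := lg n ^ 2000

/-- The number of edges at the stopping stage. -/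
noncomputable def eHi (n : ℕ) : ℕ := ⌈Real.sqrt (mHi n * (n : ℝ) ^ 3) / 2⌉₊

/-- The allowed relative deviation at ideal codegree `m`. -/
noncomputable def Bd (n : ℕ) (m : ℝ) : ℝ := lg n ^ 5 / Real.sqrt m

/-- The number of triangles through an edge, as a real number. -/
noncomputable def cd (G : Gr n) (f : Sym2 (Fin n)) : ℝ :=
  ((triangles G).filter fun t => f ∈ edgesOf t).card

/-- The ideal codegree of a state. -/
noncomputable def mS (G : Gr n) : ℝ := mI n G.card

/-- The normalised adjacency of edges in a common triangle. -/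
noncomputable def nh (G : Gr n) (f g : Sym2 (Fin n)) : ℝ :=
  Spectral.adj (triangles G) edgesOf f g / mS G

/-- The relative codegree deviation, as a vector supported on the edges. -/
noncomputable def dv (G : Gr n) (f : Sym2 (Fin n)) : ℝ :=
  if f ∈ G then cd G f / mS G - 1 else 0

/-- The step `3 / E'` of the `k`-th future step, `E'` counting the edges left after it. -/
noncomputable def stp (E k : ℕ) : ℝ := 3 / ((E : ℝ) - 3 * (k + 1))

/-- The linearised propagator over the next `k` steps. -/
noncomputable def prop (G : Gr n) : ℕ → (Sym2 (Fin n) → ℝ) → Sym2 (Fin n) → ℝ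
  | 0, v => v
  | k + 1, v => fun f => prop G k v f - stp G.card k * Spectral.apply (nh G) (prop G k v) f

/-- The predicted deviation of `f` after `k` further steps. -/
noncomputable def Z (G : Gr n) (f : Sym2 (Fin n)) (k : ℕ) : ℝ := prop G k (dv G) f

/-- Every predicted deviation with target codegree at least `mLo` is within bounds. -/
def Good (G : Gr n) : Prop :=
  ∀ f ∈ G, ∀ k : ℕ, 3 * k < G.card → mLo n ≤ mI n ((G.card : ℝ) - 3 * k) →
    |Z G f k| ≤ Bd n (mI n ((G.card : ℝ) - 3 * k))

/-- The stopping rule of the first phase. -/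
def Stop (G : Gr n) : Prop := ¬ Good G ∨ G.card ≤ eHi n

/-- The states in which the deterministic analysis starts. -/
structure AtStage (G : Gr n) : Prop where
  sub : G ⊆ completeEdges n
  good : Good G
  le : G.card ≤ eHi n
  gt : eHi n < G.card + 3

/-- The spectral slack at the stopping stage. -/
noncomputable def gapEps (n : ℕ) : ℝ := lg n ^ 4 / mHi n ^ (1 / 3 : ℝ)

/-- The normalised adjacency has no negative part of size more than `gapEps`. -/
def Gap (G : Gr n) : Prop :=
  ∀ x : Sym2 (Fin n) → ℝ, (∀ f, f ∉ G → x f = 0) →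
    -gapEps n * ∑ f, x f ^ 2 ≤ ∑ f, x f * Spectral.apply (nh G) x f

/-- The radius of the balls used. It is even. -/
noncomputable def rad (n : ℕ) : ℕ := 2 * ⌈Real.log (lg n) ^ 4⌉₊

/-- The number of edges whose balls are not hypertrees. -/
noncomputable def nonTree (G : Gr n) : ℝ :=
  (G.filter fun f => ¬ (Labels.Tree G (rad n) ∅ f ∧ Labels.Tree G (rad n + 1) ∅ f)).card

/-! ## The cavity recursion on the time grid -/

/-- The relative edge count `φ` after `k` grid steps. -/
noncomputable def phi (E k : ℕ) : ℝ := ((E : ℝ) - 3 * k) / E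

/-- The label time after `k` grid steps. -/
noncomputable def xt (n E k : ℕ) : ℝ := ((phi E k)⁻¹ ^ 2 - 1) / (2 * mI n E)

/-- The number of grid steps with time at most one. -/
noncomputable def nGrid (n E : ℕ) : ℕ :=
  Nat.findGreatest (fun k => 3 * k < E ∧ xt n E k ≤ 1) E

/-- The increment of time in grid step `k`. -/
noncomputable def hst (n E k : ℕ) : ℝ := xt n E (k + 1) - xt n E k

/-- A family of messages: the probability that a triangle has removed one of its edges. -/
abbrev Msg (n : ℕ) := Finset (Fin n) → Sym2 (Fin n) → ℝ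

/-- The probability that `f` is present, looking away from `t`. -/
noncomputable def qOf (G : Gr n) (I : Msg n) (t : Finset (Fin n)) (f : Sym2 (Fin n)) : ℝ :=
  ∏ t' ∈ ((triangles G).filter fun t' => f ∈ edgesOf t').erase t, (1 - I t' f)

/-- The probability that `f` is present. -/
noncomputable def uOf (G : Gr n) (I : Msg n) (f : Sym2 (Fin n)) : ℝ :=
  ∏ t ∈ (triangles G).filter fun t => f ∈ edgesOf t, (1 - I t f)

/-- The rate at which `t` removes `f`. -/
noncomputable def rate (G : Gr n) (I : Msg n) (t : Finset (Fin n)) (f : Sym2 (Fin n)) : ℝ :=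
  ∏ g ∈ (edgesOf t).erase f, qOf G I t g

/-- The messages of the cavity system. -/
noncomputable def msg (G : Gr n) : ℕ → Msg n
  | 0 => fun _ _ => 0
  | k + 1 => fun t f => msg G k t f + hst n G.card k * rate G (msg G k) t f

/-- The label weights of the grid cells; the last cell reaches up to time one. -/
noncomputable def wGrid (n E i : ℕ) : ℝ :=
  if i < nGrid n E then hst n E i else if i = nGrid n E then 1 - xt n E i else 0

/-- The depth `j` value of the presence of `f` at time one. -/
noncomputable def itVal (G : Gr n) (j : ℕ) (f : Sym2 (Fin n)) : ℝ :=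
  Labels.val G (wGrid n G.card) j ∅ f (nGrid n G.card + 1)

/-- What the analysis of the cavity system yields. -/
structure FlowOK (G : Gr n) : Prop where
  small : ∀ k, k ≤ nGrid n G.card → ∀ t ∈ triangles G, ∀ f ∈ edgesOf t,
    0 ≤ msg G k t f ∧ msg G k t f ≤ mHi n ^ (-(1 / 2) : ℝ)
  sup : ∀ k, k ≤ nGrid n G.card → mLo n ≤ mI n ((G.card : ℝ) - 3 * k) → ∀ f ∈ G,
    |uOf G (msg G k) f - phi G.card k| ≤ phi G.card k / lg n ^ 5
  mean : ∀ k, k ≤ nGrid n G.card →
    ∑ f ∈ G, |uOf G (msg G k) f - phi G.card k| ≤
      G.card * phi G.card k * mHi n ^ (-(2 / 5) : ℝ)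

/-- The predicted final number of edges from a state. -/
noncomputable def pred (G : Gr n) : ℝ := G.card * phi G.card (nGrid n G.card)

/-! ## Statements of the modules -/

/-- Module 1: tracking. -/
def TrackStep : Prop :=
  ∀ᶠ n : ℕ in atTop, EvUntil Stop (fun H : Gr n => if Good H then (0 : ℝ) else 1)
    (completeEdges n) ≤ 1 / (n : ℝ) ^ 3

/-- Module 2: the gap at the stopping stage. -/
def GapStep : Prop :=
  ∀ᶠ n : ℕ in atTop, EvUntil Stop (fun H : Gr n => if Good H ∧ ¬ Gap H then (1 : ℝ) else 0)
    (completeEdges n) ≤ 1 / (n : ℝ) ^ 3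

/-- Module 3: tree balls. -/
def TreeStep : Prop :=
  ∀ᶠ n : ℕ in atTop, EvUntil Stop (fun H : Gr n => if Good H then nonTree H else 0)
    (completeEdges n) ≤ (n : ℝ) ^ (13 / 10 : ℝ)

/-- Module 4: the cavity system. -/
def FlowStep : Prop :=
  ∀ᶠ n : ℕ in atTop, ∀ G : Gr n, AtStage G → Gap G → FlowOK G

/-- Module 5: the depth recursion agrees with the cavity system. -/
def IterStep : Prop :=
  ∀ᶠ n : ℕ in atTop, ∀ G : Gr n, AtStage G → FlowOK G → ∀ j, j = rad n ∨ j = rad n + 1 →
    |∑ f ∈ G, itVal G j f - pred G| ≤ pred G / lg n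

/-- Module 6: labels and locality. The expected final count lies between the two depth
recursions, and the second moment is at most the square of the upper one, up to errors. -/
def LocalStep : Prop :=
  ∀ᶠ n : ℕ in atTop, ∀ G : Gr n, AtStage G →
    Ev (fun H => (H.card : ℝ)) G ≤
        ∑ f ∈ G, itVal G (rad n) f + nonTree G +
          (n : ℝ) ^ (3 / 2 : ℝ) / lg n ∧
      ∑ f ∈ G, itVal G (rad n + 1) f - nonTree G -
          (n : ℝ) ^ (3 / 2 : ℝ) / lg n ≤ Ev (fun H => (H.card : ℝ)) G ∧
      Ev (fun H => (H.card : ℝ) ^ 2) G ≤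
        (∑ f ∈ G, itVal G (rad n) f + nonTree G +
          (n : ℝ) ^ (3 / 2 : ℝ) / lg n) ^ 2

end Vale.Agent.P046.Full
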