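import Mathlib

/-!
The deterministic cavity flow on a near-regular family of triples.

`Flows` says that `u` starts at `1` and removes, at step `n`, the amount `ε n / (M φ_n^2)` times
the sum over the members through a point of the product of the three values, up to `ε n φ_n w_n`;
`phi` is the same recursion for a regular tree, `φ_(n+1) = φ_n (1 - ε n)`.

With the relative deviation `r = v / φ - 1` the recursion is exactly
`r' = r - δ (d + d r + N r / M + quad - w)`, `δ = ε / (1 - ε)`.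

* `sup_bound`: pointwise linear-response bounds give a pointwise bound on `r`.
* `l2_bound`: a lower bound on the adjacency form gives a mean square bound on `r`.
* `l1_bound`: from any point on, `∑ |v - φ|` grows at most like the inverse square of `φ`.
-/

namespace Vale.Agent.P046.Full.Flow

open Finset

variable {ι α : Type*} [DecidableEq ι]

/-- The number of members through a point. -/
def deg (S : Finset α) (inc : α → Finset ι) (e : ι) : ℕ := (S.filter fun t => e ∈ inc t).card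

/-- The adjacency operator. -/
def Nop (S : Finset α) (inc : α → Finset ι) (v : ι → ℝ) (e : ι) : ℝ :=
  ∑ t ∈ S.filter (fun t => e ∈ inc t), ∑ i ∈ (inc t).erase e, v i

/-- Relative degree deviation. -/
noncomputable def dev (S : Finset α) (inc : α → Finset ι) (M : ℝ) (e : ι) : ℝ :=
  (deg S inc e : ℝ) / M - 1

/-- The tree value. -/
def phi (ε : ℕ → ℝ) : ℕ → ℝ
  | 0 => 1
  | n + 1 => phi ε n * (1 - ε n)

/-- The relative step. -/
noncomputable def delta (ε : ℕ → ℝ) (n : ℕ) : ℝ := ε n / (1 - ε n)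

/-- The propagated degree deviation. -/
noncomputable def lin (S : Finset α) (inc : α → Finset ι) (M : ℝ) (ε : ℕ → ℝ) : ℕ → ι → ℝ
  | 0 => dev S inc M
  | n + 1 => fun e => lin S inc M ε n e - delta ε n * (Nop S inc (lin S inc M ε n) e / M)

/-- The linear response. -/
noncomputable def resp (S : Finset α) (inc : α → Finset ι) (M : ℝ) (ε : ℕ → ℝ) (n : ℕ) (e : ι) :
    ℝ :=
  ∑ k ∈ range n, delta ε k * lin S inc M ε k e

/-- `u` follows the flow up to step `N`, with error `w`. -/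
structure Flows (S : Finset α) (inc : α → Finset ι) (M : ℝ) (ε : ℕ → ℝ) (u w : ℕ → ι → ℝ)
    (N : ℕ) : Prop where
  init : ∀ e, u 0 e = 1
  step : ∀ n < N, ∀ e, u (n + 1) e = u n e - ε n / (M * phi ε n ^ 2) *
    (∑ t ∈ S.filter (fun t => e ∈ inc t), ∏ i ∈ inc t, u n i) + ε n * phi ε n * w n e

/-- The relative deviation of the flow. -/
noncomputable def rel (ε : ℕ → ℝ) (u : ℕ → ι → ℝ) (n : ℕ) (e : ι) : ℝ := u n e / phi ε n - 1

/-- The higher order terms of the product, at a point. -/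
noncomputable def quad (S : Finset α) (inc : α → Finset ι) (M : ℝ) (r : ι → ℝ) (e : ι) : ℝ :=
  (∑ t ∈ S.filter (fun t => e ∈ inc t), (∏ i ∈ inc t, (1 + r i) - 1 - ∑ i ∈ inc t, r i)) / M

variable {S : Finset α} {inc : α → Finset ι} {M : ℝ} {ε : ℕ → ℝ} {u w : ℕ → ι → ℝ} {N : ℕ}

omit [DecidableEq ι] in
lemma phi_pos {n : ℕ} (hε : ∀ k < n, ε k < 1) : 0 < phi ε n := by
  induction n with
  | zero => simp [phi]
  | succ n ih =>
    simp only [phi]
    exact mul_pos (ih fun k hk => hε k (by omega)) (by linarith [hε n (by omega)])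

omit [DecidableEq ι] in
lemma phi_succ_le {n : ℕ} (hε : ∀ k ≤ n, 0 ≤ ε k ∧ ε k < 1) : phi ε (n + 1) ≤ phi ε n := by
  have h := phi_pos (ε := ε) (n := n) fun k hk => (hε k hk.le).2
  simp only [phi]
  nlinarith [hε n le_rfl]

omit [DecidableEq ι] in
lemma phi_anti {N : ℕ} (hε : ∀ k < N, 0 ≤ ε k ∧ ε k < 1) {a b : ℕ} (hab : a ≤ b) (hb : b ≤ N) :
    phi ε b ≤ phi ε a := by
  induction b with
  | zero => rw [Nat.le_zero.1 hab]
  | succ b ih =>
    rcases Nat.eq_or_lt_of_le hab with h | h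
    · rw [h]
    · exact le_trans (phi_succ_le fun k hk => hε k (by omega)) (ih (by omega) (by omega))

lemma erase_sum (v : ι → ℝ) {e : ι} {s : Finset ι} (he : e ∈ s) :
    ∑ i ∈ s, v i = v e + ∑ i ∈ s.erase e, v i := (add_sum_erase s v he).symm

lemma sum_incident (f : α → ι → ℝ) [Fintype ι] :
    ∑ e, ∑ t ∈ S.filter (fun t => e ∈ inc t), f t e = ∑ t ∈ S, ∑ e ∈ inc t, f t e := by
  simp only [sum_filter]
  rw [sum_comm]
  exact sum_congr rfl fun t _ => by rw [sum_ite_mem, univ_inter]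

lemma sum_members (v : ι → ℝ) (e : ι) :
    ∑ t ∈ S.filter (fun t => e ∈ inc t), ∑ i ∈ inc t, v i =
      (deg S inc e : ℝ) * v e + Nop S inc v e := by
  rw [Nop, deg, ← nsmul_eq_mul, ← sum_const, ← sum_add_distrib]
  exact sum_congr rfl fun t ht => erase_sum v (mem_filter.1 ht).2

lemma Nop_abs (h3 : ∀ t ∈ S, (inc t).card = 3) {v : ι → ℝ} {s : ℝ} (hv : ∀ i, |v i| ≤ s) (e : ι) :
    |Nop S inc v e| ≤ 2 * (deg S inc e : ℝ) * s := by
  refine (abs_sum_le_sum_abs _ _).trans ?_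
  calc ∑ t ∈ S.filter (fun t => e ∈ inc t), |∑ i ∈ (inc t).erase e, v i|
      ≤ ∑ t ∈ S.filter (fun t => e ∈ inc t), 2 * s := by
        refine sum_le_sum fun t ht => (abs_sum_le_sum_abs _ _).trans ?_
        refine (sum_le_sum fun i _ => hv i).trans_eq ?_
        rw [sum_const, card_erase_of_mem (mem_filter.1 ht).2, h3 t (mem_filter.1 ht).1]
        simp
    _ = 2 * (deg S inc e : ℝ) * s := by
        rw [sum_const, deg, nsmul_eq_mul]; ring

lemma prod_rem {r : ι → ℝ} {t : Finset ι} (ht : t.card = 3) {s : ℝ} (hs : s ≤ 1 / 2)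
    (hr : ∀ i ∈ t, |r i| ≤ s) :
    |∏ i ∈ t, (1 + r i) - 1 - ∑ i ∈ t, r i| ≤ 2 * s * ∑ i ∈ t, |r i| := by
  obtain ⟨a, b, c, hab, hac, hbc, rfl⟩ := card_eq_three.1 ht
  simp only [mem_insert, mem_singleton, forall_eq_or_imp, forall_eq] at hr
  obtain ⟨ha, hb, hc⟩ := hr
  have hP : ∀ f : ι → ℝ, ∏ i ∈ ({a, b, c} : Finset ι), f i = f a * (f b * f c) := by
    intro f; rw [prod_insert (by simp [hab, hac]), prod_pair hbc]
  have hS : ∀ f : ι → ℝ, ∑ i ∈ ({a, b, c} : Finset ι), f i = f a + (f b + f c) := by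
    intro f; rw [sum_insert (by simp [hab, hac]), sum_pair hbc]
  rw [hP, hS, hS]
  have h0 : 0 ≤ s := le_trans (abs_nonneg _) ha
  have e1 : |r a * r b| ≤ s * |r b| := by rw [abs_mul]; exact mul_le_mul_of_nonneg_right ha (abs_nonneg _)
  have e2 : |r a * r c| ≤ s * |r c| := by rw [abs_mul]; exact mul_le_mul_of_nonneg_right ha (abs_nonneg _)
  have e3 : |r b * r c| ≤ s * |r c| := by rw [abs_mul]; exact mul_le_mul_of_nonneg_right hb (abs_nonneg _)
  have e4 : |r a * r b * r c| ≤ s * |r a| := by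
    have h1 : |r b| * |r c| ≤ s * s := mul_le_mul hb hc (abs_nonneg _) h0
    calc |r a * r b * r c| = |r a| * (|r b| * |r c|) := by rw [abs_mul, abs_mul]; ring
      _ ≤ |r a| * (s * s) := mul_le_mul_of_nonneg_left h1 (abs_nonneg _)
      _ ≤ |r a| * s := by
          refine mul_le_mul_of_nonneg_left ?_ (abs_nonneg _)
          nlinarith
      _ = s * |r a| := mul_comm _ _
  rw [abs_le] at e1 e2 e3 e4 ⊢
  have := mul_nonneg h0 (abs_nonneg (r a))
  have := mul_nonneg h0 (abs_nonneg (r b))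
  constructor <;> linarith

lemma quad_abs (h3 : ∀ t ∈ S, (inc t).card = 3) (hM : 0 < M) {r : ι → ℝ} {s : ℝ} (hs : s ≤ 1 / 2)
    (hr : ∀ i, |r i| ≤ s) (e : ι) :
    |quad S inc M r e| ≤
      2 * s * ((deg S inc e : ℝ) * |r e| + Nop S inc (fun i => |r i|) e) / M := by
  rw [quad, abs_div, abs_of_pos hM, div_le_div_iff_of_pos_right hM,
    ← sum_members (fun i => |r i|), mul_sum]
  exact (abs_sum_le_sum_abs _ _).trans
    (sum_le_sum fun t ht => prod_rem (h3 t (mem_filter.1 ht).1) hs fun i _ => hr i)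

omit [DecidableEq ι] in
lemma flow_eq {n : ℕ} (hε : ∀ k < n, ε k < 1) (e : ι) :
    u n e = phi ε n * (1 + rel ε u n e) := by
  have := phi_pos (ε := ε) hε
  rw [rel]; field_simp; ring

/-- The exact recursion of the relative deviation. -/
lemma rel_succ (hF : Flows S inc M ε u w N) (h3 : ∀ t ∈ S, (inc t).card = 3) (hM : 0 < M)
    {n : ℕ} (hn : n < N) (hε : ∀ k ≤ n, ε k < 1) (e : ι) :
    rel ε u (n + 1) e = rel ε u n e - delta ε n *
      (dev S inc M e + dev S inc M e * rel ε u n e + Nop S inc (rel ε u n) e / M +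
        quad S inc M (rel ε u n) e - w n e) := by
  have hφ := phi_pos (ε := ε) (n := n) fun k hk => hε k hk.le
  have h1 : 0 < 1 - ε n := by linarith [hε n le_rfl]
  have hfl : ∀ i, u n i = phi ε n * (1 + rel ε u n i) :=
    flow_eq fun k hk => hε k hk.le
  have hp : ∀ t ∈ S.filter (fun t => e ∈ inc t), ∏ i ∈ inc t, u n i =
      phi ε n ^ (inc t).card * ∏ i ∈ inc t, (1 + rel ε u n i) := by
    intro t _
    rw [← prod_const, ← prod_mul_distrib]
    exact prod_congr rfl fun i _ => hfl i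
  have hq : (∑ t ∈ S.filter (fun t => e ∈ inc t), ∏ i ∈ inc t, (1 + rel ε u n i)) =
      (deg S inc e : ℝ) + ((deg S inc e : ℝ) * rel ε u n e +
        Nop S inc (rel ε u n) e) + M * quad S inc M (rel ε u n) e := by
    rw [quad, mul_div_cancel₀ _ hM.ne', ← sum_members]
    simp only [sum_sub_distrib, sum_const, nsmul_eq_mul, mul_one, deg]
    ring
  show u (n + 1) e / (phi ε n * (1 - ε n)) - 1 = _
  rw [hF.step n hn e]
  rw [sum_congr rfl hp, sum_congr rfl fun t ht => by rw [h3 t (mem_filter.1 ht).1], ← mul_sum,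
    hq, hfl e, delta, dev]
  field_simp
  ring

/-- The sum of the relative steps. -/
noncomputable def dsum (ε : ℕ → ℝ) (n : ℕ) : ℝ := ∑ k ∈ range n, delta ε k

omit [DecidableEq ι] in
lemma delta_nonneg {n : ℕ} (h : 0 ≤ ε n ∧ ε n < 1) : 0 ≤ delta ε n :=
  div_nonneg h.1 (by linarith [h.2])

omit [DecidableEq ι] in
lemma dsum_mono {N : ℕ} (hε : ∀ k < N, 0 ≤ ε k ∧ ε k < 1) {n : ℕ} (hn : n ≤ N) :
    dsum ε n ≤ dsum ε N :=
  sum_le_sum_of_subset_of_nonneg (range_mono hn) fun k hk _ =>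
    delta_nonneg (hε k (mem_range.1 hk))

omit [DecidableEq ι] in
lemma dsum_nonneg {n : ℕ} (hε : ∀ k < n, 0 ≤ ε k ∧ ε k < 1) : 0 ≤ dsum ε n :=
  sum_nonneg fun k hk => delta_nonneg (hε k (mem_range.1 hk))

omit [DecidableEq ι] in
lemma one_add_delta {n : ℕ} (h : ε n < 1) : 1 + delta ε n = 1 / (1 - ε n) := by
  have : 0 < 1 - ε n := by linarith
  rw [delta]; field_simp; ring

omit [DecidableEq ι] in
lemma inv_phi_succ {n : ℕ} (h : ε n < 1) :
    1 / phi ε (n + 1) = (1 + delta ε n) / phi ε n := by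
  rw [one_add_delta h, phi, div_div, mul_comm]

lemma Nop_lin (a b : ℝ) (u v : ι → ℝ) (e : ι) :
    Nop S inc (fun i => a * u i + b * v i) e = a * Nop S inc u e + b * Nop S inc v e := by
  simp only [Nop, sum_add_distrib, ← mul_sum]

lemma lin_eq (n : ℕ) : ∀ e, lin S inc M ε n e =
    dev S inc M e - Nop S inc (resp S inc M ε n) e / M := by
  induction n with
  | zero => intro e; simp [lin, resp, Nop]
  | succ n ih =>
    intro e
    have h : resp S inc M ε (n + 1) =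
        fun i => 1 * resp S inc M ε n i + delta ε n * lin S inc M ε n i := by
      funext i; simp [resp, sum_range_succ]
    rw [h, Nop_lin]
    simp only [lin]
    rw [ih e]
    ring

lemma deg_bound {η : ℝ} (hM : 0 < M) (hdev : ∀ e, |dev S inc M e| ≤ η) (e : ι) :
    (deg S inc e : ℝ) ≤ (1 + η) * M := by
  have h := (abs_le.1 (hdev e)).2
  rw [dev, sub_le_iff_le_add, div_le_iff₀ hM] at h
  linarith

/-- Quadratic and degree terms of one step. -/
lemma force_abs (h3 : ∀ t ∈ S, (inc t).card = 3) (hM : 0 < M) {η : ℝ} (hη1 : η ≤ 1)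
    (hdev : ∀ e, |dev S inc M e| ≤ η) {r : ι → ℝ} {s : ℝ} (hs : s ≤ 1 / 2) (hr : ∀ i, |r i| ≤ s)
    (e : ι) :
    |dev S inc M e * r e + quad S inc M r e| ≤
      η * |r e| + 2 * s * (2 * |r e| + Nop S inc (fun i => |r i|) e / M) := by
  have h0 : 0 ≤ s := le_trans (abs_nonneg _) (hr e)
  refine (abs_add_le _ _).trans (add_le_add ?_ ?_)
  · rw [abs_mul]; exact mul_le_mul_of_nonneg_right (hdev e) (abs_nonneg _)
  · refine (quad_abs h3 hM hs hr e).trans ?_
    rw [mul_div_assoc, add_div]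
    refine mul_le_mul_of_nonneg_left (add_le_add ?_ le_rfl) (by linarith)
    rw [div_le_iff₀ hM]
    nlinarith [deg_bound hM hdev e, abs_nonneg (r e), mul_nonneg hM.le (abs_nonneg (r e))]

omit [DecidableEq ι] in
lemma exp_le_two {x : ℝ} (hx : x ≤ 1 / 2) : Real.exp x ≤ 2 :=
  (Real.exp_le_exp.2 hx).trans ((Real.exp_bound_div_one_sub_of_interval (by norm_num)
    (by norm_num)).trans (by norm_num))

omit [DecidableEq ι] in
/-- The envelope of the error of linear response. -/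
noncomputable def env (ε : ℕ → ℝ) (κ η : ℝ) (n : ℕ) : ℝ :=
  51 * κ ^ 2 * Real.exp (2 * η * dsum ε n) * dsum ε n / phi ε n ^ 2

omit [DecidableEq ι] in
lemma env_le {κ η : ℝ} {n₀ n : ℕ} (hε : ∀ k < n₀, 0 ≤ ε k ∧ ε k < 1) (hη : 0 ≤ η) (hκ : 0 ≤ κ)
    (hsmall : 200 * κ * dsum ε n₀ ≤ phi ε n₀) (hηT : η * dsum ε n₀ ≤ 1 / 4) (hn : n ≤ n₀) :
    env ε κ η n ≤ κ / phi ε n := by
  have hpn : 0 < phi ε n := phi_pos fun k hk => (hε k (by omega)).2
  have hmono := dsum_mono (ε := ε) hε hn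
  have hD0 : 0 ≤ dsum ε n := dsum_nonneg fun k hk => hε k (by omega)
  have hG : Real.exp (2 * η * dsum ε n) ≤ 2 :=
    exp_le_two (by nlinarith [mul_le_mul_of_nonneg_left hmono hη])
  have h2 : 102 * κ * dsum ε n ≤ phi ε n := by
    nlinarith [phi_anti (ε := ε) hε hn le_rfl, mul_le_mul_of_nonneg_left hmono hκ,
      mul_nonneg hκ hD0]
  rw [env, div_le_div_iff₀ (by positivity) hpn]
  calc 51 * κ ^ 2 * Real.exp (2 * η * dsum ε n) * dsum ε n * phi ε n
      ≤ 51 * κ ^ 2 * 2 * dsum ε n * phi ε n := by gcongr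
    _ = κ * (102 * κ * dsum ε n) * phi ε n := by ring
    _ ≤ κ * phi ε n * phi ε n := by gcongr
    _ = κ * phi ε n ^ 2 := by ring

omit [DecidableEq ι] in
lemma env_step {κ η : ℝ} {n : ℕ} (hε : ∀ k ≤ n, 0 ≤ ε k ∧ ε k < 1) (hη : 0 ≤ η) :
    env ε κ η n + delta ε n * (2 * (1 + η) * env ε κ η n) +
      delta ε n * (51 * κ ^ 2 / phi ε n ^ 2) ≤ env ε κ η (n + 1) := by
  have hd := delta_nonneg (hε n le_rfl)
  have hpn : 0 < phi ε n := phi_pos fun k hk => (hε k hk.le).2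
  have hds : dsum ε (n + 1) = dsum ε n + delta ε n := sum_range_succ _ _
  have hD : 0 ≤ dsum ε n := dsum_nonneg fun k hk => hε k hk.le
  have hexp : Real.exp (2 * η * dsum ε (n + 1)) =
      Real.exp (2 * η * delta ε n) * Real.exp (2 * η * dsum ε n) := by
    rw [← Real.exp_add, hds]; ring_nf
  have key : env ε κ η (n + 1) = (1 + delta ε n) ^ 2 * Real.exp (2 * η * delta ε n) * env ε κ η n +
      (1 + delta ε n) ^ 2 * Real.exp (2 * η * dsum ε (n + 1)) *
        (delta ε n * (51 * κ ^ 2 / phi ε n ^ 2)) := by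
    rw [env, env, div_eq_mul_one_div _ (phi ε (n + 1) ^ 2), ← one_div_pow,
      inv_phi_succ (hε n le_rfl).2, hexp, hds]
    ring
  have henv : 0 ≤ env ε κ η n := by rw [env]; positivity
  have he := Real.add_one_le_exp (2 * η * delta ε n)
  have hsq : 1 + 2 * delta ε n ≤ (1 + delta ε n) ^ 2 := by nlinarith
  have h1 : 1 + delta ε n * (2 * (1 + η)) ≤
      (1 + delta ε n) ^ 2 * Real.exp (2 * η * delta ε n) := by
    have h := mul_le_mul hsq he (by positivity) (by positivity)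
    nlinarith [mul_nonneg (mul_nonneg hd hd) hη]
  have h2 : 1 ≤ (1 + delta ε n) ^ 2 * Real.exp (2 * η * dsum ε (n + 1)) :=
    one_le_mul_of_one_le_of_one_le (by nlinarith) (Real.one_le_exp (by rw [hds]; positivity))
  rw [key]
  refine add_le_add ?_ (le_mul_of_one_le_left (by positivity) h2)
  calc env ε κ η n + delta ε n * (2 * (1 + η) * env ε κ η n)
      = (1 + delta ε n * (2 * (1 + η))) * env ε κ η n := by ring
    _ ≤ _ := mul_le_mul_of_nonneg_right h1 henv

lemma resp_bound {κ : ℝ} {n₀ : ℕ} (hε : ∀ k < n₀, 0 ≤ ε k ∧ ε k < 1)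
    (hlin : ∀ k < n₀, ∀ e, |lin S inc M ε k e| ≤ κ / phi ε k) :
    ∀ n ≤ n₀, ∀ e, |resp S inc M ε n e| ≤ κ / phi ε n - κ := by
  intro n
  induction n with
  | zero => intro _ e; simp [resp, phi]
  | succ n ih =>
    intro hn e
    have h1 := (hε n (by omega))
    have hd := delta_nonneg h1
    rw [resp, sum_range_succ]
    refine (abs_add_le _ _).trans ?_
    rw [abs_mul, abs_of_nonneg hd]
    calc |∑ k ∈ range n, delta ε k * lin S inc M ε k e| + delta ε n * |lin S inc M ε n e|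
        ≤ (κ / phi ε n - κ) + delta ε n * (κ / phi ε n) :=
          add_le_add (ih (by omega) e) (mul_le_mul_of_nonneg_left (hlin n (by omega) e) hd)
      _ = κ * ((1 + delta ε n) / phi ε n) - κ := by ring
      _ = κ / phi ε (n + 1) - κ := by rw [← inv_phi_succ h1.2]; ring

lemma err_step (hF : Flows S inc M ε u w N) (h3 : ∀ t ∈ S, (inc t).card = 3) (hM : 0 < M) {η s X ω : ℝ} (hη1 : η ≤ 1)
    {n : ℕ} (hn : n < N) (hw : ∀ e, |w n e| ≤ ω) (hε : ∀ k ≤ n, 0 ≤ ε k ∧ ε k < 1) (hdev : ∀ e, |dev S inc M e| ≤ η)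
    (hηs : η ≤ s / 2) (hs : s ≤ 1 / 2) (hr : ∀ i, |rel ε u n i| ≤ s)
    (hX : ∀ i, |rel ε u n i + resp S inc M ε n i| ≤ X) (e : ι) :
    |rel ε u (n + 1) e + resp S inc M ε (n + 1) e| ≤
      X + delta ε n * (2 * (1 + η) * X) + delta ε n * (25 / 2 * s ^ 2 + ω) := by
  have hd := delta_nonneg (hε n le_rfl)
  have hs0 : 0 ≤ s := le_trans (abs_nonneg _) (hr e)
  have hX0 : 0 ≤ X := le_trans (abs_nonneg _) (hX e)
  have hη : 0 ≤ η := le_trans (abs_nonneg _) (hdev e)
  have hdeg := deg_bound hM hdev e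
  have hQ : |dev S inc M e * rel ε u n e + quad S inc M (rel ε u n) e| ≤
      25 / 2 * s ^ 2 := by
    refine (force_abs h3 hM hη1 hdev hs hr e).trans ?_
    have hN : Nop S inc (fun i => |rel ε u n i|) e / M ≤ 4 * s := by
      rw [div_le_iff₀ hM]
      have h := le_of_abs_le (Nop_abs (S := S) (inc := inc) h3
        (v := fun i => |rel ε u n i|) (fun i => by rw [abs_abs]; exact hr i) e)
      have h2 : (deg S inc e : ℝ) ≤ 2 * M := by
        linarith [mul_le_mul_of_nonneg_right (show 1 + η ≤ 2 by linarith) hM.le]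
      linarith [mul_le_mul_of_nonneg_right h2 hs0]
    nlinarith [hr e, abs_nonneg (rel ε u n e), mul_le_mul hηs (hr e) (abs_nonneg _) (by linarith),
      mul_le_mul_of_nonneg_left hN hs0, mul_le_mul_of_nonneg_left (hr e) hs0]
  have hstep : rel ε u (n + 1) e + resp S inc M ε (n + 1) e =
      (rel ε u n e + resp S inc M ε n e) -
      delta ε n * (Nop S inc (fun i => 1 * rel ε u n i + 1 * resp S inc M ε n i) e / M) -
      delta ε n * (dev S inc M e * rel ε u n e + quad S inc M (rel ε u n) e - w n e) := by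
    rw [rel_succ hF h3 hM hn (fun k hk => (hε k hk).2), Nop_lin, resp, sum_range_succ, ← resp,
      lin_eq n e]
    ring
  have hN : |Nop S inc (fun i => 1 * rel ε u n i + 1 * resp S inc M ε n i) e / M| ≤
      2 * (1 + η) * X := by
    rw [abs_div, abs_of_pos hM, div_le_iff₀ hM]
    have h := Nop_abs (S := S) (inc := inc) h3
      (v := fun i => 1 * rel ε u n i + 1 * resp S inc M ε n i)
      (fun i => by simpa only [one_mul] using hX i) e
    nlinarith
  rw [hstep]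
  refine (abs_sub _ _).trans ((add_le_add (abs_sub _ _) le_rfl).trans ?_)
  rw [abs_mul, abs_mul, abs_of_nonneg hd]
  exact add_le_add (add_le_add (hX e) (mul_le_mul_of_nonneg_left hN hd))
    (mul_le_mul_of_nonneg_left ((abs_sub _ _).trans (add_le_add hQ (hw e))) hd)

/-- Pointwise bound up to `n₀`, from a pointwise bound on the propagated degree deviations. -/
theorem sup_bound (hF : Flows S inc M ε u w N) (h3 : ∀ t ∈ S, (inc t).card = 3) (hM : 0 < M) {η κ : ℝ} {n₀ : ℕ}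
    (hn₀ : n₀ ≤ N) (hε : ∀ k < n₀, 0 ≤ ε k ∧ ε k < 1) (hη : 0 ≤ η) (hκ : η ≤ κ)
    (hdev : ∀ e, |dev S inc M e| ≤ η)
    (hw : ∀ k < n₀, (∀ j ≤ k, ∀ i, |rel ε u j i| ≤ 2 * κ / phi ε j) → ∀ e, |w k e| ≤ κ ^ 2)
    (hlin : ∀ k < n₀, ∀ e, |lin S inc M ε k e| ≤ κ / phi ε k)
    (hs : 4 * κ ≤ phi ε n₀) (hsmall : 200 * κ * dsum ε n₀ ≤ phi ε n₀)
    (hηT : η * dsum ε n₀ ≤ 1 / 4) :
    ∀ n ≤ n₀, ∀ e, |rel ε u n e| ≤ 2 * κ / phi ε n := by
  have hκ0 : 0 ≤ κ := le_trans hη hκ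
  have hp : ∀ n ≤ n₀, 0 < phi ε n ∧ phi ε n ≤ 1 := fun n hn =>
    ⟨phi_pos fun k hk => (hε k (by omega)).2,
      le_of_le_of_eq (phi_anti (ε := ε) hε (Nat.zero_le n) hn) rfl⟩
  have hresp := resp_bound (S := S) (inc := inc) (M := M) hε hlin
  have habs : ∀ n ≤ n₀, (∀ e, |rel ε u n e + resp S inc M ε n e| ≤ env ε κ η n) →
      ∀ e, |rel ε u n e| ≤ 2 * κ / phi ε n := by
    intro n hn h e
    calc |rel ε u n e|
        = |(rel ε u n e + resp S inc M ε n e) - resp S inc M ε n e| := by ring_nf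
      _ ≤ |rel ε u n e + resp S inc M ε n e| + |resp S inc M ε n e| := abs_sub _ _
      _ ≤ κ / phi ε n + (κ / phi ε n - κ) :=
          add_le_add ((h e).trans (env_le hε hη hκ0 hsmall hηT hn)) (hresp n hn e)
      _ ≤ 2 * κ / phi ε n := by rw [mul_div_assoc]; linarith
  have herr : ∀ n ≤ n₀, ∀ e, |rel ε u n e + resp S inc M ε n e| ≤ env ε κ η n := by
    intro n
    induction n using Nat.strong_induction_on with
    | _ n ih =>
      intro hn e
      rcases n with _ | n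
      · simp [rel, resp, hF.init, phi, env, dsum]
      have hn' : n ≤ n₀ := by omega
      obtain ⟨hpn, hpn1⟩ := hp n hn'
      have hsn : 2 * κ / phi ε n ≤ 1 / 2 := by
        rw [div_le_iff₀ hpn]; linarith [phi_anti (ε := ε) hε hn' le_rfl]
      have hη1 : η ≤ 1 := by linarith [(hp n₀ le_rfl).2]
      have hηs : η ≤ 2 * κ / phi ε n / 2 := by
        rw [le_div_iff₀ two_pos, le_div_iff₀ hpn]; nlinarith
      have hprev : ∀ j ≤ n, ∀ i, |rel ε u j i| ≤ 2 * κ / phi ε j := fun j hj =>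
        habs j (by omega) (ih j (by omega) (by omega))
      refine (err_step hF h3 hM hη1 (by omega) (hw n (by omega) hprev) (fun k hk => hε k (by omega))
        hdev hηs hsn (hprev n le_rfl) (ih n (by omega) hn') e).trans
          (le_trans ?_ (env_step (fun k hk => hε k (by omega)) hη))
      refine add_le_add le_rfl (mul_le_mul_of_nonneg_left ?_ (delta_nonneg (hε n (by omega))))
      have h1 : κ ^ 2 ≤ κ ^ 2 / phi ε n ^ 2 := by
        rw [le_div_iff₀ (by positivity)]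
        exact mul_le_of_le_one_right (sq_nonneg _) (pow_le_one₀ hpn.le hpn1)
      calc 25 / 2 * (2 * κ / phi ε n) ^ 2 + κ ^ 2
          ≤ 25 / 2 * (2 * κ / phi ε n) ^ 2 + κ ^ 2 / phi ε n ^ 2 := by linarith
        _ = 51 * κ ^ 2 / phi ε n ^ 2 := by ring
  exact fun n hn => habs n hn (herr n hn)

variable [Fintype ι]

/-- The Euclidean norm of a vector. -/
noncomputable def nrm (v : ι → ℝ) : ℝ := Real.sqrt (∑ e, v e ^ 2)

omit [DecidableEq ι] in
lemma nrm_nonneg (v : ι → ℝ) : 0 ≤ nrm v := Real.sqrt_nonneg _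

omit [DecidableEq ι] in
lemma nrm_add (u v : ι → ℝ) : nrm (fun e => u e + v e) ≤ nrm u + nrm v := by
  refine Real.sqrt_le_iff.2 ⟨add_nonneg (nrm_nonneg u) (nrm_nonneg v), ?_⟩
  have h := Real.sum_mul_le_sqrt_mul_sqrt univ u v
  rw [nrm, nrm, add_sq, Real.sq_sqrt (sum_nonneg fun e _ => sq_nonneg (u e)),
    Real.sq_sqrt (sum_nonneg fun e _ => sq_nonneg (v e))]
  simp only [add_sq, sum_add_distrib, mul_assoc, ← mul_sum]
  linarith

omit [DecidableEq ι] in
lemma nrm_mono {u v : ι → ℝ} (h : ∀ e, |u e| ≤ v e) : nrm u ≤ nrm v :=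
  Real.sqrt_le_sqrt (sum_le_sum fun e _ =>
    sq_le_sq.2 ((h e).trans (le_abs_self _)))

omit [DecidableEq ι] in
lemma nrm_smul {c : ℝ} (hc : 0 ≤ c) (v : ι → ℝ) : nrm (fun e => c * v e) = c * nrm v := by
  simp only [nrm, mul_pow, ← mul_sum]
  rw [Real.sqrt_mul (sq_nonneg c), Real.sqrt_sq hc]

omit [DecidableEq ι] in
lemma nrm_abs (v : ι → ℝ) : nrm (fun e => |v e|) = nrm v := by simp [nrm]

omit [DecidableEq ι] in
lemma sum_abs_le_nrm (v : ι → ℝ) : ∑ e, |v e| ≤ Real.sqrt (Fintype.card ι) * nrm v := by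
  have h := Real.sum_mul_le_sqrt_mul_sqrt univ (fun _ : ι => (1 : ℝ)) (fun e => |v e|)
  simpa [nrm] using h

omit [Fintype ι] in
lemma sum_erase_pairs (f : ι → ℝ) {t : Finset ι} (ht : t.card = 3) :
    ∑ e ∈ t, ∑ i ∈ t.erase e, f i = 2 * ∑ i ∈ t, f i := by
  rw [sum_congr rfl fun e he => sum_erase_eq_sub (f := f) he, sum_sub_distrib, sum_const, ht]
  simp only [nsmul_eq_mul]; push_cast; ring

/-- The adjacency operator has norm at most twice the maximum degree. -/
lemma Nop_sq (h3 : ∀ t ∈ S, (inc t).card = 3) {Y : ℝ} (hY0 : 0 ≤ Y)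
    (hY : ∀ e, (deg S inc e : ℝ) ≤ Y) (v : ι → ℝ) :
    ∑ e, Nop S inc v e ^ 2 ≤ (2 * Y) ^ 2 * ∑ e, v e ^ 2 := by
  calc ∑ e, Nop S inc v e ^ 2
      ≤ ∑ e, Y * ∑ t ∈ S.filter (fun t => e ∈ inc t), 2 * ∑ i ∈ (inc t).erase e, v i ^ 2 := by
        refine sum_le_sum fun e _ => sq_sum_le_card_mul_sum_sq.trans ?_
        refine mul_le_mul (hY e) (sum_le_sum fun t ht => ?_)
          (sum_nonneg fun t _ => sq_nonneg _) hY0
        refine sq_sum_le_card_mul_sum_sq.trans (le_of_eq ?_)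
        rw [card_erase_of_mem (mem_filter.1 ht).2, h3 t (mem_filter.1 ht).1]
        simp
    _ = Y * ∑ t ∈ S, 4 * ∑ i ∈ inc t, v i ^ 2 := by
        rw [← mul_sum, sum_incident]
        refine congrArg _ (sum_congr rfl fun t ht => ?_)
        rw [← mul_sum, sum_erase_pairs _ (h3 t ht)]; ring
    _ = Y * (4 * ∑ e, (deg S inc e : ℝ) * v e ^ 2) := by
        rw [← mul_sum, ← sum_incident (fun _ i => v i ^ 2)]
        simp [deg]
    _ ≤ (2 * Y) ^ 2 * ∑ e, v e ^ 2 := by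
        have : ∑ e, (deg S inc e : ℝ) * v e ^ 2 ≤ Y * ∑ e, v e ^ 2 := by
          rw [mul_sum]; exact sum_le_sum fun e _ => mul_le_mul_of_nonneg_right (hY e) (sq_nonneg _)
        nlinarith [mul_le_mul_of_nonneg_left this hY0]

/-- One linear step in Euclidean norm, from a lower bound on the adjacency form. -/
lemma nrm_lin_step (h3 : ∀ t ∈ S, (inc t).card = 3) (hM : 0 < M) {g δ : ℝ} (hg : 0 ≤ g)
    (hδ : 0 ≤ δ) (hdeg : ∀ e, (deg S inc e : ℝ) ≤ 2 * M)
    (hgap : ∀ x : ι → ℝ, -g * M * ∑ e, x e ^ 2 ≤ ∑ e, x e * Nop S inc x e) (v : ι → ℝ) :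
    nrm (fun e => v e - δ * (Nop S inc v e / M)) ≤ (1 + g * δ + 8 * δ ^ 2) * nrm v := by
  have hN := Nop_sq h3 (by positivity) hdeg v
  have hv : 0 ≤ ∑ e, v e ^ 2 := sum_nonneg fun e _ => sq_nonneg _
  refine Real.sqrt_le_iff.2 ⟨by have := nrm_nonneg v; positivity, ?_⟩
  rw [mul_pow, nrm, Real.sq_sqrt hv]
  have he : ∑ e, (v e - δ * (Nop S inc v e / M)) ^ 2 = ∑ e, v e ^ 2 -
      2 * δ * (∑ e, v e * Nop S inc v e) / M + δ ^ 2 / M ^ 2 * ∑ e, Nop S inc v e ^ 2 := by
    simp only [mul_sum, sum_div, ← sum_sub_distrib, ← sum_add_distrib]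
    exact sum_congr rfl fun e _ => by field_simp; ring
  have h1 : -(2 * δ * (∑ e, v e * Nop S inc v e) / M) ≤ 2 * δ * g * ∑ e, v e ^ 2 := by
    rw [neg_le, le_div_iff₀ hM]
    nlinarith [mul_le_mul_of_nonneg_left (hgap v) hδ]
  have h2 : δ ^ 2 / M ^ 2 * ∑ e, Nop S inc v e ^ 2 ≤ 16 * δ ^ 2 * ∑ e, v e ^ 2 := by
    rw [div_mul_eq_mul_div, div_le_iff₀ (by positivity)]
    nlinarith [mul_le_mul_of_nonneg_left hN (sq_nonneg δ)]
  have h3' : (1 + 2 * δ * g + 16 * δ ^ 2) * ∑ e, v e ^ 2 ≤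
      (1 + g * δ + 8 * δ ^ 2) ^ 2 * ∑ e, v e ^ 2 :=
    mul_le_mul_of_nonneg_right (by nlinarith [sq_nonneg (g * δ + 8 * δ ^ 2)]) hv
  rw [he]; linarith

/-- One step of the flow in Euclidean norm. -/
lemma nrm_rel_succ (hF : Flows S inc M ε u w N) (h3 : ∀ t ∈ S, (inc t).card = 3) (hM : 0 < M) {g η s : ℝ} (hg : 0 ≤ g)
    (hη0 : 0 ≤ η) (hη1 : η ≤ 1) (hηs : η ≤ s) (hs : s ≤ 1 / 2) {n : ℕ}
    (hn : n < N) {ω : ℝ} (hω : 0 ≤ ω) (hw : ∀ e, |w n e| ≤ ω)
    (hε : ∀ k ≤ n, 0 ≤ ε k ∧ ε k < 1) (hdev : ∀ e, |dev S inc M e| ≤ η)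
    (hgap : ∀ x : ι → ℝ, -g * M * ∑ e, x e ^ 2 ≤ ∑ e, x e * Nop S inc x e)
    (hr : ∀ e, |rel ε u n e| ≤ s) :
    nrm (rel ε u (n + 1)) ≤
      (1 + (g + 8 * delta ε n + 13 * s) * delta ε n) * nrm (rel ε u n) +
        delta ε n * ((η + ω) * Real.sqrt (Fintype.card ι)) := by
  obtain ⟨r, hrdef⟩ : ∃ r, r = rel ε u n := ⟨_, rfl⟩
  rw [← hrdef] at hr ⊢
  have hd := delta_nonneg (hε n le_rfl)
  have hs0 : 0 ≤ s := hη0.trans hηs
  have hdeg : ∀ e, (deg S inc e : ℝ) ≤ 2 * M := fun e => (deg_bound hM hdev e).trans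
    (mul_le_mul_of_nonneg_right (by linarith) hM.le)
  have hb : ∀ e, |rel ε u (n + 1) e| ≤ |r e - delta ε n * (Nop S inc r e / M)| +
      delta ε n * ((η + ω) + ((η + 4 * s) * |r e| + 2 * s / M * |Nop S inc (fun i => |r i|) e|)) := by
    intro e
    rw [rel_succ hF h3 hM hn (fun k hk => (hε k hk).2), ← hrdef]
    have h := force_abs h3 hM hη1 hdev hs hr e
    have heq : r e - delta ε n * (dev S inc M e + dev S inc M e * r e + Nop S inc r e / M +
        quad S inc M r e - w n e) = (r e - delta ε n * (Nop S inc r e / M)) -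
        delta ε n * ((dev S inc M e - w n e) + (dev S inc M e * r e + quad S inc M r e)) := by ring
    rw [heq]
    refine (abs_sub _ _).trans (add_le_add le_rfl ?_)
    rw [abs_mul, abs_of_nonneg hd]
    refine mul_le_mul_of_nonneg_left ((abs_add_le _ _).trans (add_le_add
      ((abs_sub _ _).trans (add_le_add (hdev e) (hw e))) (h.trans ?_))) hd
    have := mul_le_mul_of_nonneg_left (le_abs_self (Nop S inc (fun i => |r i|) e))
      (show 0 ≤ 2 * s / M by positivity)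
    calc η * |r e| + 2 * s * (2 * |r e| + Nop S inc (fun i => |r i|) e / M)
        = (η + 4 * s) * |r e| + 2 * s / M * Nop S inc (fun i => |r i|) e := by ring
      _ ≤ _ := by linarith
  refine (nrm_mono hb).trans ((nrm_add _ _).trans ?_)
  rw [nrm_abs, nrm_smul hd]
  have h1 := nrm_lin_step h3 hM hg hd hdeg hgap r
  have h2 : nrm (fun _ : ι => η + ω) = (η + ω) * Real.sqrt (Fintype.card ι) := by
    simp [nrm, Real.sqrt_mul (Nat.cast_nonneg _), Real.sqrt_sq (add_nonneg hη0 hω), mul_comm]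
  have hN : nrm (Nop S inc fun i => |r i|) ≤ 4 * M * nrm r := by
    refine Real.sqrt_le_iff.2 ⟨by have := nrm_nonneg r; positivity, ?_⟩
    rw [mul_pow, nrm, Real.sq_sqrt (sum_nonneg fun e _ => sq_nonneg _)]
    refine (Nop_sq h3 (by positivity) hdeg fun i => |r i|).trans (le_of_eq ?_)
    simp only [sq_abs]; ring
  have h4 : nrm (fun e => η + ω + ((η + 4 * s) * |r e| + 2 * s / M * |Nop S inc (fun i => |r i|) e|))
      ≤ (η + ω) * Real.sqrt (Fintype.card ι) + ((η + 4 * s) * nrm r + 2 * s / M * (4 * M * nrm r)) := by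
    refine (nrm_add _ _).trans (add_le_add h2.le ((nrm_add _ _).trans (add_le_add ?_ ?_)))
    · rw [nrm_smul (by positivity), nrm_abs]
    · rw [nrm_smul (by positivity), nrm_abs]
      exact mul_le_mul_of_nonneg_left hN (by positivity)
  have h5 : (η + 4 * s) * nrm r + 2 * s / M * (4 * M * nrm r) ≤ 13 * s * nrm r := by
    have : 2 * s / M * (4 * M * nrm r) = 8 * s * nrm r := by field_simp; ring
    nlinarith [mul_le_mul_of_nonneg_right hηs (nrm_nonneg r)]
  nlinarith [mul_le_mul_of_nonneg_left (h4.trans (add_le_add le_rfl h5)) hd]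

/-- Mean square bound up to `n₀`, from a lower bound on the adjacency form. -/
theorem l2_bound (hF : Flows S inc M ε u w N) (h3 : ∀ t ∈ S, (inc t).card = 3) (hM : 0 < M) {η κ g dm : ℝ} {n₀ : ℕ}
    (hn₀ : n₀ ≤ N) {ω : ℝ} (hω : 0 ≤ ω) (hw : ∀ k < n₀, ∀ e, |w k e| ≤ ω)
    (hε : ∀ k < n₀, 0 ≤ ε k ∧ ε k < 1) (hη : 0 ≤ η) (hκ : η ≤ κ)
    (hdev : ∀ e, |dev S inc M e| ≤ η) (hg : 0 ≤ g)
    (hgap : ∀ x : ι → ℝ, -g * M * ∑ e, x e ^ 2 ≤ ∑ e, x e * Nop S inc x e)
    (hs : 4 * κ ≤ phi ε n₀) (hrel : ∀ n ≤ n₀, ∀ e, |rel ε u n e| ≤ 2 * κ / phi ε n)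
    (hdm : ∀ k < n₀, delta ε k ≤ dm)
    (hT : (g + 8 * dm + 26 * κ / phi ε n₀) * dsum ε n₀ ≤ 1 / 2) :
    nrm (rel ε u n₀) ≤ 2 * (η + ω) * dsum ε n₀ * Real.sqrt (Fintype.card ι) := by
  have hp : 0 < phi ε n₀ := phi_pos fun k hk => (hε k hk).2
  have hp1 : phi ε n₀ ≤ 1 := le_of_le_of_eq (phi_anti hε (Nat.zero_le n₀) le_rfl) rfl
  have hκ0 : 0 ≤ κ := hη.trans hκ
  obtain ⟨c, hc⟩ : ∃ c, c = g + 8 * dm + 26 * κ / phi ε n₀ := ⟨_, rfl⟩
  obtain ⟨F, hFd⟩ : ∃ F, F = (η + ω) * Real.sqrt (Fintype.card ι) := ⟨_, rfl⟩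
  have hF0 : 0 ≤ F := by rw [hFd]; positivity
  rw [← hc] at hT
  have main : ∀ n ≤ n₀, nrm (rel ε u n) ≤ Real.exp (c * dsum ε n) * dsum ε n * F := by
    intro n
    induction n with
    | zero => intro _; simp [nrm, rel, hF.init, phi, dsum]
    | succ n ih =>
      intro hn
      have hd := delta_nonneg (hε n (by omega))
      have hD : 0 ≤ dsum ε n := dsum_nonneg fun k hk => hε k (by omega)
      have hdm0 : 0 ≤ dm := hd.trans (hdm n (by omega))
      have hc0 : 0 ≤ c := by rw [hc]; positivity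
      have hds : dsum ε (n + 1) = dsum ε n + delta ε n := sum_range_succ _ _
      obtain ⟨s, hsdef⟩ : ∃ s, s = 2 * κ / phi ε n₀ := ⟨_, rfl⟩
      have hss : s ≤ 1 / 2 := by rw [hsdef, div_le_iff₀ hp]; linarith
      have hηs : η ≤ s := by rw [hsdef, le_div_iff₀ hp]; nlinarith
      have hr : ∀ e, |rel ε u n e| ≤ s := fun e => by
        refine (hrel n (by omega) e).trans ?_
        rw [hsdef]
        exact div_le_div_of_nonneg_left (by positivity) hp (phi_anti hε (by omega) le_rfl)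
      have h := nrm_rel_succ hF h3 hM hg hη (by linarith) hηs hss (show n < N by omega) hω
        (hw n (by omega)) (fun k hk => hε k (by omega)) hdev hgap hr
      rw [← hFd] at h
      refine h.trans ?_
      have hrate : g + 8 * delta ε n + 13 * s ≤ c := by
        have : 13 * s = 26 * κ / phi ε n₀ := by rw [hsdef]; ring
        linarith [hdm n (by omega)]
      have he : 1 + c * delta ε n ≤ Real.exp (c * delta ε n) := by
        linarith [Real.add_one_le_exp (c * delta ε n)]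
      rw [hds]
      calc (1 + (g + 8 * delta ε n + 13 * s) * delta ε n) * nrm (rel ε u n) + delta ε n * F
          ≤ Real.exp (c * delta ε n) * (Real.exp (c * dsum ε n) * dsum ε n * F) +
            Real.exp (c * (dsum ε n + delta ε n)) * (delta ε n * F) := by
            refine add_le_add (mul_le_mul (le_trans ?_ he) (ih (by omega)) (nrm_nonneg _)
              (Real.exp_pos _).le) (le_mul_of_one_le_left (by positivity)
                (Real.one_le_exp (by positivity)))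
            linarith [mul_le_mul_of_nonneg_right hrate hd]
        _ = _ := by rw [mul_add c, Real.exp_add]; ring
  refine (main n₀ le_rfl).trans ?_
  have h2 := exp_le_two hT
  have := dsum_nonneg (n := n₀) hε
  calc Real.exp (c * dsum ε n₀) * dsum ε n₀ * F ≤ 2 * dsum ε n₀ * F := by gcongr
    _ = _ := by rw [hFd]; ring

omit [DecidableEq ι] [Fintype ι] in
/-- The three point inequality behind the `ℓ¹` bound. -/
lemma three_point {D w B a b c : ℝ} (hw : w ≤ B) (ha : 0 ≤ a) (hb : 0 ≤ b) (hc : 0 ≤ c)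
    (h1 : D ≤ w * a + B * b + B * c) (h2 : D ≤ B * a + w * b + B * c)
    (h3 : D ≤ B * a + B * b + w * c) (hD : 0 ≤ D) (hw0 : 0 ≤ w) :
    (D - 2 * min (B * a) D) + (D - 2 * min (B * b) D) + (D - 2 * min (B * c) D) ≤
      w * (a + b + c) := by
  have := mul_nonneg hw0 ha
  have := mul_nonneg hw0 hb
  have := mul_nonneg hw0 hc
  have := mul_le_mul_of_nonneg_right hw ha
  have := mul_le_mul_of_nonneg_right hw hb
  have := mul_le_mul_of_nonneg_right hw hc
  rcases min_cases (B * a) D with ⟨ea, la⟩ | ⟨ea, la⟩ <;>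
  rcases min_cases (B * b) D with ⟨eb, lb⟩ | ⟨eb, lb⟩ <;>
  rcases min_cases (B * c) D with ⟨ec, lc⟩ | ⟨ec, lc⟩ <;>
  rw [ea, eb, ec] <;> linarith

/-- The part of `x` pointing in the direction of `D`. -/
noncomputable def alig (D x : ℝ) : ℝ := if 0 ≤ D then max x 0 else max (-x) 0

/-- The multiplier used at one member for one point. -/
noncomputable def mult (B D x : ℝ) : ℝ := min B (|D| / alig D x)

omit [DecidableEq ι] [Fintype ι] in
lemma mult_spec {B : ℝ} (hB : 0 ≤ B) (D x : ℝ) : 0 ≤ mult B D x ∧ mult B D x ≤ B ∧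
    |D - mult B D x * x| - mult B D x * |x| ≤ |D| - 2 * min (B * alig D x) |D| := by
  have hα : 0 ≤ alig D x := by unfold alig; split_ifs <;> exact le_max_right _ _
  refine ⟨le_min hB (div_nonneg (abs_nonneg _) hα), min_le_left _ _, ?_⟩
  rcases hα.eq_or_lt with h | h
  · rw [mult, ← h]; simp [hB]
  · have hm : mult B D x * alig D x = min (B * alig D x) |D| := by
      rw [mult, min_mul_of_nonneg _ _ h.le, div_mul_cancel₀ _ h.ne']
    have hle : mult B D x * alig D x ≤ |D| := hm ▸ min_le_right _ _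
    rw [← hm]
    unfold alig at h hle ⊢
    split_ifs at h hle ⊢ with hD
    · have hx : 0 < x := by
        by_contra hc; rw [max_eq_right (not_lt.1 hc)] at h; exact lt_irrefl _ h
      rw [max_eq_left hx.le] at hle ⊢
      rw [abs_of_nonneg hD] at hle ⊢
      rw [abs_of_nonneg (sub_nonneg.2 hle), abs_of_pos hx]; linarith
    · have hx : x < 0 := by
        by_contra hc
        rw [max_eq_right (neg_nonpos.2 (not_lt.1 hc))] at h; exact lt_irrefl _ h
      rw [max_eq_left (by linarith)] at hle ⊢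
      rw [abs_of_neg (not_le.1 hD)] at hle ⊢
      rw [abs_of_nonpos (by linarith), abs_of_neg hx]; linarith

omit [Fintype ι] in
/-- The signed excess of a product of three values over the regular one. -/
lemma member_bound {t : Finset ι} (ht : t.card = 3) {v : ι → ℝ} {φ U : ℝ} (hφ : 0 ≤ φ)
    (hφU : φ ≤ U) (hv : ∀ i ∈ t, 0 ≤ v i ∧ v i ≤ U) :
    ∑ i ∈ t, (|∏ j ∈ t, v j - φ ^ 3| -
        2 * min (U ^ 2 * alig (∏ j ∈ t, v j - φ ^ 3) (v i - φ)) |∏ j ∈ t, v j - φ ^ 3|) ≤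
      φ ^ 2 * ∑ i ∈ t, |v i - φ| := by
  obtain ⟨a, b, c, hab, hac, hbc, rfl⟩ := card_eq_three.1 ht
  simp only [mem_insert, mem_singleton, forall_eq_or_imp, forall_eq] at hv
  obtain ⟨⟨a0, aU⟩, ⟨b0, bU⟩, ⟨c0, cU⟩⟩ := hv
  simp only [sum_insert (show a ∉ ({b, c} : Finset ι) by simp [hab, hac]), sum_pair hbc,
    prod_insert (show a ∉ ({b, c} : Finset ι) by simp [hab, hac]), prod_pair hbc]
  obtain ⟨D, hD⟩ : ∃ D, D = v a * (v b * v c) - φ ^ 3 := ⟨_, rfl⟩
  rw [← hD]
  have hU : φ ^ 2 ≤ U ^ 2 := pow_le_pow_left₀ hφ hφU 2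
  have hlα : ∀ x, 0 ≤ alig D x ∧ alig D x ≤ |x| := fun x => by
    unfold alig
    split_ifs
    · exact ⟨le_max_right _ _, max_le (le_abs_self _) (abs_nonneg _)⟩
    · exact ⟨le_max_right _ _, max_le (neg_le_abs _) (abs_nonneg _)⟩
  obtain ⟨α, hα⟩ : ∃ α, α = fun i => alig D (v i - φ) := ⟨_, rfl⟩
  have hab' : ∀ i, 0 ≤ α i := fun i => by rw [hα]; exact (hlα _).1
  have key : ∀ x y z, 0 ≤ x → 0 ≤ y → 0 ≤ z → φ + x ≤ U → φ + y ≤ U →
      (φ + x) * (φ + y) * (φ + z) - φ ^ 3 ≤ φ ^ 2 * x + U ^ 2 * y + U ^ 2 * z := by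
    intro x y z hx hy hz hxU hyU
    have e1 : φ * (φ + x) ≤ U ^ 2 := by
      rw [sq]; exact mul_le_mul hφU hxU (by linarith) (hφ.trans hφU)
    have e2 : (φ + x) * (φ + y) ≤ U ^ 2 := by
      rw [sq]; exact mul_le_mul hxU hyU (by linarith) (hφ.trans hφU)
    nlinarith [mul_le_mul_of_nonneg_right e1 hy, mul_le_mul_of_nonneg_right e2 hz]
  have h123 : |D| ≤ φ ^ 2 * α a + U ^ 2 * α b + U ^ 2 * α c ∧
      |D| ≤ U ^ 2 * α a + φ ^ 2 * α b + U ^ 2 * α c ∧
      |D| ≤ U ^ 2 * α a + U ^ 2 * α b + φ ^ 2 * α c := by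
    rcases le_or_gt 0 D with hD0 | hD0
    · have hαi : ∀ i, α i = max (v i - φ) 0 := fun i => by rw [hα]; simp [alig, hD0]
      have hle : ∀ i, v i ≤ φ + α i := fun i => by rw [hαi]; linarith [le_max_left (v i - φ) 0]
      have hU' : ∀ i, v i ≤ U → φ + α i ≤ U := fun i hi => by
        rw [hαi]; rcases max_cases (v i - φ) 0 with ⟨e, _⟩ | ⟨e, _⟩ <;> rw [e] <;> linarith
      have hP : v a * (v b * v c) ≤ (φ + α a) * ((φ + α b) * (φ + α c)) :=
        mul_le_mul (hle a) (mul_le_mul (hle b) (hle c) c0 (by linarith [hab' b]))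
          (mul_nonneg b0 c0) (by linarith [hab' a])
      rw [abs_of_nonneg hD0]
      have k1 := key _ _ _ (hab' a) (hab' b) (hab' c) (hU' a aU) (hU' b bU)
      have k2 := key _ _ _ (hab' b) (hab' a) (hab' c) (hU' b bU) (hU' a aU)
      have k3 := key _ _ _ (hab' c) (hab' a) (hab' b) (hU' c cU) (hU' a aU)
      refine ⟨?_, ?_, ?_⟩ <;> rw [hD] <;> linarith
    · have hαi : ∀ i, α i = max (φ - v i) 0 := fun i => by
        rw [hα]; simp only [alig, not_le.2 hD0, if_false, neg_sub]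
      have hle : ∀ i, φ - α i ≤ v i := fun i => by rw [hαi]; linarith [le_max_left (φ - v i) 0]
      have hnn : ∀ i, 0 ≤ v i → 0 ≤ φ - α i := fun i hi => by
        rw [hαi]; rcases max_cases (φ - v i) 0 with ⟨e, _⟩ | ⟨e, _⟩ <;> rw [e] <;> linarith
      have hP : (φ - α a) * ((φ - α b) * (φ - α c)) ≤ v a * (v b * v c) :=
        mul_le_mul (hle a) (mul_le_mul (hle b) (hle c) (hnn c c0) b0)
          (mul_nonneg (hnn b b0) (hnn c c0)) a0
      have hlow : |D| ≤ φ ^ 2 * α a + φ ^ 2 * α b + φ ^ 2 * α c := by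
        have e1 : (φ - α a) * φ * α b ≤ φ ^ 2 * α b := by
          rw [sq]; exact mul_le_mul_of_nonneg_right
            (mul_le_mul_of_nonneg_right (by linarith [hab' a]) hφ) (hab' b)
        have e2 : (φ - α a) * (φ - α b) * α c ≤ φ ^ 2 * α c := by
          rw [sq]; exact mul_le_mul_of_nonneg_right
            (mul_le_mul (by linarith [hab' a]) (by linarith [hab' b]) (hnn b b0) hφ) (hab' c)
        rw [abs_of_neg hD0, hD]; nlinarith
      have := mul_le_mul_of_nonneg_right hU (hab' a)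
      have := mul_le_mul_of_nonneg_right hU (hab' b)
      have := mul_le_mul_of_nonneg_right hU (hab' c)
      exact ⟨by linarith, by linarith, by linarith⟩
  obtain ⟨h1, h2, h3⟩ := h123
  have h := three_point hU (hab' a) (hab' b) (hab' c) h1 h2 h3 (abs_nonneg D) (sq_nonneg φ)
  rw [hα] at h
  calc _ ≤ φ ^ 2 * (alig D (v a - φ) + alig D (v b - φ) + alig D (v c - φ)) := by linarith
    _ ≤ _ := by
      refine mul_le_mul_of_nonneg_left ?_ (sq_nonneg φ)
      linarith [(hlα (v a - φ)).2, (hlα (v b - φ)).2, (hlα (v c - φ)).2]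

/-- One step of the flow in `ℓ¹`. -/
lemma l1_succ (hF : Flows S inc M ε u w N) (h3 : ∀ t ∈ S, (inc t).card = 3) (hM : 0 < M) {η U ω : ℝ} {n : ℕ}
    (hn : n < N) (hw : ∀ e, |w n e| ≤ ω) (hε : ∀ k ≤ n, 0 ≤ ε k ∧ ε k < 1) (hη1 : η ≤ 1) (hdev : ∀ e, |dev S inc M e| ≤ η)
    (hv : ∀ e, 0 ≤ u n e ∧ u n e ≤ U) (hU : phi ε n ≤ U)
    (hstep : 2 * ε n * U ^ 2 ≤ phi ε n ^ 2) :
    ∑ e, |u (n + 1) e - phi ε (n + 1)| ≤
      (1 + 2 * ε n) * ∑ e, |u n e - phi ε n| +
        ε n * phi ε n * (η + ω) * Fintype.card ι := by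
  have hp : 0 < phi ε n := phi_pos fun k hk => (hε k hk.le).2
  obtain ⟨h, hh⟩ : ∃ h, h = ε n / (M * phi ε n ^ 2) := ⟨_, rfl⟩
  have hh0 : 0 ≤ h := by rw [hh]; exact div_nonneg (hε n le_rfl).1 (by positivity)
  obtain ⟨a, ha⟩ : ∃ a, a = fun e => u n e - phi ε n := ⟨_, rfl⟩
  obtain ⟨D, hD⟩ : ∃ D, D = fun t => ∏ i ∈ inc t, u n i - phi ε n ^ 3 := ⟨_, rfl⟩
  obtain ⟨β, hβ⟩ : ∃ β, β = fun t e => mult (U ^ 2) (D t) (a e) := ⟨_, rfl⟩
  have hdeg : ∀ e, (deg S inc e : ℝ) ≤ 2 * M := fun e => (deg_bound hM hdev e).trans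
    (mul_le_mul_of_nonneg_right (by linarith) hM.le)
  have hone : ∀ e, |u (n + 1) e - phi ε (n + 1)| ≤ |a e| +
      h * ∑ t ∈ S.filter (fun t => e ∈ inc t), (|D t - β t e * a e| - β t e * |a e|) +
      ε n * phi ε n * (η + ω) := by
    intro e
    have heq : u (n + 1) e - phi ε (n + 1) =
        a e * (1 - h * ∑ t ∈ S.filter (fun t => e ∈ inc t), β t e) -
        h * ∑ t ∈ S.filter (fun t => e ∈ inc t), (D t - β t e * a e) -
        ε n * phi ε n * (dev S inc M e - w n e) := by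
      rw [hF.step n hn e, phi, ← hh, ha, hD]
      simp only [sum_sub_distrib, sum_const, nsmul_eq_mul, ← sum_mul, dev, deg]
      rw [hh]; field_simp; ring
    have hb : 0 ≤ 1 - h * ∑ t ∈ S.filter (fun t => e ∈ inc t), β t e := by
      rw [sub_nonneg]
      calc h * ∑ t ∈ S.filter (fun t => e ∈ inc t), β t e
          ≤ h * ((deg S inc e : ℝ) * U ^ 2) := by
            refine mul_le_mul_of_nonneg_left ?_ hh0
            rw [deg, ← nsmul_eq_mul, ← sum_const]
            exact sum_le_sum fun t _ => by rw [hβ]; exact (mult_spec (sq_nonneg U) _ _).2.1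
        _ ≤ h * (2 * M * U ^ 2) := by gcongr; exact hdeg e
        _ = 2 * ε n * U ^ 2 / phi ε n ^ 2 := by rw [hh]; field_simp
        _ ≤ 1 := (div_le_one (by positivity)).2 hstep
    rw [heq]
    refine (abs_sub _ _).trans (add_le_add ((abs_sub _ _).trans ?_) ?_)
    · rw [abs_mul, abs_of_nonneg hb, abs_mul, abs_of_nonneg hh0]
      have hs := mul_le_mul_of_nonneg_left (abs_sum_le_sum_abs
        (fun t => D t - β t e * a e) (S.filter fun t => e ∈ inc t)) hh0
      simp only [sum_sub_distrib, ← sum_mul, mul_sub] at hs ⊢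
      nlinarith
    · rw [abs_mul, abs_of_nonneg (mul_nonneg (hε n le_rfl).1 hp.le)]
      exact mul_le_mul_of_nonneg_left ((abs_sub _ _).trans (add_le_add (hdev e) (hw e))) (mul_nonneg (hε n le_rfl).1 hp.le)
  refine (sum_le_sum fun e _ => hone e).trans ?_
  have hmem : ∀ t ∈ S, ∑ e ∈ inc t, (|D t - β t e * a e| - β t e * |a e|) ≤
      phi ε n ^ 2 * ∑ e ∈ inc t, |a e| := by
    intro t ht
    simp only [hβ, hD, ha]
    exact (sum_le_sum fun e _ => (mult_spec (sq_nonneg U) _ _).2.2).trans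
      (member_bound (h3 t ht) hp.le hU fun i _ => hv i)
  rw [sum_add_distrib, sum_add_distrib, ← mul_sum, sum_incident, sum_const, card_univ,
    nsmul_eq_mul, ha]
  have hS : ∑ t ∈ S, ∑ e ∈ inc t, (|D t - β t e * a e| - β t e * |a e|) ≤
      phi ε n ^ 2 * (2 * M * ∑ e, |a e|) := by
    refine (sum_le_sum hmem).trans ?_
    rw [← mul_sum]
    refine mul_le_mul_of_nonneg_left ?_ (sq_nonneg _)
    rw [← sum_incident (fun _ e => |a e|), mul_sum]
    refine sum_le_sum fun e _ => ?_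
    rw [sum_const, nsmul_eq_mul]
    exact mul_le_mul_of_nonneg_right (hdeg e) (abs_nonneg _)
  have h2 := mul_le_mul_of_nonneg_left hS hh0
  have he : h * (phi ε n ^ 2 * (2 * M * ∑ e, |a e|)) = 2 * ε n * ∑ e, |a e| := by
    rw [hh]; field_simp
  rw [ha] at h2 he
  linarith

/-- The bound in `ℓ¹` after `n₀`. -/
theorem l1_bound (hF : Flows S inc M ε u w N) (h3 : ∀ t ∈ S, (inc t).card = 3) (hM : 0 < M)
    {η ω U A : ℝ} {n₀ : ℕ} (hε : ∀ k < N, 0 ≤ ε k ∧ ε k < 1) (hη : 0 ≤ η) (hη1 : η ≤ 1)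
    (hω : 0 ≤ ω) (hdev : ∀ e, |dev S inc M e| ≤ η)
    (hw : ∀ k, n₀ ≤ k → k < N → ∀ e, |w k e| ≤ ω)
    (hv : ∀ k, n₀ ≤ k → k < N → ∀ e, 0 ≤ u k e ∧ u k e ≤ U) (hU : phi ε n₀ ≤ U)
    (hstep : ∀ k, n₀ ≤ k → k < N → 2 * ε k * U ^ 2 ≤ phi ε k ^ 2)
    (hA : ∑ e, |u n₀ e - phi ε n₀| ≤ A) :
    ∀ n, n₀ ≤ n → n ≤ N → ∑ e, |u n e - phi ε n| ≤
      (phi ε n₀ / phi ε n) ^ 2 * (A + (η + ω) * Fintype.card ι * (phi ε n₀ - phi ε n)) := by
  intro n
  induction n with
  | zero =>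
    intro h0 _
    obtain rfl := Nat.le_zero.1 h0
    simpa [phi] using hA
  | succ n ih =>
    intro h0 hN
    rcases Nat.eq_or_lt_of_le h0 with rfl | hlt
    · rw [div_self (phi_pos fun k hk => (hε k (by omega)).2).ne']
      simpa using hA
    have hsum := ih (by omega) (by omega)
    have hεn : ∀ k ≤ n, 0 ≤ ε k ∧ ε k < 1 := fun k hk => hε k (by omega)
    have hp : 0 < phi ε n := phi_pos fun k hk => (hεn k hk.le).2
    have hanti : phi ε n ≤ phi ε n₀ := phi_anti hε (by omega) (by omega)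
    have hanti' : phi ε (n + 1) ≤ phi ε n := phi_succ_le hεn
    have hp' : 0 < phi ε (n + 1) := phi_pos fun k hk => (hεn k (by omega)).2
    refine (l1_succ hF h3 hM (by omega) (hw n (by omega) (by omega)) hεn hη1 hdev
      (hv n (by omega) (by omega)) (hanti.trans hU) (hstep n (by omega) (by omega))).trans ?_
    obtain ⟨h0', h1'⟩ := hεn n le_rfl
    have hgrow : 1 + 2 * ε n ≤ (phi ε n / phi ε (n + 1)) ^ 2 := by
      rw [phi, div_mul_eq_div_div, div_self hp.ne', one_div_pow,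
        le_div_iff₀ (pow_pos (by linarith) 2)]
      nlinarith [mul_nonneg (mul_nonneg h0' h0') (show 0 ≤ 3 - 2 * ε n by linarith)]
    have hone : 1 ≤ (phi ε n₀ / phi ε (n + 1)) ^ 2 :=
      one_le_pow₀ ((one_le_div hp').2 (hanti'.trans hanti))
    have hstep2 : ε n * phi ε n * (η + ω) * Fintype.card ι ≤ (phi ε n₀ / phi ε (n + 1)) ^ 2 *
        ((η + ω) * Fintype.card ι * (phi ε n - phi ε (n + 1))) := by
      refine le_trans (le_of_eq ?_) (le_mul_of_one_le_left
        (mul_nonneg (by positivity) (by linarith)) hone)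
      rw [phi]; ring
    calc (1 + 2 * ε n) * ∑ e, |u n e - phi ε n| + ε n * phi ε n * (η + ω) * Fintype.card ι
        ≤ (phi ε n / phi ε (n + 1)) ^ 2 * ((phi ε n₀ / phi ε n) ^ 2 *
            (A + (η + ω) * Fintype.card ι * (phi ε n₀ - phi ε n))) +
          (phi ε n₀ / phi ε (n + 1)) ^ 2 *
            ((η + ω) * Fintype.card ι * (phi ε n - phi ε (n + 1))) :=
          add_le_add (mul_le_mul hgrow hsum (sum_nonneg fun e _ => abs_nonneg _) (sq_nonneg _))
            hstep2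
      _ = _ := by field_simp; ring

end Vale.Agent.P046.Full.Flow
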