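import Vale.Agent.P046.Full.Defs
import Vale.Agent.P046.Full.Flow

/-!
The messages of the cavity system as a perturbed flow on the edges of a fixed edge set.
-/

namespace Vale.Agent.P046.Full

open Finset
open scoped Classical

variable {n : ℕ} {G : Gr n}

/-! ## Products and messages -/

lemma prod_one_sub_bound {α : Type*} (s : Finset α) (x : α → ℝ) (hx : ∀ a ∈ s, 0 ≤ x a ∧ x a ≤ 1) :
    (0 ≤ ∏ a ∈ s, (1 - x a) ∧ ∏ a ∈ s, (1 - x a) ≤ 1) ∧
      0 ≤ ∏ a ∈ s, (1 - x a) - 1 + ∑ a ∈ s, x a ∧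
      ∏ a ∈ s, (1 - x a) - 1 + ∑ a ∈ s, x a ≤ (∑ a ∈ s, x a) ^ 2 := by
  induction s using Finset.induction_on with
  | empty => simp
  | @insert a s ha ih =>
    obtain ⟨⟨p0, p1⟩, e0, e1⟩ := ih fun b hb => hx b (mem_insert_of_mem hb)
    obtain ⟨a0, a1⟩ := hx a (mem_insert_self a s)
    have hS : 0 ≤ ∑ b ∈ s, x b := sum_nonneg fun b hb => (hx b (mem_insert_of_mem hb)).1
    rw [prod_insert ha, sum_insert ha]
    have h1 := mul_nonneg a0 (sub_nonneg.2 p1)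
    have h2 := mul_le_mul_of_nonneg_left (show 1 - ∏ b ∈ s, (1 - x b) ≤ ∑ b ∈ s, x b by linarith) a0
    exact ⟨⟨mul_nonneg (by linarith) p0, mul_le_one₀ (by linarith) p0 p1⟩, by linarith,
      by nlinarith⟩

lemma card_edgesOf {t : Finset (Fin n)} (ht : t ∈ triangles G) : (edgesOf t).card = 3 :=
  Vale.Agent.P046.card_edgesOf (card_of_mem_triangles ht)

lemma edge_mem {t : Finset (Fin n)} (ht : t ∈ triangles G) {f : Sym2 (Fin n)}
    (hf : f ∈ edgesOf t) : f ∈ G :=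
  edgesOf_subset ht hf

/-- The triangles at an edge. -/
noncomputable def tri (G : Gr n) (f : Sym2 (Fin n)) : Finset (Finset (Fin n)) :=
  (triangles G).filter fun t => f ∈ edgesOf t

lemma qOf_eq (I : Msg n) {t : Finset (Fin n)} (ht : t ∈ triangles G) {g : Sym2 (Fin n)}
    (hg : g ∈ edgesOf t) (h1 : I t g < 1) : qOf G I t g = uOf G I g / (1 - I t g) := by
  rw [eq_div_iff (by linarith), qOf, uOf, prod_erase_mul _ _ (mem_filter.2 ⟨ht, hg⟩)]

/-- Messages in a fixed interval on all incidences. -/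
def MsgLe (G : Gr n) (k : ℕ) (ζ : ℝ) : Prop :=
  ∀ t ∈ triangles G, ∀ f ∈ edgesOf t, 0 ≤ msg G k t f ∧ msg G k t f ≤ ζ

lemma uOf_mem {k : ℕ} {ζ : ℝ} (hI : MsgLe G k ζ) (hζ : ζ ≤ 1) (f : Sym2 (Fin n)) :
    0 ≤ uOf G (msg G k) f ∧ uOf G (msg G k) f ≤ 1 :=
  (prod_one_sub_bound _ _ fun t ht => ⟨(hI t (mem_filter.1 ht).1 f (mem_filter.1 ht).2).1,
    (hI t (mem_filter.1 ht).1 f (mem_filter.1 ht).2).2.trans hζ⟩).1

lemma rate_bound {k : ℕ} {ζ U : ℝ} (hI : MsgLe G k ζ) (hζ : ζ ≤ 1 / 8)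
    (hu : ∀ g ∈ G, uOf G (msg G k) g ≤ U) {t : Finset (Fin n)} (ht : t ∈ triangles G)
    {f : Sym2 (Fin n)} (hf : f ∈ edgesOf t) :
    0 ≤ rate G (msg G k) t f ∧ rate G (msg G k) t f ≤ 2 * U ^ 2 := by
  have hq : ∀ g ∈ (edgesOf t).erase f, 0 ≤ qOf G (msg G k) t g ∧
      qOf G (msg G k) t g ≤ 8 / 7 * U := by
    intro g hg
    have hg' := mem_of_mem_erase hg
    obtain ⟨i0, i1⟩ := hI t ht g hg'
    rw [qOf_eq _ ht hg' (by linarith)]
    have h0 := (uOf_mem hI (by linarith) g).1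
    refine ⟨div_nonneg h0 (by linarith), ?_⟩
    rw [div_le_iff₀ (by linarith)]
    have h := hu g (edge_mem ht hg')
    nlinarith
  refine ⟨prod_nonneg fun g hg => (hq g hg).1, ?_⟩
  refine (prod_le_prod (fun g hg => (hq g hg).1) (fun g hg => (hq g hg).2)).trans ?_
  rw [prod_const, card_erase_of_mem hf, card_edgesOf ht]
  nlinarith [sq_nonneg U]

/-- The a priori size of the messages. -/
noncomputable def zeta (G : Gr n) (U : ℕ → ℝ) (k : ℕ) : ℝ :=
  ∑ j ∈ range k, 2 * hst n G.card j * U j ^ 2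

lemma zeta_mono {U : ℕ → ℝ} {j k : ℕ} (hjk : j ≤ k) (hh : ∀ i < k, 0 ≤ hst n G.card i) :
    zeta G U j ≤ zeta G U k :=
  sum_le_sum_of_subset_of_nonneg (range_mono hjk) fun i hi _ => by
    have := hh i (mem_range.1 hi); positivity

lemma msg_bound {U : ℕ → ℝ} : ∀ k : ℕ, (∀ i < k, 0 ≤ hst n G.card i) →
    (∀ j < k, ∀ g ∈ G, uOf G (msg G j) g ≤ U j) → zeta G U k ≤ 1 / 8 →
    MsgLe G k (zeta G U k) := by
  intro k
  induction k with
  | zero => intro _ _ _ t _ f _; simp [msg, zeta]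
  | succ k ih =>
    intro hh hu hz t ht f hf
    have hmono := zeta_mono (G := G) (U := U) (Nat.le_succ k) hh
    have hI := ih (fun i hi => hh i (by omega)) (fun j hj => hu j (by omega)) (hmono.trans hz)
    obtain ⟨r0, r1⟩ := rate_bound hI (hmono.trans hz) (hu k (by omega)) ht hf
    obtain ⟨i0, i1⟩ := hI t ht f hf
    have h0 := hh k (by omega)
    simp only [msg]
    refine ⟨by positivity, ?_⟩
    rw [zeta, sum_range_succ, ← zeta]
    nlinarith [mul_le_mul_of_nonneg_left r1 h0]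

lemma uOf_succ_le {k : ℕ} {ζ : ℝ} (hI : MsgLe G k ζ) (hI' : MsgLe G (k + 1) ζ) (hζ : ζ ≤ 1 / 8)
    (hh : 0 ≤ hst n G.card k) (f : Sym2 (Fin n)) :
    uOf G (msg G (k + 1)) f ≤ uOf G (msg G k) f := by
  refine prod_le_prod (fun t ht => ?_) (fun t ht => ?_)
  · linarith [(hI' t (mem_filter.1 ht).1 f (mem_filter.1 ht).2).2]
  · have hr := (rate_bound hI hζ (U := 1) (fun g _ => (uOf_mem hI (by linarith) g).2)
      (mem_filter.1 ht).1 (mem_filter.1 ht).2).1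
    simp only [msg]
    nlinarith

/-- The symmetrical factor of a triangle. -/
noncomputable def theta (I : Msg n) (t : Finset (Fin n)) : ℝ := 1 / ∏ g ∈ edgesOf t, (1 - I t g)

lemma rate_div (I : Msg n) {t : Finset (Fin n)} (ht : t ∈ triangles G)
    (h1 : ∀ g ∈ edgesOf t, I t g < 1) {f : Sym2 (Fin n)} (hf : f ∈ edgesOf t) :
    rate G I t f / (1 - I t f) = theta I t * ∏ g ∈ (edgesOf t).erase f, uOf G I g := by
  rw [rate, prod_congr rfl fun g hg => qOf_eq I ht (mem_of_mem_erase hg) (h1 g (mem_of_mem_erase hg)),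
    prod_div_distrib, theta, ← mul_prod_erase _ _ hf]
  field_simp

lemma theta_bound {k : ℕ} {ζ : ℝ} (hI : MsgLe G k ζ) (hζ : ζ ≤ 1 / 8) {t : Finset (Fin n)}
    (ht : t ∈ triangles G) : 1 ≤ theta (msg G k) t ∧ theta (msg G k) t ≤ 1 + 8 * ζ := by
  obtain ⟨a, ha⟩ := card_pos.1 (show 0 < (edgesOf t).card by rw [card_edgesOf ht]; norm_num)
  have hζ0 : 0 ≤ ζ := (hI t ht a ha).1.trans (hI t ht a ha).2
  have hp : (1 - ζ) ^ 3 ≤ ∏ g ∈ edgesOf t, (1 - msg G k t g) := by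
    rw [← card_edgesOf ht, ← prod_const]
    exact prod_le_prod (fun g _ => by linarith) fun g hg => by linarith [(hI t ht g hg).2]
  have hp1 : ∏ g ∈ edgesOf t, (1 - msg G k t g) ≤ 1 :=
    (prod_one_sub_bound _ _ fun g hg => ⟨(hI t ht g hg).1, by linarith [(hI t ht g hg).2]⟩).1.2
  have hpos : 0 < ∏ g ∈ edgesOf t, (1 - msg G k t g) :=
    lt_of_lt_of_le (pow_pos (by linarith) 3) hp
  rw [theta]
  refine ⟨(one_le_div hpos).2 hp1, ?_⟩
  rw [div_le_iff₀ hpos]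
  refine le_trans ?_ (mul_le_mul_of_nonneg_left hp (by linarith))
  nlinarith [mul_le_mul_of_nonneg_left hζ hζ0, mul_le_mul_of_nonneg_left hζ (mul_nonneg hζ0 hζ0)]

/-! ## The edges as a finite type -/

/-- The points of the flow. -/
abbrev Edge (G : Gr n) := {f : Sym2 (Fin n) // f ∈ G}

/-- The incidences of the flow. -/
noncomputable def einc (G : Gr n) (t : Finset (Fin n)) : Finset (Edge G) :=
  (edgesOf t).subtype (· ∈ G)

lemma mem_einc {t : Finset (Fin n)} {e : Edge G} : e ∈ einc G t ↔ e.1 ∈ edgesOf t := mem_subtype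

lemma card_einc {t : Finset (Fin n)} (ht : t ∈ triangles G) : (einc G t).card = 3 := by
  rw [einc, card_subtype, filter_true_of_mem fun f hf => edge_mem ht hf, card_edgesOf ht]

lemma filter_einc (e : Edge G) :
    (triangles G).filter (fun t => e ∈ einc G t) = tri G e.1 :=
  filter_congr fun t _ => mem_einc

lemma deg_einc (e : Edge G) : (Flow.deg (triangles G) (einc G) e : ℝ) = cd G e.1 := by
  rw [Flow.deg, filter_einc, tri, cd]

lemma sum_einc {t : Finset (Fin n)} (ht : t ∈ triangles G) (x : Sym2 (Fin n) → ℝ) :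
    ∑ i ∈ einc G t, x i.1 = ∑ g ∈ edgesOf t, x g :=
  sum_subtype_of_mem x fun g hg => edge_mem ht hg

lemma prod_einc {t : Finset (Fin n)} (ht : t ∈ triangles G) (x : Sym2 (Fin n) → ℝ) :
    ∏ i ∈ einc G t, x i.1 = ∏ g ∈ edgesOf t, x g :=
  prod_subtype_of_mem x fun g hg => edge_mem ht hg

lemma Nop_einc (x : Sym2 (Fin n) → ℝ) (e : Edge G) :
    Flow.Nop (triangles G) (einc G) (fun i => x i.1) e / mS G = Spectral.apply (nh G) x e.1 := by
  have h : Spectral.apply (nh G) x e.1 =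
      (∑ g, Spectral.adj (triangles G) edgesOf e.1 g * x g) / mS G := by
    rw [Spectral.apply, sum_div]; exact sum_congr rfl fun g _ => by rw [nh]; ring
  rw [h]
  congr 1
  simp only [Spectral.adj_eq_sum, sub_mul, sum_sub_distrib, ite_mul, zero_mul, sum_ite_eq, mem_univ,
    if_true, sum_mul]
  rw [sum_comm, Flow.Nop, filter_einc, tri]
  have h2 : ∀ t ∈ (triangles G).filter (fun t => e.1 ∈ edgesOf t),
      ∑ i ∈ (einc G t).erase e, x i.1 = ∑ g ∈ edgesOf t, x g - x e.1 := by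
    intro t ht
    rw [← sum_einc (mem_filter.1 ht).1 x,
      Flow.erase_sum (fun i => x i.1) (mem_einc.2 (mem_filter.1 ht).2)]
    ring
  rw [sum_congr rfl h2, sum_sub_distrib, sum_const, nsmul_eq_mul, sum_filter]
  congr 1
  refine sum_congr rfl fun t _ => ?_
  by_cases h : e.1 ∈ edgesOf t
  · simp [h, sum_ite_mem]
  · simp [h]

/-- The step sizes of the flow. -/
noncomputable def epsG (G : Gr n) (k : ℕ) : ℝ := 3 / ((G.card : ℝ) - 3 * k)

lemma epsG_mem {k : ℕ} (hk : 3 * (k + 1) < G.card) : 0 < epsG G k ∧ epsG G k < 1 := by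
  have : 3 * ((k : ℝ) + 1) < G.card := by exact_mod_cast hk
  rw [epsG]
  exact ⟨div_pos three_pos (by linarith), (div_lt_one (by linarith)).2 (by linarith)⟩

lemma phi_epsG : ∀ {k : ℕ}, 3 * k < G.card → Flow.phi (epsG G) k = phi G.card k := by
  intro k
  induction k with
  | zero => intro h; rw [Flow.phi, phi]; simp; rw [div_self]; exact_mod_cast h.ne'
  | succ k ih =>
    intro h
    have : 3 * ((k : ℝ) + 1) < G.card := by exact_mod_cast h
    have hk : 0 < (G.card : ℝ) - 3 * k := by linarith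
    have hE : 0 < (G.card : ℝ) := by linarith
    rw [Flow.phi, ih (by omega), epsG, phi, phi]
    push_cast
    field_simp
    ring

lemma delta_epsG {k : ℕ} (hk : 3 * (k + 1) < G.card) :
    Flow.delta (epsG G) k = stp G.card k := by
  have : 3 * ((k : ℝ) + 1) < G.card := by exact_mod_cast hk
  have hk' : 0 < (G.card : ℝ) - 3 * k := by linarith
  rw [Flow.delta, epsG, stp, one_sub_div hk'.ne', div_div_div_cancel_right₀ hk'.ne']
  congr 1
  ring

lemma lin_einc : ∀ (k : ℕ), 3 * k < G.card → ∀ e : Edge G,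
    Flow.lin (triangles G) (einc G) (mS G) (epsG G) k e = Z G e.1 k := by
  intro k
  induction k with
  | zero =>
    intro _ e
    simp only [Flow.lin, Flow.dev, deg_einc, Z, prop, dv, if_pos e.2]
  | succ k ih =>
    intro hk e
    have h : Flow.lin (triangles G) (einc G) (mS G) (epsG G) k = fun i => prop G k (dv G) i.1 :=
      funext fun i => ih (by omega) i
    simp only [Flow.lin, Z, prop]
    rw [h, delta_epsG (by omega), Nop_einc]

/-- The values of the flow. -/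
noncomputable def uSeq (G : Gr n) (k : ℕ) (e : Edge G) : ℝ := uOf G (msg G k) e.1

/-- The error of the flow. -/
noncomputable def wSeq (G : Gr n) (k : ℕ) (e : Edge G) : ℝ :=
  (uSeq G (k + 1) e - uSeq G k e + epsG G k / (mS G * Flow.phi (epsG G) k ^ 2) *
    (∑ t ∈ (triangles G).filter (fun t => e ∈ einc G t), ∏ i ∈ einc G t, uSeq G k i)) /
      (epsG G k * Flow.phi (epsG G) k)

lemma flows {N : ℕ} (hN : 3 * N < G.card) :
    Flow.Flows (triangles G) (einc G) (mS G) (epsG G) (uSeq G) (wSeq G) N := by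
  refine ⟨fun e => by simp [uSeq, uOf, msg], fun k hk e => ?_⟩
  have h1 := (epsG_mem (G := G) (k := k) (by omega)).1
  have h2 := Flow.phi_pos (ε := epsG G) (n := k) fun j hj => (epsG_mem (G := G) (by omega)).2
  rw [wSeq, mul_div_cancel₀ _ (mul_pos h1 h2).ne']
  ring

lemma hst_epsG {k : ℕ} (hk : 3 * (k + 1) < G.card) :
    hst n G.card k = (Flow.delta (epsG G) k + Flow.delta (epsG G) k ^ 2 / 2) /
      (mS G * Flow.phi (epsG G) k ^ 2) := by
  have hε : ∀ j ≤ k, epsG G j < 1 := fun j hj => (epsG_mem (by omega)).2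
  have hp := Flow.phi_pos (ε := epsG G) (n := k) fun j hj => hε j hj.le
  rw [hst, xt, xt, ← phi_epsG hk, ← phi_epsG (show 3 * k < G.card by omega), ← one_div,
    Flow.inv_phi_succ (hε k le_rfl), ← mS]
  field_simp
  ring

lemma hst_bounds (hM : 0 < mS G) {k : ℕ} {dm : ℝ} (hk : 3 * (k + 1) < G.card)
    (hdm : Flow.delta (epsG G) k ≤ dm) (hdm1 : dm ≤ 1 / 8) :
    epsG G k / (mS G * Flow.phi (epsG G) k ^ 2) ≤ hst n G.card k ∧
      hst n G.card k ≤ epsG G k / (mS G * Flow.phi (epsG G) k ^ 2) * (1 + 2 * dm) := by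
  obtain ⟨ε0, ε1⟩ := epsG_mem hk
  have hδ : Flow.delta (epsG G) k = epsG G k + epsG G k * Flow.delta (epsG G) k := by
    have : 1 - epsG G k ≠ 0 := by linarith
    rw [Flow.delta]; field_simp; ring
  have hδ0 : 0 ≤ Flow.delta (epsG G) k := Flow.delta_nonneg ⟨ε0.le, ε1⟩
  have hup : Flow.delta (epsG G) k + Flow.delta (epsG G) k ^ 2 / 2 ≤
      epsG G k * (1 + 2 * dm) := by
    have h2 : Flow.delta (epsG G) k ≤ 2 * epsG G k := by nlinarith
    nlinarith [mul_le_mul_of_nonneg_left hdm ε0.le, mul_le_mul_of_nonneg_left hdm hδ0]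
  rw [hst_epsG hk, div_mul_eq_mul_div]
  constructor <;> gcongr
  nlinarith

lemma uOf_step {k : ℕ} {ζ : ℝ} (hI : MsgLe G k ζ) (hζ : ζ ≤ 1 / 8) (f : Sym2 (Fin n)) :
    uOf G (msg G (k + 1)) f = uOf G (msg G k) f * ∏ t ∈ tri G f, (1 - hst n G.card k *
      theta (msg G k) t * ∏ g ∈ (edgesOf t).erase f, uOf G (msg G k) g) := by
  have hexp : ∀ J, uOf G J f = ∏ t ∈ tri G f, (1 - J t f) := fun _ => rfl
  rw [hexp, hexp, ← prod_mul_distrib]
  refine prod_congr rfl fun t ht => ?_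
  obtain ⟨ht, hf⟩ := mem_filter.1 ht
  have h1 : ∀ g ∈ edgesOf t, msg G k t g < 1 := fun g hg => by linarith [(hI t ht g hg).2]
  simp only [msg]
  rw [mul_assoc (hst n G.card k), ← rate_div _ ht h1 hf]
  have : 1 - msg G k t f ≠ 0 := by linarith [h1 f hf]
  field_simp
  ring

lemma step_scalar {T1 T2 ε φ q dm ζ : ℝ} (hεφ : 0 < ε * φ) (hq : 1 ≤ q) (hdm : 0 ≤ dm)
    (hζ : 0 ≤ ζ) (h10 : 0 ≤ T1) (h20 : 0 ≤ T2) (h1 : T1 ≤ ε * φ * (40 * dm * q ^ 5))
    (h2 : T2 ≤ ε * φ * (2 * (3 * dm + 9 * ζ) * q ^ 3)) :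
    |(T1 - T2) / (ε * φ)| ≤ (40 * dm + 18 * ζ) * q ^ 5 := by
  have hq35 : q ^ 3 ≤ q ^ 5 := pow_le_pow_right₀ hq (by norm_num)
  have h5 : 0 ≤ q ^ 5 := by positivity
  have h6 : 2 * (3 * dm + 9 * ζ) * q ^ 3 ≤ (40 * dm + 18 * ζ) * q ^ 5 := by
    nlinarith [mul_le_mul_of_nonneg_left hq35 (show 0 ≤ 6 * dm + 18 * ζ by linarith)]
  have h7 : 40 * dm * q ^ 5 ≤ (40 * dm + 18 * ζ) * q ^ 5 :=
    mul_le_mul_of_nonneg_right (by linarith) h5
  rw [abs_div, abs_of_pos hεφ, div_le_iff₀ hεφ, mul_comm _ (ε * φ)]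
  exact abs_sub_le_of_nonneg_of_le h10 (h1.trans (mul_le_mul_of_nonneg_left h7 hεφ.le)) h20
    (h2.trans (mul_le_mul_of_nonneg_left h6 hεφ.le))

/-- The error of one step, for values at most `q φ`. -/
lemma wSeq_bound (hM : 0 < mS G) {k : ℕ} {ζ q dm : ℝ} (hζ0 : 0 ≤ ζ) (hk : 3 * (k + 1) < G.card)
    (hI : MsgLe G k ζ) (hI' : MsgLe G (k + 1) ζ) (hζ : ζ ≤ 1 / 8) (hq : 1 ≤ q)
    (hu : ∀ g ∈ G, uOf G (msg G k) g ≤ q * Flow.phi (epsG G) k)
    (hdm : Flow.delta (epsG G) k ≤ dm) (hdm1 : dm ≤ 1 / 8)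
    (hdeg : ∀ f ∈ G, cd G f ≤ 2 * mS G) (e : Edge G) :
    |wSeq G k e| ≤ (40 * dm + 18 * ζ) * q ^ 5 := by
  obtain ⟨ε0, ε1⟩ := epsG_mem hk
  have hφ := Flow.phi_pos (ε := epsG G) (n := k) fun j hj => (epsG_mem (G := G) (by omega)).2
  obtain ⟨φ, hφd⟩ : ∃ φ, φ = Flow.phi (epsG G) k := ⟨_, rfl⟩
  obtain ⟨δ, hδd⟩ : ∃ δ, δ = Flow.delta (epsG G) k := ⟨_, rfl⟩
  obtain ⟨ε, hεd⟩ : ∃ ε, ε = epsG G k := ⟨_, rfl⟩
  rw [← hφd] at hu hφ
  rw [← hδd] at hdm
  rw [← hεd] at ε0 ε1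
  have hδ : δ = ε / (1 - ε) := by rw [hδd, hεd, Flow.delta]
  have hεδ : ε ≤ δ := by rw [hδ, le_div_iff₀ (by linarith)]; nlinarith
  obtain ⟨h0, hh0d⟩ : ∃ h0, h0 = ε / (mS G * φ ^ 2) := ⟨_, rfl⟩
  have hh0 : 0 ≤ h0 := by rw [hh0d]; positivity
  have hδ0 : 0 ≤ δ := ε0.le.trans hεδ
  have hdm0 : 0 ≤ dm := hδ0.trans hdm
  obtain ⟨hhl, hhu⟩ := hst_bounds hM hk (hδd ▸ hdm) hdm1
  rw [← hεd, ← hφd, ← hh0d] at hhl hhu
  obtain ⟨u, hud⟩ : ∃ u, u = uOf G (msg G k) := ⟨_, rfl⟩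
  rw [← hud] at hu
  have hu0 : ∀ g, 0 ≤ u g := fun g => by rw [hud]; exact (uOf_mem hI (by linarith) g).1
  obtain ⟨x, hxd⟩ : ∃ x, x = fun t => hst n G.card k * theta (msg G k) t *
      ∏ g ∈ (edgesOf t).erase e.1, u g := ⟨_, rfl⟩
  have hstep : uOf G (msg G (k + 1)) e.1 = u e.1 * ∏ t ∈ tri G e.1, (1 - x t) := by
    rw [hxd, hud]; exact uOf_step hI hζ e.1
  have hprod : ∀ t ∈ tri G e.1, ∏ g ∈ (edgesOf t).erase e.1, u g ≤ (q * φ) ^ 2 := by
    intro t ht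
    obtain ⟨ht, hf⟩ := mem_filter.1 ht
    refine (prod_le_prod (fun g _ => hu0 g)
      (fun g hg => hu g (edge_mem ht (mem_of_mem_erase hg)))).trans (le_of_eq ?_)
    rw [prod_const, card_erase_of_mem hf, card_edgesOf ht]
  have hdev : ∀ t ∈ tri G e.1, h0 ≤ hst n G.card k * theta (msg G k) t ∧
      hst n G.card k * theta (msg G k) t ≤ h0 * (1 + (3 * dm + 9 * ζ)) := by
    intro t ht
    have ht' := (mem_filter.1 ht).1
    obtain ⟨a, b⟩ := theta_bound hI hζ ht'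
    refine ⟨hhl.trans (le_mul_of_one_le_right (hh0.trans hhl) a), ?_⟩
    calc hst n G.card k * theta (msg G k) t ≤ (h0 * (1 + 2 * dm)) * (1 + 8 * ζ) :=
          mul_le_mul hhu b (by linarith) (mul_nonneg hh0 (by linarith))
      _ = h0 * ((1 + 2 * dm) * (1 + 8 * ζ)) := mul_assoc _ _ _
      _ ≤ _ := mul_le_mul_of_nonneg_left (by nlinarith [mul_le_mul_of_nonneg_left hζ (hδ0.trans hdm)]) hh0
  have hx : ∀ t ∈ tri G e.1, 0 ≤ x t ∧ x t ≤ 1 ∧ x t ≤ 3 * h0 * (q * φ) ^ 2 := by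
    intro t ht
    obtain ⟨ht', hf⟩ := mem_filter.1 ht
    obtain ⟨a, b⟩ := hdev t ht
    have hP : 0 ≤ ∏ g ∈ (edgesOf t).erase e.1, u g := prod_nonneg fun g _ => hu0 g
    rw [hxd]
    refine ⟨mul_nonneg (hh0.trans a) hP, ?_, mul_le_mul (b.trans ?_) (hprod t ht) hP (by positivity)⟩
    · have h1 : ∀ g ∈ edgesOf t, msg G k t g < 1 := fun g hg => by linarith [(hI t ht' g hg).2]
      have hm := (hI' t ht' e.1 hf).2
      simp only [msg] at hm
      simp only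
      rw [hud, mul_assoc, ← rate_div _ ht' h1 hf, ← mul_div_assoc,
        div_le_one (by linarith [h1 e.1 hf])]
      linarith [(hI t ht' e.1 hf).1, h1 e.1 hf]
    · nlinarith [mul_le_mul_of_nonneg_left (show 3 * dm + 9 * ζ ≤ 2 by linarith) hh0]
  obtain ⟨-, e0, e1⟩ := prod_one_sub_bound (tri G e.1) x fun t ht => ⟨(hx t ht).1, (hx t ht).2.1⟩
  have hcard : ((tri G e.1).card : ℝ) ≤ 2 * mS G := hdeg e.1 e.2
  have hS0 : 0 ≤ ∑ t ∈ tri G e.1, x t := sum_nonneg fun t ht => (hx t ht).1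
  have hS : ∑ t ∈ tri G e.1, x t ≤ 6 * ε * q ^ 2 := by
    calc ∑ t ∈ tri G e.1, x t ≤ ∑ _t ∈ tri G e.1, 3 * h0 * (q * φ) ^ 2 :=
          sum_le_sum fun t ht => (hx t ht).2.2
      _ ≤ 2 * mS G * (3 * h0 * (q * φ) ^ 2) := by
          rw [sum_const, nsmul_eq_mul]; exact mul_le_mul_of_nonneg_right hcard (by positivity)
      _ = 6 * ε * q ^ 2 := by rw [hh0d]; field_simp; ring
  obtain ⟨P, hPd⟩ : ∃ P, P = fun t => ∏ g ∈ edgesOf t, u g := ⟨_, rfl⟩
  have hP : ∀ t ∈ tri G e.1, 0 ≤ P t ∧ P t ≤ (q * φ) ^ 3 ∧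
      u e.1 * x t = hst n G.card k * theta (msg G k) t * P t := by
    intro t ht
    obtain ⟨ht', hf⟩ := mem_filter.1 ht
    rw [hPd]
    refine ⟨prod_nonneg fun g _ => hu0 g, ?_, ?_⟩
    · refine (prod_le_prod (fun g _ => hu0 g) fun g hg => hu g (edge_mem ht' hg)).trans (le_of_eq ?_)
      rw [prod_const, card_edgesOf ht']
    · rw [hxd]; simp only; rw [← mul_prod_erase _ u hf]; ring
  have hnum : uSeq G (k + 1) e - uSeq G k e + epsG G k / (mS G * Flow.phi (epsG G) k ^ 2) *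
      (∑ t ∈ (triangles G).filter (fun t => e ∈ einc G t), ∏ i ∈ einc G t, uSeq G k i) =
      u e.1 * (∏ t ∈ tri G e.1, (1 - x t) - 1 + ∑ t ∈ tri G e.1, x t) -
        ∑ t ∈ tri G e.1, (hst n G.card k * theta (msg G k) t - h0) * P t := by
    have hs : ∑ t ∈ (triangles G).filter (fun t => e ∈ einc G t), ∏ i ∈ einc G t, uSeq G k i =
        ∑ t ∈ tri G e.1, P t := by
      rw [filter_einc]
      refine sum_congr rfl fun t ht => ?_
      rw [hPd, hud]
      exact prod_einc (mem_filter.1 ht).1 _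
    have hm : u e.1 * ∑ t ∈ tri G e.1, x t =
        ∑ t ∈ tri G e.1, hst n G.card k * theta (msg G k) t * P t := by
      rw [mul_sum]; exact sum_congr rfl fun t ht => (hP t ht).2.2
    rw [hs, ← hεd, ← hφd, ← hh0d, uSeq, uSeq, hstep, ← hud, mul_add, hm]
    simp only [sub_mul, sum_sub_distrib, ← mul_sum]
    ring
  have t1 : u e.1 * (∏ t ∈ tri G e.1, (1 - x t) - 1 + ∑ t ∈ tri G e.1, x t) ≤
      ε * φ * (40 * dm * q ^ 5) := by
    refine (mul_le_mul (hu e.1 e.2) (e1.trans (pow_le_pow_left₀ hS0 hS 2)) e0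
      (by positivity)).trans ?_
    have : q * φ * (6 * ε * q ^ 2) ^ 2 = ε * φ * (36 * ε * q ^ 5) := by ring
    rw [this]
    gcongr <;> linarith
  have t2 : ∑ t ∈ tri G e.1, (hst n G.card k * theta (msg G k) t - h0) * P t ≤
      ε * φ * (2 * (3 * dm + 9 * ζ) * q ^ 3) := by
    calc _ ≤ ∑ _t ∈ tri G e.1, h0 * (3 * dm + 9 * ζ) * (q * φ) ^ 3 :=
          sum_le_sum fun t ht => mul_le_mul (by linarith [(hdev t ht).2]) (hP t ht).2.1 (hP t ht).1
            (by nlinarith [(hdev t ht).1, (hdev t ht).2])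
      _ = (tri G e.1).card * (h0 * (3 * dm + 9 * ζ) * (q * φ) ^ 3) := by
          rw [sum_const, nsmul_eq_mul]
      _ ≤ 2 * mS G * (h0 * (3 * dm + 9 * ζ) * (q * φ) ^ 3) := by
          have := hδ0.trans hdm
          exact mul_le_mul_of_nonneg_right hcard (by positivity)
      _ = _ := by rw [hh0d]; field_simp
  have t2' : 0 ≤ ∑ t ∈ tri G e.1, (hst n G.card k * theta (msg G k) t - h0) * P t :=
    sum_nonneg fun t ht => mul_nonneg (sub_nonneg.2 (hdev t ht).1) (hP t ht).1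
  rw [wSeq, hnum, ← hεd, ← hφd]
  exact step_scalar (mul_pos ε0 hφ) hq hdm0 hζ0 (mul_nonneg (hu0 e.1) e0) t2' t1 t2

end Vale.Agent.P046.Full
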