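import Vale.Agent.P046.Full.Grid
import Vale.Agent.P046.Full.MsgFlow

/-!
Module 4: at a good state of the stopping stage with the gap, the cavity system follows the
regular tree, pointwise down to codegree `mLo` and in mean to the end.
-/

namespace Vale.Agent.P046.Full

open Finset Filter
open scoped Classical

variable {n : ℕ} {G : Gr n}

/-- The values used at the stopping stage. -/
structure FlowNum (G : Gr n) : Prop where
  facts : StageFacts G
  sub : G ⊆ completeEdges n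
  good : Good G
  big : (10000000 : ℝ) ≤ lg n
  small_n : 60 * mHi n ^ 3 ≤ n

lemma FlowNum.mS_bounds (h : FlowNum G) : mHi n / 2 ≤ mS G ∧ mS G ≤ 2 * mHi n := by
  have h1 := abs_le.1 h.facts.mS_close
  have hn : 1 / (n : ℝ) ≤ 1 / 2 := by gcongr; linarith [h.facts.n_large]
  have hM : 0 < mHi n := pow_pos (by linarith [h.big]) _
  constructor
  · have : (1 : ℝ) / 2 ≤ mS G / mHi n := by linarith
    rw [le_div_iff₀ hM] at this; linarith
  · have : mS G / mHi n ≤ 2 := by linarith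
    rw [div_le_iff₀ hM] at this; linarith

lemma FlowNum.eps_mem (h : FlowNum G) {k : ℕ} (hk : k ≤ nGrid n G.card) :
    0 ≤ epsG G k ∧ epsG G k < 1 := by
  have := epsG_mem (G := G) (k := k) (by have := h.facts.room; omega)
  exact ⟨this.1.le, this.2⟩

lemma FlowNum.phi_eq (h : FlowNum G) {k : ℕ} (hk : k ≤ nGrid n G.card) :
    Flow.phi (epsG G) k = phi G.card k :=
  phi_epsG (by have := h.facts.room; omega)

lemma FlowNum.phi_pos' (h : FlowNum G) {k : ℕ} (hk : k ≤ nGrid n G.card) :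
    0 < phi G.card k ∧ phi G.card k ≤ 1 :=
  ⟨phi_pos (by have := h.facts.room; omega), phi_le_one _ _⟩

lemma FlowNum.delta_le (h : FlowNum G) {k : ℕ} (hk : k < nGrid n G.card) :
    Flow.delta (epsG G) k ≤ 1 / mHi n ^ 2 := by
  have hroom := h.facts.room
  have hk1 : 3 * (k + 1) < G.card := by omega
  obtain ⟨hp, hp1⟩ := h.phi_pos' (show k + 1 ≤ nGrid n G.card by omega)
  have hlb := h.facts.phi_lb (k + 1) (by omega)
  obtain ⟨hM1, hM2⟩ := h.mS_bounds
  have hM : 1 ≤ mHi n := one_le_pow₀ (by linarith [h.big])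
  have h5 : 1 ≤ 5 * mHi n * phi G.card (k + 1) := by
    have : phi G.card (k + 1) ^ 2 ≤ phi G.card (k + 1) := by rw [sq]; exact mul_le_of_le_one_left hp.le hp1
    nlinarith [mul_le_mul_of_nonneg_left this (show 0 ≤ 5 * mHi n by linarith),
      mul_le_mul_of_nonneg_right (show 2 * mS G + 1 ≤ 5 * mHi n by linarith) (sq_nonneg (phi G.card (k + 1)))]
  have hE : (0 : ℝ) < G.card := by exact_mod_cast (show 0 < G.card by omega)
  have hEn : (n : ℝ) / 4 ≤ G.card := by
    refine le_trans ?_ h.facts.card_lo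
    gcongr
    simpa using Real.rpow_le_rpow_of_exponent_le (show (1 : ℝ) ≤ n by linarith [h.facts.n_large])
      (show (1 : ℝ) ≤ 3 / 2 by norm_num)
  rw [delta_epsG hk1, stp]
  have hden : (G.card : ℝ) - 3 * ((k : ℝ) + 1) = G.card * phi G.card (k + 1) := by
    rw [card_mul_phi (by omega)]; push_cast; ring
  rw [hden, div_le_div_iff₀ (mul_pos hE hp) (by positivity), one_mul]
  have h6 : 3 * mHi n ^ 2 * (5 * mHi n) ≤ G.card := by
    nlinarith [h.small_n, pow_nonneg (show (0 : ℝ) ≤ mHi n by linarith) 3]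
  calc 3 * mHi n ^ 2 ≤ 3 * mHi n ^ 2 * (5 * mHi n * phi G.card (k + 1)) :=
        le_mul_of_one_le_right (by positivity) h5
    _ = 3 * mHi n ^ 2 * (5 * mHi n) * phi G.card (k + 1) := by ring
    _ ≤ G.card * phi G.card (k + 1) := mul_le_mul_of_nonneg_right h6 hp.le

lemma FlowNum.dsum_le (h : FlowNum G) {k : ℕ} (hk : k ≤ nGrid n G.card) :
    Flow.dsum (epsG G) k ≤ lg n ^ 2 := by
  have hroom := h.facts.room
  have he : Flow.dsum (epsG G) k = ∑ i ∈ range k, stp G.card i :=
    sum_congr rfl fun i hi => delta_epsG (by have := mem_range.1 hi; omega)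
  rw [he]
  refine (h.facts.tau_le k hk).trans ?_
  have h1 := Real.log_le_self (show 0 ≤ lg n from lg_nonneg n)
  have h2 := h.big
  nlinarith

/-- The deviation scale. -/
noncomputable def kap (G : Gr n) : ℝ := lg n ^ 5 / Real.sqrt (mS G)

lemma FlowNum.kap_bounds (h : FlowNum G) :
    0 < kap G ∧ kap G ≤ 2 * lg n ^ 5 / lg n ^ 1000 ∧ lg n ^ 5 / (2 * lg n ^ 1000) ≤ kap G := by
  obtain ⟨h1, h2⟩ := h.mS_bounds
  have hL : 0 < lg n := by linarith [h.big]
  have hsq : mHi n = (lg n ^ 1000) ^ 2 := by rw [mHi, ← pow_mul]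
  have hp : 0 < lg n ^ 1000 := pow_pos hL _
  have hM : 0 < mHi n := pow_pos hL _
  have lo : lg n ^ 1000 / 2 ≤ Real.sqrt (mS G) := by
    rw [Real.le_sqrt (by positivity) (by linarith), div_pow, ← hsq]; linarith
  have hi : Real.sqrt (mS G) ≤ 2 * lg n ^ 1000 := by
    rw [Real.sqrt_le_left (by positivity), mul_pow, ← hsq]; linarith
  have hs : 0 < Real.sqrt (mS G) := lt_of_lt_of_le (by positivity) lo
  refine ⟨by unfold kap; positivity, ?_, by unfold kap; gcongr⟩
  rw [kap, div_le_div_iff₀ hs hp]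
  nlinarith [mul_le_mul_of_nonneg_left lo (pow_pos hL 5).le]

lemma FlowNum.Z_le (h : FlowNum G) {k : ℕ} (hk : k ≤ nGrid n G.card)
    (ht : mLo n ≤ mS G * phi G.card k ^ 2) {f : Sym2 (Fin n)} (hf : f ∈ G) :
    |Z G f k| ≤ kap G / phi G.card k := by
  have hroom := h.facts.room
  have he : mI n ((G.card : ℝ) - 3 * k) = mS G * phi G.card k ^ 2 := mI_target n (by omega)
  have hg := h.good f hf k (by omega) (he ▸ ht)
  rw [he, Bd, Real.sqrt_mul' _ (sq_nonneg _), Real.sqrt_sq (h.phi_pos' hk).1.le, ← div_div] at hg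
  exact hg

/-- The last step with target at least `mLo`. -/
noncomputable def kLo (G : Gr n) : ℕ :=
  Nat.findGreatest (fun k => mLo n ≤ mS G * phi G.card k ^ 2) (nGrid n G.card)

lemma FlowNum.kLo_spec (h : FlowNum G) : kLo G ≤ nGrid n G.card ∧
    mLo n ≤ mS G * phi G.card (kLo G) ^ 2 ∧ mS G * phi G.card (kLo G) ^ 2 ≤ 4 * mLo n := by
  have hroom := h.facts.room
  obtain ⟨hM1, hM2⟩ := h.mS_bounds
  have hL : (1 : ℝ) ≤ lg n := by linarith [h.big]
  have hlo : 1 ≤ mLo n := one_le_pow₀ hL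
  have h0 : mLo n ≤ mS G * phi G.card 0 ^ 2 := by
    rw [phi_zero (show 0 < G.card by omega), one_pow, mul_one]
    refine le_trans ?_ hM1
    rw [le_div_iff₀ two_pos]
    calc mLo n * 2 ≤ lg n ^ 60 * lg n := by
          rw [mLo]; exact mul_le_mul_of_nonneg_left (by linarith [h.big]) (by positivity)
      _ = lg n ^ 61 := by ring
      _ ≤ mHi n := pow_le_pow_right₀ hL (by norm_num)
  have hspec : mLo n ≤ mS G * phi G.card (kLo G) ^ 2 :=
    Nat.findGreatest_spec (P := fun k => mLo n ≤ mS G * phi G.card k ^ 2) (Nat.zero_le _) h0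
  refine ⟨Nat.findGreatest_le _, hspec, ?_⟩
  have hK := Nat.findGreatest_le (P := fun k => mLo n ≤ mS G * phi G.card k ^ 2) (nGrid n G.card)
  rw [← kLo] at hK
  have hk1 : 3 * (kLo G + 1) < G.card := by omega
  have hnext : mS G * phi G.card (kLo G + 1) ^ 2 < mLo n := by
    rcases Nat.eq_or_lt_of_le hK with hN | hN
    · have hp := phi_pos (E := G.card) (k := kLo G + 1) hk1
      have hx : 1 < xt n G.card (kLo G + 1) := one_lt_xt hk1 (by omega)
      have hm : 0 < mS G := by linarith [h.facts.mS_big]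
      rw [xt, ← mS, one_lt_div (by positivity), inv_pow, lt_sub_iff_add_lt,
        lt_inv_comm₀ (by positivity) (by positivity), ← one_div,
        lt_div_iff₀ (by positivity)] at hx
      nlinarith [sq_nonneg (phi G.card (kLo G + 1))]
    · exact not_le.1 (Nat.findGreatest_is_greatest
        (P := fun k => mLo n ≤ mS G * phi G.card k ^ 2) (Nat.lt_succ_self _) hN)
  have h2 : phi G.card (kLo G) ≤ 2 * phi G.card (kLo G + 1) := by
    rw [← phi_succ_mul hk1, mul_comm (2 : ℝ)]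
    refine mul_le_mul_of_nonneg_left ?_ (phi_pos hk1).le
    have hs : stp G.card (kLo G) ≤ 1 := by
      have : ((3 * (kLo G + 1) + 3 : ℕ) : ℝ) ≤ G.card := by exact_mod_cast (by omega : 3 * (kLo G + 1) + 3 ≤ G.card)
      push_cast at this
      rw [stp, div_le_one (by linarith)]; linarith
    linarith
  have h3 := pow_le_pow_left₀ (h.phi_pos' hK).1.le h2 2
  have hm : 0 ≤ mS G := mI_nonneg _ _
  nlinarith

lemma FlowNum.le_kLo (_h : FlowNum G) {k : ℕ} (hk : k ≤ nGrid n G.card)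
    (ht : mLo n ≤ mS G * phi G.card k ^ 2) : k ≤ kLo G :=
  Nat.le_findGreatest hk ht

lemma FlowNum.dev_le (h : FlowNum G) (e : Edge G) :
    |Flow.dev (triangles G) (einc G) (mS G) e| ≤ kap G := by
  obtain ⟨hM1, -⟩ := h.mS_bounds
  have hroom := h.facts.room
  have h0 := h.Z_le (Nat.zero_le _) (by
    obtain ⟨-, hs, -⟩ := h.kLo_spec
    refine hs.trans (mul_le_mul_of_nonneg_left ?_ (mI_nonneg _ _))
    exact pow_le_pow_left₀ (h.phi_pos' h.kLo_spec.1).1.le (phi_anti (Nat.zero_le _)) 2) e.2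
  rw [phi_zero (show 0 < G.card by omega), div_one] at h0
  rw [← lin_einc 0 (by omega) e] at h0
  exact h0

lemma FlowNum.small_ratio (h : FlowNum G) :
    kap G / phi G.card (kLo G) ≤ 1 / lg n ^ 25 := by
  obtain ⟨hk, hlo, -⟩ := h.kLo_spec
  have hL : 0 < lg n := by linarith [h.big]
  have hp := (h.phi_pos' hk).1
  have hm : 0 < mS G := by linarith [h.facts.mS_big]
  have hs : lg n ^ 30 ≤ Real.sqrt (mS G) * phi G.card (kLo G) := by
    rw [← Real.sqrt_sq hp.le, ← Real.sqrt_mul' _ (sq_nonneg _), Real.le_sqrt (by positivity) (by positivity),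
      ← pow_mul]
    exact hlo
  rw [kap, div_div, div_le_div_iff₀ (by positivity) (by positivity), one_mul]
  calc lg n ^ 5 * lg n ^ 25 = lg n ^ 30 := by ring
    _ ≤ _ := hs

/-- The envelope of the values. -/
noncomputable def cap (G : Gr n) (j : ℕ) : ℝ := 2 * phi G.card (min j (kLo G))

lemma FlowNum.zeta_le (h : FlowNum G) {U : ℕ → ℝ} {a : ℝ} (ha : 0 ≤ a) {k : ℕ}
    (hk : k ≤ nGrid n G.card) (hU : ∀ j < k, U j ^ 2 ≤ 4 * (phi G.card j ^ 2 + a)) :
    zeta G U k ≤ 16 * lg n ^ 2 / mS G + 8 * a := by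
  have hroom := h.facts.room
  have hm : 0 < mS G := by linarith [h.facts.mS_big]
  have hterm : ∀ j ∈ range k, 2 * hst n G.card j * U j ^ 2 ≤
      16 / mS G * Flow.delta (epsG G) j + 8 * a * hst n G.card j := by
    intro j hj
    have hj' := mem_range.1 hj
    have hjE : 3 * (j + 1) < G.card := by omega
    have hh : 0 ≤ hst n G.card j := hst_nonneg n hjE
    have he : hst n G.card j * phi G.card j ^ 2 =
        (Flow.delta (epsG G) j + Flow.delta (epsG G) j ^ 2 / 2) / mS G := by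
      rw [hst_epsG hjE, h.phi_eq (by omega)]
      have := (h.phi_pos' (show j ≤ nGrid n G.card by omega)).1
      field_simp
    have hd0 : 0 ≤ Flow.delta (epsG G) j := Flow.delta_nonneg (h.eps_mem (by omega))
    have hd1 : Flow.delta (epsG G) j ≤ 1 :=
      (h.delta_le (by omega)).trans ((div_le_one (by
        have := h.big; unfold mHi; positivity)).2 (one_le_pow₀ (one_le_pow₀ (by linarith [h.big]))))
    have he2 : (Flow.delta (epsG G) j + Flow.delta (epsG G) j ^ 2 / 2) / mS G ≤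
        2 * Flow.delta (epsG G) j / mS G := by gcongr; nlinarith
    calc 2 * hst n G.card j * U j ^ 2 ≤ 2 * hst n G.card j * (4 * (phi G.card j ^ 2 + a)) :=
          mul_le_mul_of_nonneg_left (hU j hj') (by positivity)
      _ = 8 * (hst n G.card j * phi G.card j ^ 2) + 8 * a * hst n G.card j := by ring
      _ ≤ 8 * (2 * Flow.delta (epsG G) j / mS G) + 8 * a * hst n G.card j := by rw [he]; gcongr
      _ = _ := by ring
  refine (sum_le_sum hterm).trans ?_
  rw [sum_add_distrib, ← mul_sum, ← mul_sum, sum_hst n (show 0 < G.card by omega) k]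
  refine add_le_add ?_ (mul_le_of_le_one_right (by positivity) (xt_le_one n (by omega) hk))
  rw [div_mul_eq_mul_div]
  gcongr
  exact h.dsum_le hk

lemma FlowNum.pow_facts (h : FlowNum G) :
    16 * lg n ^ 2 / mS G ≤ 32 * lg n ^ 2 / lg n ^ 2000 ∧
    16 * lg n ^ 2 / mS G + 8 * phi G.card (kLo G) ^ 2 ≤ lg n ^ 61 / lg n ^ 2000 ∧
    lg n ^ 61 / lg n ^ 2000 ≤ 1 / lg n ^ 1000 ∧ 1 / lg n ^ 1000 ≤ (1 : ℝ) / 8 := by
  obtain ⟨hM1, -⟩ := h.mS_bounds
  obtain ⟨-, -, hhi⟩ := h.kLo_spec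
  have hL : (1 : ℝ) ≤ lg n := by linarith [h.big]
  have hm : 0 < mS G := by linarith [h.facts.mS_big]
  have hM : 0 < lg n ^ 2000 := pow_pos (by linarith) _
  have h1 : 16 * lg n ^ 2 / mS G ≤ 32 * lg n ^ 2 / lg n ^ 2000 := by
    rw [div_le_div_iff₀ hm hM]
    calc 16 * lg n ^ 2 * lg n ^ 2000 ≤ 16 * lg n ^ 2 * (2 * mS G) := by
          refine mul_le_mul_of_nonneg_left ?_ (by positivity)
          rw [mHi] at hM1; linarith
      _ = _ := by ring
  refine ⟨h1, ?_, ?_, ?_⟩
  · have h2 : phi G.card (kLo G) ^ 2 ≤ 8 * lg n ^ 60 / lg n ^ 2000 := by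
      rw [le_div_iff₀ hM]
      rw [mHi] at hM1
      rw [mLo] at hhi
      nlinarith [mul_le_mul_of_nonneg_left hM1 (sq_nonneg (phi G.card (kLo G)))]
    calc _ ≤ 32 * lg n ^ 2 / lg n ^ 2000 + 8 * (8 * lg n ^ 60 / lg n ^ 2000) :=
          add_le_add h1 (by linarith)
      _ = (32 * lg n ^ 2 + 64 * lg n ^ 60) / lg n ^ 2000 := by ring
      _ ≤ lg n ^ 61 / lg n ^ 2000 := by
          gcongr
          have := pow_le_pow_right₀ hL (show 2 ≤ 60 by norm_num)
          have := mul_le_mul_of_nonneg_left h.big (pow_nonneg (zero_le_one.trans hL) 60)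
          rw [show lg n ^ 61 = lg n ^ 60 * lg n by ring]
          linarith [pow_nonneg (zero_le_one.trans hL) 60]
  · rw [div_le_div_iff₀ hM (by positivity), one_mul, ← pow_add]
    exact pow_le_pow_right₀ hL (by norm_num)
  · rw [div_le_div_iff₀ (by positivity) (by norm_num), one_mul, one_mul]
    exact le_trans (by linarith [h.big]) (le_self_pow₀ hL (by norm_num))

lemma FlowNum.u_le_of_rel (h : FlowNum G) {j : ℕ} (hj : j ≤ kLo G)
    (hr : ∀ i, |Flow.rel (epsG G) (uSeq G) j i| ≤ 2 * kap G / Flow.phi (epsG G) j)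
    {g : Sym2 (Fin n)} (hg : g ∈ G) :
    uOf G (msg G j) g ≤ 2 * phi G.card j := by
  have hK := h.kLo_spec.1
  have hp := (h.phi_pos' (hj.trans hK)).1
  have h1 := le_of_abs_le (hr ⟨g, hg⟩)
  rw [Flow.rel, h.phi_eq (hj.trans hK)] at h1
  have h2 : 2 * kap G / phi G.card j ≤ 1 := by
    refine le_trans (div_le_div_of_nonneg_left (by linarith [h.kap_bounds.1]) (h.phi_pos' hK).1
      (phi_anti hj)) ?_
    rw [mul_div_assoc]
    have h25 : 1 / lg n ^ 25 ≤ 1 / 2 := by
      gcongr; exact le_trans (by linarith [h.big]) (le_self_pow₀ (by linarith [h.big]) (by norm_num))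
    linarith [h.small_ratio]
  have h3 : uSeq G j ⟨g, hg⟩ / phi G.card j ≤ 2 := by linarith
  rw [div_le_iff₀ hp] at h3
  exact h3

lemma FlowNum.w_bound (h : FlowNum G) {k : ℕ} (hk : k < nGrid n G.card) {ζ q : ℝ} (hζ0 : 0 ≤ ζ)
    (hI : MsgLe G k ζ) (hI' : MsgLe G (k + 1) ζ) (hζ : ζ ≤ 1 / 8) (hq : 1 ≤ q)
    (hu : ∀ g ∈ G, uOf G (msg G k) g ≤ q * phi G.card k) (e : Edge G) :
    |wSeq G k e| ≤ (40 / mHi n ^ 2 + 18 * ζ) * q ^ 5 := by
  have hroom := h.facts.room
  have hdm := h.delta_le hk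
  have h8 : 1 / mHi n ^ 2 ≤ 1 / 8 := by
    have hL : (1 : ℝ) ≤ lg n := by linarith [h.big]
    rw [mHi, ← pow_mul]
    gcongr
    exact le_trans (by linarith [h.big]) (le_self_pow₀ hL (by norm_num))
  have hdeg : ∀ f ∈ G, cd G f ≤ 2 * mS G := by
    intro f hf
    have := Flow.deg_bound (S := triangles G) (inc := einc G) (M := mS G) (η := 1)
      (by linarith [h.facts.mS_big]) (fun e => (h.dev_le e).trans ?_) ⟨f, hf⟩
    · rw [deg_einc] at this; linarith
    · refine h.kap_bounds.2.1.trans ?_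
      have hL : 0 < lg n := by linarith [h.big]
      rw [div_le_one (by positivity)]
      calc 2 * lg n ^ 5 ≤ lg n * lg n ^ 5 := by gcongr; linarith [h.big]
        _ = lg n ^ 6 := by ring
        _ ≤ _ := pow_le_pow_right₀ (by linarith [h.big]) (by norm_num)
  have := wSeq_bound (by linarith [h.facts.mS_big]) hζ0 (show 3 * (k + 1) < G.card by omega) hI hI'
    hζ hq (fun g hg => by rw [h.phi_eq hk.le]; exact hu g hg) hdm h8 hdeg e
  rw [← mul_div_assoc, mul_one] at this
  exact this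

lemma FlowNum.msg_pre (h : FlowNum G) {k : ℕ} (hk : k ≤ nGrid n G.card)
    (hu : ∀ j < k, ∀ g ∈ G, uOf G (msg G j) g ≤ 2 * phi G.card j) :
    MsgLe G k (32 * lg n ^ 2 / lg n ^ 2000) := by
  have hroom := h.facts.room
  obtain ⟨h1, h2, h3, h4⟩ := h.pow_facts
  have hz := h.zeta_le (U := fun j => 2 * phi G.card j) (a := 0) le_rfl hk
    (fun j _ => le_of_eq (by ring))
  have hle : zeta G (fun j => 2 * phi G.card j) k ≤ 32 * lg n ^ 2 / lg n ^ 2000 := by linarith
  have h5 := sq_nonneg (phi G.card (kLo G))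
  intro t ht f hf
  have := msg_bound k (fun i hi => hst_nonneg n (by omega)) hu (by linarith) t ht f hf
  exact ⟨this.1, this.2.trans hle⟩

lemma kap_sq_lower (h : FlowNum G) :
    32 * (40 / mHi n ^ 2 + 18 * (32 * lg n ^ 2 / lg n ^ 2000)) ≤ kap G ^ 2 := by
  have hL : (1 : ℝ) ≤ lg n := by linarith [h.big]
  have hP : 0 < lg n ^ 2000 := pow_pos (by linarith) _
  have h1 := pow_le_pow_left₀ (by positivity) h.kap_bounds.2.2 2
  refine le_trans ?_ h1
  rw [div_pow, mul_pow, ← pow_mul, ← pow_mul, mHi]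
  norm_num only
  calc 32 * (40 / (lg n ^ 2000) ^ 2 + 18 * (32 * lg n ^ 2 / lg n ^ 2000))
      ≤ 32 * (40 / lg n ^ 2000 + 18 * (32 * lg n ^ 2 / lg n ^ 2000)) := by
        gcongr; exact le_self_pow₀ (one_le_pow₀ hL) (by norm_num)
    _ = (32 * 40 + 32 * 18 * 32 * lg n ^ 2) / lg n ^ 2000 := by ring
    _ ≤ (lg n ^ 10 / 4) / lg n ^ 2000 := by
        gcongr
        have h3 : lg n ^ 2 * lg n ≤ lg n ^ 10 := by
          rw [← pow_succ]; exact pow_le_pow_right₀ hL (by norm_num)
        have h4 := mul_le_mul_of_nonneg_left h.big (sq_nonneg (lg n))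
        have h5 := one_le_pow₀ (n := 2) hL
        linarith
    _ = _ := by ring

lemma FlowNum.flow_facts (h : FlowNum G) :
    Flow.Flows (triangles G) (einc G) (mS G) (epsG G) (uSeq G) (wSeq G) (nGrid n G.card) :=
  flows (by have := h.facts.room; omega)

lemma FlowNum.sup_rel (h : FlowNum G) :
    (∀ k ≤ kLo G, ∀ e, |Flow.rel (epsG G) (uSeq G) k e| ≤ 2 * kap G / Flow.phi (epsG G) k) ∧
      ∀ k < kLo G, ∀ e, |wSeq G k e| ≤ kap G := by
  obtain ⟨hK, hlo, -⟩ := h.kLo_spec
  obtain ⟨hκ0, hκ1, hκ2⟩ := h.kap_bounds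
  have hroom := h.facts.room
  have hL : (1 : ℝ) ≤ lg n := by linarith [h.big]
  have hp := (h.phi_pos' hK).1
  have hsr := h.small_ratio
  rw [div_le_iff₀ hp] at hsr
  have h25 : ∀ c : ℝ, c ≤ lg n ^ 25 → c * kap G ≤ phi G.card (kLo G) := by
    intro c hc
    calc c * kap G ≤ lg n ^ 25 * (1 / lg n ^ 25 * phi G.card (kLo G)) := by gcongr
      _ = _ := by field_simp
  have hT := h.dsum_le hK
  have hT0 : 0 ≤ Flow.dsum (epsG G) (kLo G) :=
    Flow.dsum_nonneg fun k hk => h.eps_mem (by omega)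
  have hwk : ∀ k < kLo G,
      (∀ j ≤ k, ∀ i, |Flow.rel (epsG G) (uSeq G) j i| ≤ 2 * kap G / Flow.phi (epsG G) j) →
        ∀ e, |wSeq G k e| ≤ kap G ^ 2 := by
    intro k hk hr e
    have hu : ∀ j ≤ k, ∀ g ∈ G, uOf G (msg G j) g ≤ 2 * phi G.card j := fun j hj g hg =>
      h.u_le_of_rel (by omega) (hr j hj) hg
    obtain ⟨h1, h2, h3, h4⟩ := h.pow_facts
    have h5 : 32 * lg n ^ 2 / lg n ^ 2000 ≤ 1 / 8 := by
      refine le_trans ?_ (h3.trans h4)
      gcongr
      calc 32 * lg n ^ 2 ≤ lg n * lg n ^ 2 := by gcongr; linarith [h.big]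
        _ = lg n ^ 3 := by ring
        _ ≤ _ := pow_le_pow_right₀ hL (by norm_num)
    refine (h.w_bound (by omega) (by positivity) (h.msg_pre (by omega) fun j hj => hu j hj.le)
      (h.msg_pre (by omega) fun j hj => hu j (by omega)) h5 one_le_two (hu k le_rfl) e).trans
        (le_trans (le_of_eq ?_) (kap_sq_lower h))
    ring
  have hs4 : 4 * kap G ≤ phi G.card (kLo G) :=
    h25 4 (le_trans (by linarith [h.big]) (le_self_pow₀ hL (by norm_num)))
  have hsup := Flow.sup_bound h.flow_facts (fun t ht => card_einc ht)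
    (by linarith [h.facts.mS_big]) hK (fun k hk => h.eps_mem (by omega)) hκ0.le le_rfl h.dev_le hwk
    (fun k hk e => by
      rw [lin_einc k (by omega), h.phi_eq (by omega)]
      refine h.Z_le (by omega) (hlo.trans ?_) e.2
      exact mul_le_mul_of_nonneg_left (pow_le_pow_left₀ hp.le (phi_anti hk.le) 2) (mI_nonneg _ _))
    (by rw [h.phi_eq hK]; exact hs4)
    (by
      rw [h.phi_eq hK]
      refine le_trans ?_ (h25 (200 * lg n ^ 2) ?_)
      · nlinarith [mul_le_mul_of_nonneg_left hT (show 0 ≤ 200 * kap G by positivity)]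
      · calc 200 * lg n ^ 2 ≤ lg n * lg n ^ 2 := by gcongr; linarith [h.big]
          _ = lg n ^ 3 := by ring
          _ ≤ _ := pow_le_pow_right₀ hL (by norm_num))
    (by
      have h6 := h25 (4 * lg n ^ 2) (by
        calc 4 * lg n ^ 2 ≤ lg n * lg n ^ 2 := by gcongr; linarith [h.big]
          _ = lg n ^ 3 := by ring
          _ ≤ _ := pow_le_pow_right₀ hL (by norm_num))
      nlinarith [mul_le_mul_of_nonneg_left hT hκ0.le, (h.phi_pos' hK).2])
  refine ⟨hsup, fun k hk e => ?_⟩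
  refine (hwk k hk (fun j hj => hsup j (by omega)) e).trans ?_
  rw [sq]
  exact mul_le_of_le_one_left hκ0.le (by linarith [(h.phi_pos' hK).2])

lemma FlowNum.gap_le (h : FlowNum G) : gapEps n ≤ lg n ^ 4 / lg n ^ 600 := by
  have hL : (1 : ℝ) ≤ lg n := by linarith [h.big]
  rw [gapEps]
  gcongr
  rw [mHi, ← Real.rpow_natCast (lg n) 2000, ← Real.rpow_mul (by linarith),
    ← Real.rpow_natCast (lg n) 600]
  exact Real.rpow_le_rpow_of_exponent_le hL (by norm_num)

lemma gap_edge (hgap : Gap G) (hm : 0 < mS G) (x : Edge G → ℝ) :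
    -gapEps n * mS G * ∑ e, x e ^ 2 ≤ ∑ e, x e * Flow.Nop (triangles G) (einc G) x e := by
  obtain ⟨X, hX⟩ : ∃ X : Sym2 (Fin n) → ℝ, X = fun f => if h : f ∈ G then x ⟨f, h⟩ else 0 :=
    ⟨_, rfl⟩
  have hx : x = fun i => X i.1 := funext fun i => by rw [hX]; simp [i.2]
  have h0 : ∀ f, f ∉ G → X f = 0 := fun f hf => by rw [hX]; simp [hf]
  have hres : ∀ F : Sym2 (Fin n) → ℝ, (∀ f, f ∉ G → F f = 0) →
      ∑ e : Edge G, F e.1 = ∑ f, F f := fun F hF => by
    rw [sum_coe_sort]; exact sum_subset (subset_univ G) fun f _ hf => hF f hf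
  have hg := hgap X h0
  have e1 : ∑ e, x e ^ 2 = ∑ f, X f ^ 2 := by
    rw [hx]; exact hres (fun f => X f ^ 2) fun f hf => by rw [h0 f hf]; ring
  have e2 : ∑ e, x e * Flow.Nop (triangles G) (einc G) x e =
      mS G * ∑ f, X f * Spectral.apply (nh G) X f := by
    rw [hx, ← hres (fun f => X f * Spectral.apply (nh G) X f) (fun f hf => by rw [h0 f hf]; ring),
      mul_sum]
    refine sum_congr rfl fun e _ => ?_
    rw [← Nop_einc X e]; field_simp
  rw [e1, e2]
  calc -gapEps n * mS G * ∑ f, X f ^ 2 = mS G * (-gapEps n * ∑ f, X f ^ 2) := by ring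
    _ ≤ _ := mul_le_mul_of_nonneg_left hg hm.le

lemma FlowNum.mean_pre (h : FlowNum G) (hgap : Gap G) {k : ℕ} (hk : k ≤ kLo G) :
    ∑ e, |uSeq G k e - phi G.card k| ≤
      4 * kap G * lg n ^ 2 * phi G.card k * G.card := by
  obtain ⟨hK, -, -⟩ := h.kLo_spec
  obtain ⟨hsup, hw⟩ := h.sup_rel
  obtain ⟨hκ0, hκ1, -⟩ := h.kap_bounds
  have hroom := h.facts.room
  have hL : (1 : ℝ) ≤ lg n := by linarith [h.big]
  have hkN : k ≤ nGrid n G.card := hk.trans hK
  have hp := (h.phi_pos' hkN).1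
  have hm : 0 < mS G := by linarith [h.facts.mS_big]
  have hr : kap G / phi G.card k ≤ 1 / lg n ^ 25 :=
    (div_le_div_of_nonneg_left hκ0.le (h.phi_pos' hK).1 (phi_anti hk)).trans h.small_ratio
  have hD := h.dsum_le hkN
  have hD0 : 0 ≤ Flow.dsum (epsG G) k := Flow.dsum_nonneg fun i hi => h.eps_mem (by omega)
  have hg0 : 0 ≤ gapEps n := by unfold gapEps mHi; positivity
  have hs : 4 * kap G ≤ Flow.phi (epsG G) k := by
    rw [h.phi_eq hkN]
    rw [div_le_iff₀ hp] at hr
    have : 4 * (1 / lg n ^ 25) ≤ 1 := by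
      rw [← mul_div_assoc, mul_one, div_le_one (by positivity)]
      exact le_trans (by linarith [h.big]) (le_self_pow₀ hL (by norm_num))
    nlinarith
  have hrate : (gapEps n + 8 * (1 / mHi n ^ 2) + 26 * kap G / Flow.phi (epsG G) k) *
      Flow.dsum (epsG G) k ≤ 1 / 2 := by
    rw [h.phi_eq hkN, mul_div_assoc (26 : ℝ)]
    have a1 : gapEps n ≤ 1 / lg n ^ 25 := h.gap_le.trans (by
      rw [div_le_div_iff₀ (by positivity) (by positivity), one_mul, ← pow_add]
      exact pow_le_pow_right₀ hL (by norm_num))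
    have a2 : 1 / mHi n ^ 2 ≤ 1 / lg n ^ 25 := by
      rw [mHi, ← pow_mul]
      gcongr
      norm_num
    calc (gapEps n + 8 * (1 / mHi n ^ 2) + 26 * (kap G / phi G.card k)) * Flow.dsum (epsG G) k
        ≤ (35 * (1 / lg n ^ 25)) * lg n ^ 2 :=
          mul_le_mul (by linarith) hD hD0 (by positivity)
      _ = 35 / lg n ^ 23 := by field_simp
      _ ≤ 1 / 2 := by
          rw [div_le_div_iff₀ (by positivity) two_pos, one_mul]
          exact le_trans (by linarith [h.big]) (le_self_pow₀ hL (by norm_num))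
  have hl2 := Flow.l2_bound h.flow_facts (fun t ht => card_einc ht) hm hkN hκ0.le
    (fun i hi => hw i (by omega)) (fun i hi => h.eps_mem (by omega)) hκ0.le le_rfl h.dev_le hg0
    (gap_edge hgap hm) hs (fun i hi => hsup i (by omega)) (fun i hi => h.delta_le (by omega)) hrate
  have he : ∀ e, |uSeq G k e - phi G.card k| = phi G.card k * |Flow.rel (epsG G) (uSeq G) k e| := by
    intro e
    rw [Flow.rel, h.phi_eq hkN, ← abs_of_pos hp, ← abs_mul, abs_of_pos hp]
    congr 1
    field_simp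
  simp only [he, ← mul_sum]
  have hc : (Fintype.card (Edge G) : ℝ) = G.card := by rw [Fintype.card_coe]
  calc phi G.card k * ∑ e, |Flow.rel (epsG G) (uSeq G) k e|
      ≤ phi G.card k * (Real.sqrt (Fintype.card (Edge G)) *
          (2 * (kap G + kap G) * Flow.dsum (epsG G) k * Real.sqrt (Fintype.card (Edge G)))) := by
        gcongr
        exact (Flow.sum_abs_le_nrm _).trans (by gcongr)
    _ = phi G.card k * (4 * kap G * Flow.dsum (epsG G) k) *
          (Real.sqrt (Fintype.card (Edge G)) * Real.sqrt (Fintype.card (Edge G))) := by ring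
    _ ≤ phi G.card k * (4 * kap G * lg n ^ 2) * G.card := by
        rw [Real.mul_self_sqrt (Nat.cast_nonneg _), hc]; gcongr
    _ = _ := by ring

lemma cap_sq (j : ℕ) :
    cap G j ^ 2 ≤ 4 * (phi G.card j ^ 2 + phi G.card (kLo G) ^ 2) := by
  rw [cap, mul_pow]
  norm_num only
  rcases le_or_gt j (kLo G) with hj | hj
  · rw [min_eq_left hj]; nlinarith [sq_nonneg (phi G.card (kLo G))]
  · rw [min_eq_right hj.le]; nlinarith [sq_nonneg (phi G.card j)]

lemma FlowNum.msg_all (h : FlowNum G) {k : ℕ} (hk : k ≤ nGrid n G.card)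
    (hu : ∀ j < k, ∀ g ∈ G, uOf G (msg G j) g ≤ cap G j) :
    MsgLe G k (lg n ^ 61 / lg n ^ 2000) := by
  have hroom := h.facts.room
  obtain ⟨h1, h2, h3, h4⟩ := h.pow_facts
  have hz := (h.zeta_le (sq_nonneg (phi G.card (kLo G))) hk fun j _ => cap_sq j).trans h2
  intro t ht f hf
  have := msg_bound k (fun i hi => hst_nonneg n (by omega)) hu (by linarith) t ht f hf
  exact ⟨this.1, this.2.trans hz⟩

lemma FlowNum.u_le_cap (h : FlowNum G) :
    ∀ k, k ≤ nGrid n G.card → ∀ g ∈ G, uOf G (msg G k) g ≤ cap G k := by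
  intro k
  induction k using Nat.strong_induction_on with
  | _ k ih =>
    intro hk g hg
    rcases le_or_gt k (kLo G) with hj | hj
    · rw [cap, min_eq_left hj]; exact h.u_le_of_rel hj (h.sup_rel.1 k hj) hg
    · obtain ⟨m, rfl⟩ : ∃ m, k = m + 1 := ⟨k - 1, by omega⟩
      obtain ⟨-, -, h3, h4⟩ := h.pow_facts
      have hroom := h.facts.room
      have hI := h.msg_all (show m ≤ nGrid n G.card by omega) fun j hj' => ih j (by omega) (by omega)
      have hI' := h.msg_all hk fun j hj' => ih j hj' (by omega)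
      refine (uOf_succ_le hI hI' (h3.trans h4) (hst_nonneg n (by omega)) g).trans
        ((ih m (by omega) (by omega) g hg).trans_eq ?_)
      rw [cap, cap, min_eq_right (by omega), min_eq_right (by omega)]

lemma FlowNum.ratio_le (h : FlowNum G) {k : ℕ} (hk : k ≤ nGrid n G.card) :
    (2 * phi G.card (kLo G) / phi G.card k) ^ 2 ≤ lg n ^ 61 := by
  obtain ⟨-, -, hhi⟩ := h.kLo_spec
  have hp := (h.phi_pos' hk).1
  have hlb := h.facts.phi_lb k hk
  have hL : (1 : ℝ) ≤ lg n := by linarith [h.big]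
  rw [div_pow, div_le_iff₀ (by positivity), mul_pow]
  norm_num only
  calc 4 * phi G.card (kLo G) ^ 2
      ≤ 4 * phi G.card (kLo G) ^ 2 * ((2 * mS G + 1) * phi G.card k ^ 2) :=
        le_mul_of_one_le_right (by positivity) hlb
    _ ≤ 4 * phi G.card (kLo G) ^ 2 * (3 * mS G * phi G.card k ^ 2) := by
        gcongr; linarith [h.facts.mS_big]
    _ = 12 * (mS G * phi G.card (kLo G) ^ 2) * phi G.card k ^ 2 := by ring
    _ ≤ 12 * (4 * mLo n) * phi G.card k ^ 2 := by gcongr
    _ ≤ lg n ^ 61 * phi G.card k ^ 2 := by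
        refine mul_le_mul_of_nonneg_right ?_ (sq_nonneg _)
        rw [mLo, show lg n ^ 61 = lg n * lg n ^ 60 by ring]
        nlinarith [h.big, pow_nonneg (zero_le_one.trans hL) 60]

lemma FlowNum.w_post (h : FlowNum G) {k : ℕ} (hk0 : kLo G ≤ k) (hk : k < nGrid n G.card)
    (e : Edge G) : |wSeq G k e| ≤ kap G := by
  obtain ⟨hK, -, -⟩ := h.kLo_spec
  obtain ⟨-, -, h3, h4⟩ := h.pow_facts
  have hL : (1 : ℝ) ≤ lg n := by linarith [h.big]
  have hp := (h.phi_pos' hk.le).1
  have hI := h.msg_all hk.le fun j hj => h.u_le_cap j (by omega)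
  have hI' := h.msg_all (show k + 1 ≤ nGrid n G.card by omega) fun j hj => h.u_le_cap j (by omega)
  obtain ⟨q, hq⟩ : ∃ q, q = 2 * phi G.card (kLo G) / phi G.card k := ⟨_, rfl⟩
  have hq1 : 1 ≤ q := by
    rw [hq, le_div_iff₀ hp, one_mul]
    linarith [phi_anti (E := G.card) hk0, (h.phi_pos' hK).1]
  have hq5 : q ^ 5 ≤ lg n ^ 183 := by
    calc q ^ 5 ≤ q ^ 6 := pow_le_pow_right₀ hq1 (by norm_num)
      _ = (q ^ 2) ^ 3 := by ring
      _ ≤ (lg n ^ 61) ^ 3 := pow_le_pow_left₀ (by positivity) (hq ▸ h.ratio_le hk.le) 3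
      _ = lg n ^ 183 := by rw [← pow_mul]
  refine (h.w_bound hk (by positivity) hI hI' (h3.trans h4) hq1 (fun g hg => ?_) e).trans ?_
  · refine (h.u_le_cap k hk.le g hg).trans_eq ?_
    rw [hq, cap, min_eq_right hk0, div_mul_cancel₀ _ hp.ne']
  have hP : 0 < lg n ^ 2000 := pow_pos (by linarith) _
  calc (40 / mHi n ^ 2 + 18 * (lg n ^ 61 / lg n ^ 2000)) * q ^ 5
      ≤ (40 / lg n ^ 2000 + 18 * (lg n ^ 61 / lg n ^ 2000)) * lg n ^ 183 := by
        gcongr
        rw [mHi]; exact le_self_pow₀ (one_le_pow₀ hL) (by norm_num)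
    _ = (40 + 18 * lg n ^ 61) * lg n ^ 183 / lg n ^ 2000 := by ring
    _ ≤ lg n ^ 250 / lg n ^ 2000 := by
        gcongr
        calc (40 + 18 * lg n ^ 61) * lg n ^ 183 ≤ (lg n * lg n ^ 61) * lg n ^ 183 := by
              gcongr; nlinarith [one_le_pow₀ (n := 61) hL, h.big]
          _ = lg n ^ 245 := by ring
          _ ≤ _ := pow_le_pow_right₀ hL (by norm_num)
    _ ≤ lg n ^ 5 / (2 * lg n ^ 1000) := by
        rw [div_le_div_iff₀ hP (by positivity)]
        calc lg n ^ 250 * (2 * lg n ^ 1000) ≤ lg n ^ 250 * (lg n * lg n ^ 1000) := by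
              gcongr; linarith [h.big]
          _ = lg n ^ 1251 := by ring
          _ ≤ lg n ^ 2005 := pow_le_pow_right₀ hL (by norm_num)
          _ = _ := by ring
    _ ≤ _ := h.kap_bounds.2.2

lemma FlowNum.mean_le (h : FlowNum G) (hgap : Gap G) {k : ℕ} (hk : k ≤ nGrid n G.card) :
    ∑ e, |uSeq G k e - phi G.card k| ≤ (G.card : ℝ) * phi G.card k * (1 / lg n ^ 800) := by
  obtain ⟨hK, -, -⟩ := h.kLo_spec
  obtain ⟨hκ0, hκ1, -⟩ := h.kap_bounds
  have hroom := h.facts.room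
  have hL : (1 : ℝ) ≤ lg n := by linarith [h.big]
  have hp := (h.phi_pos' hk).1
  have hpK := (h.phi_pos' hK).1
  have hfin : ∀ c : ℝ, 0 ≤ c → c ≤ 5 * lg n ^ 124 →
      kap G * c ≤ 1 / lg n ^ 800 := by
    intro c hc0 hc
    calc kap G * c ≤ 2 * lg n ^ 5 / lg n ^ 1000 * (5 * lg n ^ 124) := by gcongr
      _ = 10 * lg n ^ 129 / lg n ^ 1000 := by ring
      _ ≤ lg n ^ 130 / lg n ^ 1000 := by
          gcongr
          rw [show lg n ^ 130 = lg n * lg n ^ 129 by ring]
          gcongr; linarith [h.big]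
      _ ≤ 1 / lg n ^ 800 := by
          rw [div_le_div_iff₀ (by positivity) (by positivity), one_mul, ← pow_add]
          exact pow_le_pow_right₀ hL (by norm_num)
  rcases le_or_gt k (kLo G) with hj | hj
  · refine (h.mean_pre hgap hj).trans ?_
    rw [show 4 * kap G * lg n ^ 2 * phi G.card k * G.card =
      (G.card : ℝ) * phi G.card k * (kap G * (4 * lg n ^ 2)) by ring]
    refine mul_le_mul_of_nonneg_left (hfin _ (by positivity) ?_) (by positivity)
    have := pow_le_pow_right₀ hL (show 2 ≤ 124 by norm_num)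
    linarith [pow_nonneg (zero_le_one.trans hL) 2]
  have hm : 0 < mS G := by linarith [h.facts.mS_big]
  have hη1 : kap G ≤ 1 := by
    have hr := h.small_ratio
    rw [div_le_iff₀ hpK] at hr
    have : 1 / lg n ^ 25 ≤ 1 := (div_le_one (by positivity)).2 (one_le_pow₀ hL)
    nlinarith [(h.phi_pos' hK).2]
  have hA : ∑ e, |uSeq G (kLo G) e - Flow.phi (epsG G) (kLo G)| ≤
      4 * kap G * lg n ^ 2 * phi G.card (kLo G) * G.card := by
    rw [h.phi_eq hK]; exact h.mean_pre hgap le_rfl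
  have hv : ∀ j, kLo G ≤ j → j < nGrid n G.card →
      ∀ e, 0 ≤ uSeq G j e ∧ uSeq G j e ≤ 2 * phi G.card (kLo G) := by
    intro j hj hj' e
    obtain ⟨-, -, h3, h4⟩ := h.pow_facts
    refine ⟨(uOf_mem (h.msg_all hj'.le fun i hi => h.u_le_cap i (by omega))
      (by linarith) e.1).1, (h.u_le_cap j hj'.le e.1 e.2).trans_eq ?_⟩
    rw [cap, min_eq_right hj]
  have hl1 := Flow.l1_bound h.flow_facts (fun t ht => card_einc ht) hm
    (fun i hi => h.eps_mem hi.le) hκ0.le hη1 hκ0.le h.dev_le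
    (fun i hi hi' => h.w_post hi hi') hv (by rw [h.phi_eq hK]; linarith)
    (fun i hi hi' => ?_) hA k hj.le hk
  · rw [h.phi_eq hK, h.phi_eq hk, Fintype.card_coe] at hl1
    refine hl1.trans ?_
    obtain ⟨Q, hQ⟩ : ∃ Q, Q = phi G.card (kLo G) / phi G.card k := ⟨_, rfl⟩
    have hQ1 : 1 ≤ Q := by rw [hQ, le_div_iff₀ hp, one_mul]; exact phi_anti hj.le
    have hQ3 : Q ^ 3 ≤ lg n ^ 122 := by
      calc Q ^ 3 ≤ Q ^ 4 := pow_le_pow_right₀ hQ1 (by norm_num)
        _ ≤ ((2 * Q) ^ 2) ^ 2 := by nlinarith [pow_nonneg (zero_le_one.trans hQ1) 4]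
        _ ≤ (lg n ^ 61) ^ 2 := by
            refine pow_le_pow_left₀ (sq_nonneg _) ?_ 2
            rw [hQ, ← mul_div_assoc]; exact h.ratio_le hk
        _ = lg n ^ 122 := by rw [← pow_mul]
    rw [← hQ]
    have hmid : 4 * kap G * lg n ^ 2 * phi G.card (kLo G) * G.card +
        (kap G + kap G) * G.card * (phi G.card (kLo G) - phi G.card k) ≤
        5 * lg n ^ 2 * kap G * G.card * phi G.card (kLo G) := by
      have h2 : 2 ≤ lg n ^ 2 := le_trans (by linarith [h.big]) (le_self_pow₀ hL two_ne_zero)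
      have h0 : 0 ≤ kap G * G.card := by positivity
      nlinarith [mul_nonneg h0 hp.le,
        mul_le_mul_of_nonneg_left h2 (mul_nonneg h0 hpK.le)]
    calc Q ^ 2 * _ ≤ Q ^ 2 * (5 * lg n ^ 2 * kap G * G.card * phi G.card (kLo G)) := by gcongr
      _ = (G.card : ℝ) * phi G.card k * (kap G * (5 * lg n ^ 2 * Q ^ 3)) := by
          rw [hQ]; field_simp
      _ ≤ _ := by
          refine mul_le_mul_of_nonneg_left (hfin _ (by positivity) ?_) (by positivity)
          calc 5 * lg n ^ 2 * Q ^ 3 ≤ 5 * lg n ^ 2 * lg n ^ 122 := by gcongr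
            _ = _ := by ring
  · rw [h.phi_eq hi'.le]
    have hq := h.ratio_le hi'.le
    rw [div_pow, div_le_iff₀ (pow_pos (h.phi_pos' hi'.le).1 2)] at hq
    have hd := h.delta_le hi'
    obtain ⟨e0, e1⟩ := h.eps_mem hi'.le
    have hed : epsG G i ≤ Flow.delta (epsG G) i := le_div_self e0 (by linarith) (by linarith)
    calc 2 * epsG G i * (2 * phi G.card (kLo G)) ^ 2
        ≤ 2 * (1 / mHi n ^ 2) * (lg n ^ 61 * phi G.card i ^ 2) :=
          mul_le_mul (mul_le_mul_of_nonneg_left (hed.trans hd) two_pos.le) hq (sq_nonneg _)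
            (mul_nonneg two_pos.le (div_nonneg zero_le_one (sq_nonneg _)))
      _ = 2 * lg n ^ 61 / mHi n ^ 2 * phi G.card i ^ 2 := by ring
      _ ≤ 1 * phi G.card i ^ 2 := by
          refine mul_le_mul_of_nonneg_right ?_ (sq_nonneg _)
          rw [mHi, ← pow_mul, div_le_one (by positivity)]
          calc 2 * lg n ^ 61 ≤ lg n * lg n ^ 61 := by gcongr; linarith [h.big]
            _ = lg n ^ 62 := by ring
            _ ≤ _ := pow_le_pow_right₀ hL (by norm_num)
      _ = _ := one_mul _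

/-- Module 4: the cavity system. -/
theorem flowStep : FlowStep := by
  unfold FlowStep
  filter_upwards [eventually_stageFacts, eventually_le_lg 10000000,
    eventually_mHi_pow_le 60 3 one_pos] with n hfacts hbig hn G hG hgap
  rw [Real.rpow_one] at hn
  have h : FlowNum G := ⟨hfacts G hG, hG.sub, hG.good, hbig, hn⟩
  obtain ⟨hK, -, -⟩ := h.kLo_spec
  have hL : (1 : ℝ) ≤ lg n := by linarith
  have hpow : ∀ (a b : ℕ) (x : ℝ), (2000 : ℝ) * x = -(a : ℝ) → b = a →
      mHi n ^ x = 1 / lg n ^ b := by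
    intro a b x hx hb
    rw [hb, mHi, ← Real.rpow_natCast (lg n) 2000, ← Real.rpow_mul (by linarith),
      Nat.cast_ofNat, hx, Real.rpow_neg (by linarith), Real.rpow_natCast, one_div]
  refine ⟨fun k hk t ht f hf => ?_, fun k hk hm f hf => ?_, fun k hk => ?_⟩
  · have := h.msg_all hk (fun j hj => h.u_le_cap j (by omega)) t ht f hf
    rw [hpow 1000 1000 (-(1 / 2)) (by norm_num) rfl]
    exact ⟨this.1, this.2.trans h.pow_facts.2.2.1⟩
  · have hroom := h.facts.room
    rw [mI_target n (show 0 < G.card by omega)] at hm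
    have hj := h.le_kLo hk hm
    have hr := h.sup_rel.1 k hj ⟨f, hf⟩
    have hp := (h.phi_pos' hk).1
    rw [Flow.rel, h.phi_eq hk] at hr
    have he : |uOf G (msg G k) f - phi G.card k| =
        phi G.card k * |uSeq G k ⟨f, hf⟩ / phi G.card k - 1| := by
      rw [← abs_of_pos hp, ← abs_mul, abs_of_pos hp, uSeq]
      congr 1
      field_simp
    rw [he, div_eq_mul_one_div (phi G.card k) (lg n ^ 5)]
    refine mul_le_mul_of_nonneg_left (hr.trans ?_) hp.le
    have h1 := (div_le_div_of_nonneg_left h.kap_bounds.1.le (h.phi_pos' hK).1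
      (phi_anti hj)).trans h.small_ratio
    rw [mul_div_assoc]
    refine (mul_le_mul_of_nonneg_left h1 two_pos.le).trans ?_
    rw [mul_one_div, div_le_div_iff₀ (by positivity) (by positivity), one_mul]
    calc 2 * lg n ^ 5 ≤ lg n * lg n ^ 5 := by gcongr; linarith
      _ = lg n ^ 6 := by ring
      _ ≤ _ := pow_le_pow_right₀ hL (by norm_num)
  · rw [hpow 800 800 (-(2 / 5)) (by norm_num) rfl]
    refine le_trans (le_of_eq ?_) (h.mean_le hgap hk)
    rw [← sum_coe_sort G]
    rfl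

end Vale.Agent.P046.Full
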