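import Vale.Agent.P046.Full.Spectral
import Vale.Agent.P046.Track.Comb

/-!
Discrepancy bounds give a quadratic form bound (a dyadic decomposition), and the quadratic form
of the triangle adjacency splits over the link graphs.
-/

namespace Vale.Agent.P046.Full.Gap

open Finset Vale.Agent.P046.Full

section Disc

variable {ι : Type*} [Fintype ι]

/-- The bilinear form of a kernel. -/
def bil (B : ι → ι → ℝ) (x y : ι → ℝ) : ℝ := ∑ i, ∑ j, x i * B i j * y j

/-- The dyadic scale. -/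
def W (c : ℝ) (k : ℕ) : ℝ := c * 2 ^ k

/-- The dyadic layers. -/
noncomputable def layer (c : ℝ) : ℕ → ℝ → ℝ
  | 0, x => min x (W c 0)
  | k + 1, x => min x (W c (k + 1)) - min x (W c k)

/-- The support of a layer. -/
noncomputable def lev (c : ℝ) (x : ι → ℝ) (k : ℕ) : Finset ι :=
  univ.filter fun i => 0 < x i ∧ W c k ≤ 2 * x i

lemma sum_le_pos (u c : ι → ℝ) (S : Finset ι) (h0 : ∀ i, 0 ≤ u i) (h1 : ∀ i, u i ≤ 1)
    (hS : ∀ i, i ∉ S → u i = 0) :
    ∑ i, u i * c i ≤ ∑ i ∈ S.filter (fun i => 0 < c i), c i := by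
  classical
  rw [sum_filter, ← sum_subset (subset_univ S) (fun i _ hi => by rw [hS i hi]; ring)]
  refine sum_le_sum fun i _ => ?_
  split_ifs with h
  · exact mul_le_of_le_one_left h.le (h1 i)
  · exact mul_nonpos_of_nonneg_of_nonpos (h0 i) (not_lt.1 h)

lemma box_le {B : ι → ι → ℝ} {a : ℝ} (ha : 0 ≤ a)
    (hB : ∀ S T : Finset ι, ∑ i ∈ S, ∑ j ∈ T, B i j ≤ a * Real.sqrt ((S.card : ℝ) * T.card))
    {u v : ι → ℝ} (hu0 : ∀ i, 0 ≤ u i) (hu1 : ∀ i, u i ≤ 1) (hv0 : ∀ i, 0 ≤ v i)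
    (hv1 : ∀ i, v i ≤ 1) {S T : Finset ι} (hS : ∀ i, i ∉ S → u i = 0)
    (hT : ∀ i, i ∉ T → v i = 0) :
    bil B u v ≤ a * Real.sqrt ((S.card : ℝ) * T.card) := by
  classical
  obtain ⟨S', hS', h1⟩ : ∃ S', S' ⊆ S ∧ bil B u v ≤ ∑ i ∈ S', ∑ j, B i j * v j := by
    refine ⟨S.filter (fun i => 0 < ∑ j, B i j * v j), filter_subset _ _, ?_⟩
    refine le_trans (le_of_eq ?_) (sum_le_pos u (fun i => ∑ j, B i j * v j) S hu0 hu1 hS)
    exact sum_congr rfl fun i _ => by rw [mul_sum]; exact sum_congr rfl fun j _ => by ring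
  obtain ⟨T', hT', h2⟩ : ∃ T', T' ⊆ T ∧
      ∑ i ∈ S', ∑ j, B i j * v j ≤ ∑ j ∈ T', ∑ i ∈ S', B i j := by
    refine ⟨T.filter (fun j => 0 < ∑ i ∈ S', B i j), filter_subset _ _, ?_⟩
    refine le_trans (le_of_eq ?_) (sum_le_pos v (fun j => ∑ i ∈ S', B i j) T hv0 hv1 hT)
    rw [sum_comm]
    exact sum_congr rfl fun j _ => by rw [mul_sum]; exact sum_congr rfl fun i _ => by ring
  refine h1.trans (h2.trans ?_)
  rw [sum_comm]
  refine (hB S' T').trans ?_
  gcongr

lemma bil_neg (B : ι → ι → ℝ) (u v : ι → ℝ) : bil (fun i j => -B i j) u v = -bil B u v := by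
  simp [bil]

lemma abs_box_le {B : ι → ι → ℝ} {a : ℝ} (ha : 0 ≤ a)
    (hB : ∀ S T : Finset ι, |∑ i ∈ S, ∑ j ∈ T, B i j| ≤ a * Real.sqrt ((S.card : ℝ) * T.card))
    {u v : ι → ℝ} (hu0 : ∀ i, 0 ≤ u i) (hu1 : ∀ i, u i ≤ 1) (hv0 : ∀ i, 0 ≤ v i)
    (hv1 : ∀ i, v i ≤ 1) {S T : Finset ι} (hS : ∀ i, i ∉ S → u i = 0)
    (hT : ∀ i, i ∉ T → v i = 0) :
    |bil B u v| ≤ a * Real.sqrt ((S.card : ℝ) * T.card) := by
  have h1 := box_le ha (fun S T => (abs_le.1 (hB S T)).2) hu0 hu1 hv0 hv1 hS hT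
  have h2 := box_le ha (B := fun i j => -B i j) (fun S T => by
    simp only [sum_neg_distrib]; linarith [(abs_le.1 (hB S T)).1]) hu0 hu1 hv0 hv1 hS hT
  rw [bil_neg] at h2
  rw [abs_le]; constructor <;> linarith

lemma abs_row_le {B : ι → ι → ℝ} {r : ℝ} (hr : ∀ i, ∑ j, |B i j| ≤ r) {u v : ι → ℝ}
    (hu0 : ∀ i, 0 ≤ u i) (hu1 : ∀ i, u i ≤ 1) (hv0 : ∀ i, 0 ≤ v i) (hv1 : ∀ i, v i ≤ 1)
    {S : Finset ι} (hS : ∀ i, i ∉ S → u i = 0) : |bil B u v| ≤ r * S.card := by
  unfold bil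
  rw [← sum_subset (subset_univ S) (fun i _ hi => by simp [hS i hi])]
  refine (abs_sum_le_sum_abs _ _).trans ?_
  rw [mul_comm, ← nsmul_eq_mul, ← sum_const]
  refine sum_le_sum fun i _ => le_trans ((abs_sum_le_sum_abs _ _).trans ?_) (hr i)
  refine sum_le_sum fun j _ => ?_
  rw [abs_mul, abs_mul, abs_of_nonneg (hu0 i), abs_of_nonneg (hv0 j)]
  calc u i * |B i j| * v j ≤ u i * |B i j| * 1 :=
        mul_le_mul_of_nonneg_left (hv1 j) (mul_nonneg (hu0 i) (abs_nonneg _))
    _ ≤ 1 * |B i j| * 1 := by have := hu1 i; gcongr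
    _ = |B i j| := by ring

lemma bil_swap (B : ι → ι → ℝ) (u v : ι → ℝ) : bil (fun i j => B j i) u v = bil B v u := by
  unfold bil
  rw [sum_comm]
  exact sum_congr rfl fun i _ => sum_congr rfl fun j _ => by ring

lemma bil_sum (B : ι → ι → ℝ) (N : ℕ) (p q : ℕ → ι → ℝ) :
    bil B (fun i => ∑ k ∈ range N, p k i) (fun j => ∑ l ∈ range N, q l j) =
      ∑ k ∈ range N, ∑ l ∈ range N, bil B (p k) (q l) := by
  unfold bil
  simp only [sum_mul, mul_sum]
  rw [sum_comm' (s := univ) (t := fun _ => univ) (s' := fun _ => univ) (t' := univ)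
    (by simp)]
  conv_lhs => enter [2, j, 2, i]; rw [sum_comm]
  conv_lhs => enter [2, j]; rw [sum_comm]
  rw [sum_comm]
  refine sum_congr rfl fun k _ => ?_
  conv_lhs => enter [2, j]; rw [sum_comm]
  rw [sum_comm]
  exact sum_congr rfl fun l _ => by rw [sum_comm]

lemma W_pos {c : ℝ} (hc : 0 < c) (k : ℕ) : 0 < W c k := by unfold W; positivity

lemma W_succ (c : ℝ) (k : ℕ) : W c (k + 1) = 2 * W c k := by unfold W; ring

lemma sum_layer (c x : ℝ) (N : ℕ) : ∑ k ∈ range (N + 1), layer c k x = min x (W c N) := by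
  induction N with
  | zero => simp [layer]
  | succ N ih => rw [sum_range_succ, ih]; simp [layer]

lemma layer_nonneg {c x : ℝ} (hc : 0 < c) (hx : 0 ≤ x) : ∀ k, 0 ≤ layer c k x
  | 0 => le_min hx (W_pos hc 0).le
  | k + 1 => by
    have := W_succ c k; have := W_pos hc k
    simp only [layer, sub_nonneg]
    exact min_le_min_left _ (by linarith)

lemma layer_le {c x : ℝ} (hc : 0 < c) : ∀ k, layer c k x ≤ W c k
  | 0 => min_le_right _ _
  | k + 1 => by
    have := W_succ c k; have := W_pos hc k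
    simp only [layer]
    rcases le_total x (W c k) with h | h
    · rw [min_eq_left h, min_eq_left (by linarith)]; linarith
    · rw [min_eq_right h]; linarith [min_le_right x (W c (k + 1))]

lemma layer_eq_zero {c : ℝ} (hc : 0 < c) {x : ι → ℝ} (hx : ∀ i, x i = 0 ∨ c ≤ x i)
    (k : ℕ) (i : ι) (hi : i ∉ lev c x k) : layer c k (x i) = 0 := by
  have hi' : 0 < x i → 2 * x i < W c k := by
    intro h; simpa [lev, h] using hi
  rcases hx i with h | h
  · cases k with
    | zero => simp [layer, h, W, hc.le]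
    | succ k => simp [layer, h, (W_pos hc k).le, (W_pos hc (k + 1)).le]
  · have h' := hi' (by linarith)
    cases k with
    | zero => simp [W] at h'; linarith
    | succ k =>
      have := W_succ c k; have := W_pos hc k
      simp only [layer]
      rw [min_eq_left (by linarith), min_eq_left (by linarith)]; ring

lemma geom_le {c X : ℝ} (hc : 0 < c) (N : ℕ) :
    ∑ k ∈ range N, (if W c k ≤ X then W c k ^ 2 else 0) ≤ 4 / 3 * X ^ 2 := by
  induction N with
  | zero => simp; positivity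
  | succ N ih =>
    rw [sum_range_succ]
    by_cases h : W c N ≤ X
    · have hall : ∀ m, ∑ k ∈ range m, (if W c k ≤ X then W c k ^ 2 else 0) ≤
          (W c m ^ 2 - c ^ 2) / 3 := by
        intro m
        induction m with
        | zero => simp [W]
        | succ m ihm =>
          rw [sum_range_succ, W_succ]
          split_ifs <;> nlinarith [sq_nonneg (W c m)]
      have h2 := hall N
      have h3 : W c N ^ 2 ≤ X ^ 2 := pow_le_pow_left₀ (W_pos hc N).le h 2
      rw [if_pos h]; nlinarith [sq_nonneg c]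
    · rw [if_neg h, add_zero]; exact ih

lemma sum_lev {c : ℝ} (hc : 0 < c) (x : ι → ℝ) (N : ℕ) :
    ∑ k ∈ range N, ((lev c x k).card : ℝ) * W c k ^ 2 ≤ 16 / 3 * ∑ i, x i ^ 2 := by
  have h1 : ∀ k, ((lev c x k).card : ℝ) * W c k ^ 2 =
      ∑ i, if 0 < x i ∧ W c k ≤ 2 * x i then W c k ^ 2 else 0 := by
    intro k; rw [← sum_filter, sum_const, nsmul_eq_mul, lev]
  simp only [h1]
  rw [sum_comm, mul_sum]
  refine sum_le_sum fun i _ => ?_
  refine le_trans (sum_le_sum fun k _ => ?_) ((geom_le hc N (X := 2 * x i)).trans (le_of_eq (by ring)))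
  split_ifs with h1 h2 h2
  · exact le_rfl
  · exact absurd h1.2 h2
  · positivity
  · exact le_rfl

/-- The weight of two scales more than `L` apart. -/
noncomputable def far (L k l : ℕ) : ℝ := if k + L < l then (2 : ℝ) ^ k / 2 ^ l else 0

lemma sum_far (L N l : ℕ) : ∑ k ∈ range N, far L k l ≤ 1 / 2 ^ L := by
  unfold far
  rw [← sum_filter, ← sum_div]
  rcases le_or_gt l L with h | h
  · have : (range N).filter (fun k => k + L < l) = ∅ :=
      filter_eq_empty_iff.2 fun k _ => by omega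
    simp [this]
  · calc (∑ k ∈ (range N).filter (fun k => k + L < l), (2 : ℝ) ^ k) / 2 ^ l
        ≤ (∑ k ∈ range (l - L), (2 : ℝ) ^ k) / 2 ^ l := by
          refine div_le_div_of_nonneg_right ?_ (by positivity)
          refine sum_le_sum_of_subset_of_nonneg ?_ (fun _ _ _ => by positivity)
          intro k hk; simp only [mem_filter, mem_range] at hk ⊢; omega
      _ ≤ 2 ^ (l - L) / 2 ^ l := by
          refine div_le_div_of_nonneg_right ?_ (by positivity)
          rw [geom_sum_eq (by norm_num)]; norm_num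
      _ = 1 / 2 ^ L := by
          rw [div_eq_div_iff (by positivity) (by positivity), one_mul, ← pow_add,
            Nat.sub_add_cancel h.le]

lemma sum_near (L N l : ℕ) :
    ∑ k ∈ range N, (if k ≤ l + L ∧ l ≤ k + L then (1 : ℝ) else 0) ≤ 2 * L + 1 := by
  rw [sum_boole]
  have h : (range N).filter (fun k => k ≤ l + L ∧ l ≤ k + L) ⊆ Icc (l - L) (l + L) := by
    intro k hk; simp only [mem_filter, mem_Icc] at hk ⊢; omega
  have := card_le_card h
  rw [Nat.card_Icc] at this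
  have h2 : ((range N).filter (fun k => k ≤ l + L ∧ l ≤ k + L)).card ≤ 2 * L + 1 := by omega
  exact_mod_cast h2

lemma term_le {a r c P s t : ℝ} {L k l : ℕ} (ha : 0 ≤ a) (hr : 0 ≤ r) (hc : 0 < c)
    (hs : 0 ≤ s) (ht : 0 ≤ t) (h1 : P ≤ W c k * W c l * (a * Real.sqrt (s * t)))
    (h2 : P ≤ W c k * W c l * (r * s)) (h3 : P ≤ W c k * W c l * (r * t)) :
    P ≤ (if k ≤ l + L ∧ l ≤ k + L then (1 : ℝ) else 0) *
        (a / 2 * (s * W c k ^ 2 + t * W c l ^ 2)) +
      far L k l * (r * (t * W c l ^ 2)) + far L l k * (r * (s * W c k ^ 2)) := by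
  unfold far
  rcases lt_or_ge (k + L) l with h | h
  · rw [if_neg (by omega), if_pos h, if_neg (by omega)]
    refine h3.trans (le_of_eq ?_)
    unfold W; field_simp; ring
  rcases lt_or_ge (l + L) k with h' | h'
  · rw [if_neg (by omega), if_neg (by omega), if_pos h']
    refine h2.trans (le_of_eq ?_)
    unfold W; field_simp; ring
  rw [if_pos ⟨h', h⟩, if_neg (by omega), if_neg (by omega)]
  refine h1.trans ?_
  obtain ⟨u, rfl⟩ : ∃ u : ℝ, s = u ^ 2 := ⟨_, (Real.sq_sqrt hs).symm⟩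
  obtain ⟨v, rfl⟩ : ∃ v : ℝ, t = v ^ 2 := ⟨_, (Real.sq_sqrt ht).symm⟩
  rw [← mul_pow, Real.sqrt_sq_eq_abs, abs_mul]
  have hk := W_pos hc k; have hl := W_pos hc l
  rw [← sq_abs u, ← sq_abs v]
  nlinarith [mul_nonneg ha (sq_nonneg (W c k * |u| - W c l * |v|))]

/-- Discrepancy bounds the bilinear form on nonnegative vectors. -/
theorem bil_le {B : ι → ι → ℝ} {a r : ℝ} (ha : 0 ≤ a) (hr : 0 ≤ r)
    (hB : ∀ S T : Finset ι, |∑ i ∈ S, ∑ j ∈ T, B i j| ≤ a * Real.sqrt ((S.card : ℝ) * T.card))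
    (hrow : ∀ i, ∑ j, |B i j| ≤ r) (hcol : ∀ j, ∑ i, |B i j| ≤ r) (L : ℕ) {x y : ι → ℝ}
    (hx : ∀ i, 0 ≤ x i) (hy : ∀ i, 0 ≤ y i) :
    |bil B x y| ≤ 8 / 3 * ((2 * L + 1) * a + 2 * r / 2 ^ L) *
      (∑ i, x i ^ 2 + ∑ i, y i ^ 2) := by
  classical
  obtain ⟨c, hc, hcx, hcy⟩ : ∃ c : ℝ, 0 < c ∧ (∀ i, x i = 0 ∨ c ≤ x i) ∧
      (∀ i, y i = 0 ∨ c ≤ y i) := by
    obtain ⟨s, hs⟩ : ∃ s, s = insert (1 : ℝ)
        ((univ.image x ∪ univ.image y).filter fun z => 0 < z) := ⟨_, rfl⟩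
    have hne : s.Nonempty := hs ▸ insert_nonempty _ _
    refine ⟨s.min' hne, ?_, fun i => ?_, fun i => ?_⟩
    · have hpos : ∀ z ∈ s, (0 : ℝ) < z := by
        intro z hz
        simp only [hs, mem_insert, mem_filter] at hz
        rcases hz with h | h
        · linarith
        · exact h.2
      exact hpos _ (s.min'_mem hne)
    · rcases (hx i).eq_or_lt' with h | h
      · exact Or.inl h
      · exact Or.inr (s.min'_le _ (by simp [hs, h]))
    · rcases (hy i).eq_or_lt' with h | h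
      · exact Or.inl h
      · exact Or.inr (s.min'_le _ (by simp [hs, h]))
  obtain ⟨N, hN⟩ := pow_unbounded_of_one_lt ((∑ i, x i + ∑ i, y i) / c) (one_lt_two (α := ℝ))
  have hWN : ∑ i, x i + ∑ i, y i ≤ W c N := by
    rw [div_lt_iff₀ hc] at hN; unfold W; linarith
  have hsum : ∀ (z : ι → ℝ), (∀ i, z i ≤ W c N) → ∀ i,
      z i = ∑ k ∈ range (N + 1), layer c k (z i) := fun z hz i => by
    rw [sum_layer, min_eq_left (hz i)]
  have hxe := hsum x fun i => by
    linarith [single_le_sum (fun j _ => hx j) (mem_univ i), sum_nonneg (fun j (_ : j ∈ univ) => hy j)]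
  have hye := hsum y fun i => by
    linarith [single_le_sum (fun j _ => hy j) (mem_univ i), sum_nonneg (fun j (_ : j ∈ univ) => hx j)]
  have hterm : ∀ k l, |bil B (fun i => layer c k (x i)) (fun i => layer c l (y i))| ≤
      (if k ≤ l + L ∧ l ≤ k + L then (1 : ℝ) else 0) *
        (a / 2 * (((lev c x k).card : ℝ) * W c k ^ 2 + ((lev c y l).card : ℝ) * W c l ^ 2)) +
      far L k l * (r * (((lev c y l).card : ℝ) * W c l ^ 2)) +
      far L l k * (r * (((lev c x k).card : ℝ) * W c k ^ 2)) := by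
    intro k l
    obtain ⟨u, hu⟩ : ∃ u : ι → ℝ, u = fun i => layer c k (x i) / W c k := ⟨_, rfl⟩
    obtain ⟨v, hv⟩ : ∃ v : ι → ℝ, v = fun i => layer c l (y i) / W c l := ⟨_, rfl⟩
    have hu0 : ∀ i, 0 ≤ u i := fun i => hu ▸ div_nonneg (layer_nonneg hc (hx i) k) (W_pos hc k).le
    have hv0 : ∀ i, 0 ≤ v i := fun i => hv ▸ div_nonneg (layer_nonneg hc (hy i) l) (W_pos hc l).le
    have hu1 : ∀ i, u i ≤ 1 := fun i => hu ▸ (div_le_one (W_pos hc k)).2 (layer_le hc k)
    have hv1 : ∀ i, v i ≤ 1 := fun i => hv ▸ (div_le_one (W_pos hc l)).2 (layer_le hc l)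
    have hus : ∀ i, i ∉ lev c x k → u i = 0 := fun i hi => by
      simp [hu, layer_eq_zero hc hcx k i hi]
    have hvs : ∀ i, i ∉ lev c y l → v i = 0 := fun i hi => by
      simp [hv, layer_eq_zero hc hcy l i hi]
    have hWk := W_pos hc k; have hWl := W_pos hc l
    have hscale : bil B (fun i => layer c k (x i)) (fun i => layer c l (y i)) =
        W c k * W c l * bil B u v := by
      simp only [bil, mul_sum, hu, hv]
      refine sum_congr rfl fun i _ => sum_congr rfl fun j _ => ?_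
      field_simp
    rw [hscale, abs_mul, abs_of_pos (mul_pos hWk hWl)]
    refine term_le ha hr hc (Nat.cast_nonneg _) (Nat.cast_nonneg _) ?_ ?_ ?_
    · exact mul_le_mul_of_nonneg_left (abs_box_le ha hB hu0 hu1 hv0 hv1 hus hvs) (by positivity)
    · exact mul_le_mul_of_nonneg_left (abs_row_le hrow hu0 hu1 hv0 hv1 hus) (by positivity)
    · refine mul_le_mul_of_nonneg_left ?_ (by positivity)
      have := abs_row_le (B := fun i j => B j i) hcol hv0 hv1 hu0 hu1 hvs
      rwa [bil_swap] at this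
  rw [show bil B x y = bil B (fun i => ∑ k ∈ range (N + 1), layer c k (x i))
      (fun i => ∑ k ∈ range (N + 1), layer c k (y i)) by rw [← funext hxe, ← funext hye], bil_sum]
  refine (abs_sum_le_sum_abs _ _).trans ((sum_le_sum fun k _ => (abs_sum_le_sum_abs _ _).trans
    (sum_le_sum fun l _ => hterm k l)).trans ?_)
  have hF := sum_lev hc x (N + 1)
  have hG := sum_lev hc y (N + 1)
  change ∑ k ∈ range (N + 1), ∑ l ∈ range (N + 1), _ ≤ _
  set f : ℕ → ℝ := fun k => ((lev c x k).card : ℝ) * W c k ^ 2 with hf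
  set g : ℕ → ℝ := fun k => ((lev c y k).card : ℝ) * W c k ^ 2 with hg
  have hf0 : ∀ k, 0 ≤ f k := fun k => mul_nonneg (Nat.cast_nonneg _) (sq_nonneg _)
  have hg0 : ∀ k, 0 ≤ g k := fun k => mul_nonneg (Nat.cast_nonneg _) (sq_nonneg _)
  change ∑ k ∈ range (N + 1), f k ≤ _ at hF
  change ∑ k ∈ range (N + 1), g k ≤ _ at hG
  change ∑ k ∈ range (N + 1), ∑ l ∈ range (N + 1),
    ((if k ≤ l + L ∧ l ≤ k + L then (1 : ℝ) else 0) * (a / 2 * (f k + g l)) +
      far L k l * (r * g l) + far L l k * (r * f k)) ≤ _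
  simp only [mul_add, sum_add_distrib]
  have hA : ∑ k ∈ range (N + 1), ∑ l ∈ range (N + 1),
      (if k ≤ l + L ∧ l ≤ k + L then (1 : ℝ) else 0) * (a / 2 * f k) ≤
        (2 * L + 1) * (a / 2 * ∑ k ∈ range (N + 1), f k) := by
    rw [mul_sum, mul_sum]
    refine sum_le_sum fun k _ => ?_
    rw [← sum_mul]
    refine mul_le_mul_of_nonneg_right ?_ (mul_nonneg (div_nonneg ha zero_le_two) (hf0 k))
    simpa only [and_comm] using sum_near L (N + 1) k
  have hBb : ∑ k ∈ range (N + 1), ∑ l ∈ range (N + 1),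
      (if k ≤ l + L ∧ l ≤ k + L then (1 : ℝ) else 0) * (a / 2 * g l) ≤
        (2 * L + 1) * (a / 2 * ∑ l ∈ range (N + 1), g l) := by
    rw [sum_comm, mul_sum, mul_sum]
    refine sum_le_sum fun l _ => ?_
    rw [← sum_mul]
    exact mul_le_mul_of_nonneg_right (sum_near L (N + 1) l) (mul_nonneg (div_nonneg ha zero_le_two) (hg0 l))
  have hC : ∑ k ∈ range (N + 1), ∑ l ∈ range (N + 1), far L k l * (r * g l) ≤
      1 / 2 ^ L * (r * ∑ l ∈ range (N + 1), g l) := by
    rw [sum_comm, mul_sum, mul_sum]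
    refine sum_le_sum fun l _ => ?_
    rw [← sum_mul]
    exact mul_le_mul_of_nonneg_right (sum_far L (N + 1) l) (mul_nonneg hr (hg0 l))
  have hD : ∑ k ∈ range (N + 1), ∑ l ∈ range (N + 1), far L l k * (r * f k) ≤
      1 / 2 ^ L * (r * ∑ k ∈ range (N + 1), f k) := by
    rw [mul_sum, mul_sum]
    refine sum_le_sum fun k _ => ?_
    rw [← sum_mul]
    exact mul_le_mul_of_nonneg_right (sum_far L (N + 1) k) (mul_nonneg hr (hf0 k))
  refine (add_le_add (add_le_add (add_le_add hA hBb) hC) hD).trans ?_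
  have hK : (0 : ℝ) ≤ (2 * L + 1) * (a / 2) + 1 / 2 ^ L * r := by positivity
  have h1 := mul_le_mul_of_nonneg_left hF hK
  have h2 := mul_le_mul_of_nonneg_left hG hK
  refine le_trans (le_of_eq ?_) (le_trans (add_le_add h1 h2) (le_of_eq ?_)) <;> ring

/-- Discrepancy bounds the quadratic form. -/
theorem disc_quad {B : ι → ι → ℝ} {a r : ℝ} (ha : 0 ≤ a) (hr : 0 ≤ r)
    (hB : ∀ S T : Finset ι, |∑ i ∈ S, ∑ j ∈ T, B i j| ≤ a * Real.sqrt ((S.card : ℝ) * T.card))
    (hrow : ∀ i, ∑ j, |B i j| ≤ r) (hcol : ∀ j, ∑ i, |B i j| ≤ r) (L : ℕ) (x : ι → ℝ) :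
    |bil B x x| ≤ 11 * ((2 * L + 1) * a + 2 * r / 2 ^ L) * ∑ i, x i ^ 2 := by
  obtain ⟨p, hp⟩ : ∃ p : ι → ℝ, p = fun i => max (x i) 0 := ⟨_, rfl⟩
  obtain ⟨q, hq⟩ : ∃ q : ι → ℝ, q = fun i => max (-x i) 0 := ⟨_, rfl⟩
  have hp0 : ∀ i, 0 ≤ p i := fun i => hp ▸ le_max_right _ _
  have hq0 : ∀ i, 0 ≤ q i := fun i => hq ▸ le_max_right _ _
  have hx : ∀ i, x i = p i - q i := fun i => by
    rcases le_total (x i) 0 with h | h <;> simp [hp, hq, h]
  have hsq : ∑ i, p i ^ 2 + ∑ i, q i ^ 2 = ∑ i, x i ^ 2 := by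
    rw [← sum_add_distrib]
    refine sum_congr rfl fun i _ => ?_
    rcases le_total (x i) 0 with h | h <;> simp [hp, hq, h]
  have e : bil B x x = bil B p p - bil B p q - bil B q p + bil B q q := by
    simp only [bil, hx, ← sum_sub_distrib, ← sum_add_distrib]
    exact sum_congr rfl fun i _ => sum_congr rfl fun j _ => by ring
  have h1 := abs_le.1 (bil_le ha hr hB hrow hcol L hp0 hp0)
  have h2 := abs_le.1 (bil_le ha hr hB hrow hcol L hp0 hq0)
  have h3 := abs_le.1 (bil_le ha hr hB hrow hcol L hq0 hp0)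
  have h4 := abs_le.1 (bil_le ha hr hB hrow hcol L hq0 hq0)
  have hK : 0 ≤ ((2 * L + 1 : ℝ) * a + 2 * r / 2 ^ L) * ∑ i, x i ^ 2 :=
    mul_nonneg (by positivity) (sum_nonneg fun i _ => sq_nonneg _)
  rw [← hsq] at hK ⊢
  rw [e, abs_le]; constructor <;> nlinarith

/-- A one-sided spectral bound for a graph whose discrepancy from density `p` is small. -/
theorem link_lower [DecidableEq ι] {A : ι → ι → ℝ} {V : Finset ι} {p a D : ℝ} (ha : 0 ≤ a)
    (hp : 0 ≤ p) (hA0 : ∀ i j, 0 ≤ A i j) (hsupp : ∀ i j, i ∉ V ∨ j ∉ V → A i j = 0)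
    (hdisc : ∀ S T : Finset ι, S ⊆ V → T ⊆ V →
      |∑ i ∈ S, ∑ j ∈ T, A i j - p * S.card * T.card| ≤ a * Real.sqrt ((S.card : ℝ) * T.card))
    (hrow : ∀ i, ∑ j, A i j ≤ D) (hcol : ∀ j, ∑ i, A i j ≤ D) (hV : p * V.card ≤ D) (L : ℕ)
    (x : ι → ℝ) :
    -(11 * ((2 * L + 1) * a + 4 * D / 2 ^ L)) * ∑ i, x i ^ 2 ≤ bil A x x := by
  obtain ⟨w, hw⟩ : ∃ w : ι → ℝ, w = fun i => if i ∈ V then 1 else 0 := ⟨_, rfl⟩
  have hw0 : ∀ i, 0 ≤ w i := fun i => by rw [hw]; dsimp; split_ifs <;> norm_num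
  have hw1 : ∀ i, w i ≤ 1 := fun i => by rw [hw]; dsimp; split_ifs <;> norm_num
  have hws : ∀ S : Finset ι, ∑ i ∈ S, w i = (S ∩ V).card := fun S => by
    simp [hw, sum_boole, filter_mem_eq_inter]
  rcases isEmpty_or_nonempty ι with hι | hι
  · simp [bil]
  have hD : 0 ≤ D := (sum_nonneg fun j _ => hA0 hι.some j).trans (hrow _)
  have hr1 : ∀ i, ∑ j, p * w i * w j ≤ D := fun i => by
    rw [← mul_sum, hws, univ_inter]
    calc p * w i * V.card = w i * (p * V.card) := by ring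
      _ ≤ 1 * (p * V.card) := mul_le_mul_of_nonneg_right (hw1 i) (by positivity)
      _ ≤ D := by linarith
  have hB : ∀ S T : Finset ι, |∑ i ∈ S, ∑ j ∈ T, (A i j - p * w i * w j)| ≤
      a * Real.sqrt ((S.card : ℝ) * T.card) := by
    intro S T
    have e1 : ∑ i ∈ S, ∑ j ∈ T, A i j = ∑ i ∈ S ∩ V, ∑ j ∈ T ∩ V, A i j := by
      rw [← sum_subset (inter_subset_left : S ∩ V ⊆ S) fun i hi hi' => sum_eq_zero fun j _ =>
        hsupp i j (Or.inl fun h => hi' (mem_inter.2 ⟨hi, h⟩))]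
      exact sum_congr rfl fun i _ => (sum_subset inter_subset_left fun j hj hj' =>
        hsupp i j (Or.inr fun h => hj' (mem_inter.2 ⟨hj, h⟩))).symm
    have e2 : ∑ i ∈ S, ∑ j ∈ T, p * w i * w j = p * (S ∩ V).card * (T ∩ V).card := by
      simp only [← mul_sum, ← sum_mul, hws]
    simp only [sum_sub_distrib, e1, e2]
    refine (hdisc _ _ inter_subset_right inter_subset_right).trans ?_
    gcongr <;> exact inter_subset_left
  have habs : ∀ i j, |A i j - p * w i * w j| ≤ A i j + p * w i * w j := fun i j => by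
    have := hA0 i j; have : 0 ≤ p * w i * w j := by have := hw0 i; have := hw0 j; positivity
    rw [abs_le]; constructor <;> linarith
  have h := (abs_le.1 (disc_quad ha (r := 2 * D) (by linarith) hB
    (fun i => (sum_le_sum fun j _ => habs i j).trans (by
      rw [sum_add_distrib]; linarith [hrow i, hr1 i]))
    (fun j => (sum_le_sum fun i _ => habs i j).trans (by
      rw [sum_add_distrib]
      have := hr1 j
      rw [sum_congr rfl fun i _ => show p * w j * w i = p * w i * w j by ring] at this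
      linarith [hcol j])) L x)).1
  have e : bil (fun i j => A i j - p * w i * w j) x x = bil A x x - p * (∑ i, x i * w i) ^ 2 := by
    rw [sq, sum_mul_sum, mul_sum]
    simp only [bil, mul_sum, ← sum_sub_distrib]
    exact sum_congr rfl fun i _ => sum_congr rfl fun j _ => by ring
  rw [e] at h
  have h5 : 0 ≤ p * (∑ i, x i * w i) ^ 2 := by positivity
  calc -(11 * ((2 * L + 1) * a + 4 * D / 2 ^ L)) * ∑ i, x i ^ 2
      = -(11 * ((2 * L + 1) * a + 2 * (2 * D) / 2 ^ L) * ∑ i, x i ^ 2) := by ring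
    _ ≤ bil A x x := by linarith

end Disc

section Links

open Track
open scoped Classical

variable {n : ℕ}

/-- The link graph of `v`. -/
noncomputable def linkAdj (G : Finset (Sym2 (Fin n))) (v a b : Fin n) : ℝ :=
  if ({v, a, b} : Finset (Fin n)) ∈ triangles G then 1 else 0

lemma edgesOf_three {p q r : Fin n} (hpq : p ≠ q) (hpr : p ≠ r) (hqr : q ≠ r) :
    edgesOf ({p, q, r} : Finset (Fin n)) = {s(p, q), s(p, r), s(q, r)} := by
  ext e
  induction e using Sym2.ind with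
  | _ x y =>
    simp only [edgesOf, mem_filter, Finset.mem_sym2_iff, Sym2.mem_iff, mem_insert,
      mem_singleton, Sym2.mk_isDiag_iff, forall_eq_or_imp, forall_eq, Sym2.eq_iff]
    constructor
    · rintro ⟨⟨hx, hy⟩, hne⟩
      rcases hx with rfl | rfl | rfl <;> rcases hy with rfl | rfl | rfl <;> simp_all
    · rintro ((⟨rfl, rfl⟩ | ⟨rfl, rfl⟩) | (⟨rfl, rfl⟩ | ⟨rfl, rfl⟩) | (⟨rfl, rfl⟩ | ⟨rfl, rfl⟩)) <;>
        simp_all [eq_comm]

lemma triple_eq_iff {t : Finset (Fin n)} (ht : t.card = 3) (v a b : Fin n) :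
    ({v, a, b} : Finset (Fin n)) = t ↔
      v ∈ t ∧ a ∈ t ∧ b ∈ t ∧ v ≠ a ∧ v ≠ b ∧ a ≠ b := by
  constructor
  · rintro rfl
    refine ⟨by simp, by simp, by simp, ?_, ?_, ?_⟩ <;> intro h <;> subst h
    · have := card_le_two (a := v) (b := b)
      simp at ht; omega
    · have := card_le_two (a := v) (b := a)
      rw [show ({v, a, v} : Finset (Fin n)) = {v, a} by ext; simp; tauto] at ht; omega
    · have := card_le_two (a := v) (b := a)
      rw [show ({v, a, a} : Finset (Fin n)) = {v, a} by ext; simp] at ht; omega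
  · rintro ⟨hv, ha, hb, h1, h2, h3⟩
    refine eq_of_subset_of_card_le ?_ ?_
    · simp [insert_subset_iff, hv, ha, hb]
    · rw [ht, card_eq_three.2 ⟨v, a, b, h1, h2, h3, rfl⟩]

lemma local_links {t : Finset (Fin n)} (ht : t.card = 3) (x : Sym2 (Fin n) → ℝ) :
    ∑ v, ∑ a, ∑ b, (if ({v, a, b} : Finset (Fin n)) = t then x s(v, a) * x s(v, b) else 0) =
      (∑ e ∈ edgesOf t, x e) ^ 2 - ∑ e ∈ edgesOf t, x e ^ 2 := by
  obtain ⟨p, q, r, hpq, hpr, hqr, rfl⟩ := card_eq_three.1 ht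
  have h1 : ∀ v a b : Fin n, (if ({v, a, b} : Finset (Fin n)) = {p, q, r} then
      x s(v, a) * x s(v, b) else 0) = if v ∈ ({p, q, r} : Finset (Fin n)) then
        (if a ∈ ({p, q, r} : Finset (Fin n)) then (if b ∈ ({p, q, r} : Finset (Fin n)) then
          (if v ≠ a ∧ v ≠ b ∧ a ≠ b then x s(v, a) * x s(v, b) else 0) else 0) else 0) else 0 := by
    intro v a b
    rw [if_congr (triple_eq_iff ht v a b) rfl rfl]
    simp only [ite_and]
  simp only [h1, sum_ite_irrel, sum_const_zero, sum_ite_mem, univ_inter]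
  rw [edgesOf_three hpq hpr hqr]
  simp [sum_insert, hpq, hpr, hqr, hpq.symm, hpr.symm, hqr.symm, Sym2.eq_swap]
  ring

/-- The quadratic form of the triangle adjacency is the sum of those of the link graphs. -/
theorem quad_links (G : Finset (Sym2 (Fin n))) (x : Sym2 (Fin n) → ℝ) :
    ∑ e, x e * Spectral.apply (Spectral.adj (triangles G) edgesOf) x e =
      ∑ v, bil (linkAdj G v) (fun a => x s(v, a)) (fun b => x s(v, b)) := by
  rw [Spectral.quad_eq]
  have h1 : ∑ e, (Spectral.deg (triangles G) edgesOf e : ℝ) * x e ^ 2 =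
      ∑ t ∈ triangles G, ∑ e ∈ edgesOf t, x e ^ 2 := by
    simp only [Spectral.deg, ← sum_boole, sum_mul]
    rw [sum_comm]
    exact sum_congr rfl fun t _ => by simp [ite_mul, sum_ite_mem]
  have h2 : ∀ v a b : Fin n, x s(v, a) * linkAdj G v a b * x s(v, b) =
      ∑ t ∈ triangles G,
        if ({v, a, b} : Finset (Fin n)) = t then x s(v, a) * x s(v, b) else 0 := by
    intro v a b
    rw [sum_ite_eq]
    unfold linkAdj
    split_ifs <;> ring
  rw [h1, ← sum_sub_distrib]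
  simp only [bil, h2]
  rw [sum_congr rfl fun v _ => sum_congr rfl fun a _ => sum_comm]
  rw [sum_congr rfl fun v _ => sum_comm, sum_comm]
  exact sum_congr rfl fun t ht => (local_links (card3_of_mem ht) x).symm

/-- A lower bound in every link gives one for the triangle adjacency. -/
theorem adj_gap (G : Finset (Sym2 (Fin n))) {β : ℝ} (hβ : 0 ≤ β)
    (h : ∀ (v : Fin n) (y : Fin n → ℝ), -β * ∑ a, y a ^ 2 ≤ bil (linkAdj G v) y y)
    (x : Sym2 (Fin n) → ℝ) :
    -(2 * β) * ∑ e, x e ^ 2 ≤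
      ∑ e, x e * Spectral.apply (Spectral.adj (triangles G) edgesOf) x e := by
  rw [quad_links]
  refine le_trans ?_ (sum_le_sum fun v _ => h v fun a => x s(v, a))
  rw [← mul_sum, neg_mul, neg_mul, neg_le_neg_iff, mul_comm 2 β, mul_assoc]
  refine mul_le_mul_of_nonneg_left ?_ hβ
  rw [← sum_product', ← sum_fiberwise (univ ×ˢ univ) (fun p : Fin n × Fin n => s(p.1, p.2)),
    mul_sum]
  refine sum_le_sum fun e _ => ?_
  rw [sum_congr rfl fun p hp => show x s(p.1, p.2) ^ 2 = x e ^ 2 by rw [(mem_filter.1 hp).2],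
    sum_const, nsmul_eq_mul]
  refine mul_le_mul_of_nonneg_right ?_ (sq_nonneg _)
  induction e using Sym2.ind with
  | _ a b =>
    have hs : (univ ×ˢ univ).filter (fun p : Fin n × Fin n => s(p.1, p.2) = s(a, b)) ⊆
        {(a, b), (b, a)} := by
      rintro ⟨c, d⟩ hp
      simpa [Sym2.eq_iff] using (mem_filter.1 hp).2
    have := (card_le_card hs).trans card_le_two
    exact_mod_cast this

end Links

end Vale.Agent.P046.Full.Gap
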