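import Vale.Agent.P046.Full.Defs

/-!
The parameters of the two stages: the states in which the first phase stops, and the predicted
final number of edges from them.
-/

namespace Vale.Agent.P046.Full

open Finset Filter
open scoped Classical Topology

variable {n : ℕ}

lemma tendsto_lg : Tendsto lg atTop atTop :=
  Real.tendsto_log_atTop.comp tendsto_natCast_atTop_atTop

lemma eventually_one_le_lg : ∀ᶠ n : ℕ in atTop, 1 ≤ lg n := tendsto_lg.eventually_ge_atTop 1

lemma le_eHi (n : ℕ) : Real.sqrt (mHi n * (n : ℝ) ^ 3) / 2 ≤ eHi n := Nat.le_ceil _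

lemma mHi_le_mI {E : ℝ} (hn : 0 < n) (hL : 1 ≤ lg n) (hE : (eHi n : ℝ) ≤ E) :
    mHi n ≤ mI n E := by
  have hM : 0 ≤ mHi n * (n : ℝ) ^ 3 :=
    mul_nonneg (pow_nonneg (by linarith) _) (by positivity)
  have h1 := pow_le_pow_left₀ (div_nonneg (Real.sqrt_nonneg _) zero_le_two) ((le_eHi n).trans hE) 2
  rw [div_pow, Real.sq_sqrt hM] at h1
  rw [mI, le_div_iff₀ (by positivity)]
  linarith

lemma mLo_le_mHi (hL : 1 ≤ lg n) : mLo n ≤ mHi n := pow_le_pow_right₀ hL (by norm_num)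

/-- Above the stopping stage a good state has a triangle. -/
lemma Good.triangles_ne {G : Gr n} (hG : Good G) (hn : 0 < n) (hL : 2 ≤ lg n)
    (hE : eHi n < G.card) : triangles G ≠ ∅ := by
  intro he
  obtain ⟨f, hf⟩ := card_pos.1 (show 0 < G.card by omega)
  have hm : mHi n ≤ mI n ((G.card : ℝ) - 3 * ((0 : ℕ) : ℝ)) :=
    mHi_le_mI hn (by linarith) (by push_cast; have : (eHi n : ℝ) < G.card := (by exact_mod_cast hE); linarith)
  have h := hG f hf 0 (by omega) ((mLo_le_mHi (by linarith)).trans hm)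
  simp only [Nat.cast_zero, mul_zero, sub_zero, Z, prop, dv, if_pos hf, cd, he, filter_empty,
    card_empty, zero_div, zero_sub, abs_neg, abs_one] at h hm
  have h2 : lg n ^ 5 < Real.sqrt (mI n (G.card : ℝ)) := by
    refine lt_of_lt_of_le ?_ (Real.sqrt_le_sqrt hm)
    rw [mHi, show lg n ^ 2000 = (lg n ^ 1000) ^ 2 by rw [← pow_mul],
      Real.sqrt_sq (by positivity)]
    exact pow_lt_pow_right₀ (by linarith) (by norm_num)
  rw [Bd, le_div_iff₀ (lt_trans (by positivity) h2), one_mul] at h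
  linarith

/-- Comparison at the states where the process stops, with an invariant of the process. -/
lemma EvUntil_mono_inv {stop P : Gr n → Prop} {ψ χ : Gr n → ℝ} {G0 : Gr n} (h0 : P G0)
    (hstep : ∀ G, P G → ¬ stop G → ∀ T ∈ triangles G, P (G \ edgesOf T))
    (h : ∀ G, G ⊆ G0 → P G → stop G ∨ triangles G = ∅ → ψ G ≤ χ G) :
    EvUntil stop ψ G0 ≤ EvUntil stop χ G0 := by
  refine process_induction (G0 := G0)
    (P := fun G => P G → EvUntil stop ψ G ≤ EvUntil stop χ G) (fun G hG ih hP => ?_) h0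
  by_cases hs : stop G ∨ triangles G = ∅
  · rw [EvUntil_of_stop hs, EvUntil_of_stop hs]
    exact h G hG hP hs
  · rw [not_or] at hs
    rw [EvUntil_of_step hs.1 hs.2, EvUntil_of_step hs.1 hs.2]
    exact childAvg_le_childAvg fun T hT => ih T hT (hstep G hP hs.1 T hT)

/-- The invariant of the first phase. -/
def AboveStage (G : Gr n) : Prop := G ⊆ completeEdges n ∧ eHi n < G.card + 3

lemma AboveStage.step {G : Gr n} (hP : AboveStage G) (hs : ¬ Stop G) {T : Finset (Fin n)}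
    (hT : T ∈ triangles G) : AboveStage (G \ edgesOf T) := by
  refine ⟨Finset.sdiff_subset.trans hP.1, ?_⟩
  have h1 : eHi n < G.card := not_le.1 fun h => hs (Or.inr h)
  have h2 := card_step hT
  omega

lemma eventually_eHi_lt : ∀ᶠ n : ℕ in atTop, eHi n < (completeEdges n).card + 3 := by
  have hlim : ∀ᶠ x : ℝ in atTop, Real.log x ^ 2000 ≤ 1 / 4 * x := by
    have h := (Real.isLittleO_pow_log_id_atTop (n := 2000)).bound (show (0 : ℝ) < 1 / 4 by norm_num)
    filter_upwards [h, eventually_ge_atTop (1 : ℝ)] with x hx h1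
    simp only [Real.norm_eq_abs, id_eq, abs_of_nonneg (show (0 : ℝ) ≤ x by linarith)] at hx
    exact (le_abs_self _).trans hx
  filter_upwards [tendsto_natCast_atTop_atTop.eventually hlim, eventually_ge_atTop 4,
    eventually_one_le_lg] with n hn h4 hL
  have hn0 : (4 : ℝ) ≤ n := by exact_mod_cast h4
  have h1 : Real.sqrt (mHi n * (n : ℝ) ^ 3) ≤ (n : ℝ) ^ 2 / 2 := by
    refine (Real.sqrt_le_left (by positivity)).2 ?_
    rw [show ((n : ℝ) ^ 2 / 2) ^ 2 = 1 / 4 * n * (n : ℝ) ^ 3 by ring]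
    exact mul_le_mul_of_nonneg_right hn (by positivity)
  have h2 : ((completeEdges n).card : ℝ) = (n : ℝ) * (n - 1) / 2 := by
    rw [card_completeEdges, Nat.cast_choose_two]
  have h3 : (eHi n : ℝ) < Real.sqrt (mHi n * (n : ℝ) ^ 3) / 2 + 1 :=
    Nat.ceil_lt_add_one (by positivity)
  have : (eHi n : ℝ) < ((completeEdges n).card : ℝ) + 3 := by
    rw [h2]; nlinarith
  exact_mod_cast this

/-- A state at which the first phase stops, while still good, is at the stage. -/
lemma eventually_atStage : ∀ᶠ n : ℕ in atTop, ∀ G : Gr n, AboveStage G → Good G →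
    Stop G ∨ triangles G = ∅ → AtStage G := by
  filter_upwards [tendsto_lg.eventually_ge_atTop 2, eventually_gt_atTop 0] with n hL hn G hP hG hs
  refine ⟨hP.1, hG, not_lt.1 fun hlt => ?_, hP.2⟩
  rcases hs with (h | h) | h
  · exact h hG
  · omega
  · exact hG.triangles_ne hn hL hlt h

/-- A comparison of expectations at the end of the first phase. -/
theorem eventually_le_at_stage : ∀ᶠ n : ℕ in atTop, ∀ ψ χ : Gr n → ℝ,
    (∀ G : Gr n, AtStage G → ψ G ≤ χ G) → (∀ G : Gr n, ¬ Good G → ψ G ≤ χ G) →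
      EvUntil Stop ψ (completeEdges n) ≤ EvUntil Stop χ (completeEdges n) := by
  filter_upwards [eventually_eHi_lt, eventually_atStage] with n h0 h ψ χ h1 h2
  refine EvUntil_mono_inv (P := AboveStage) ⟨subset_rfl, h0⟩
    (fun G hP hs T hT => hP.step hs hT) fun G _ hP hs => ?_
  by_cases hG : Good G
  · exact h1 G (h G hP hG hs)
  · exact h2 G hG

/-- The size of the stopping stage. -/
lemma AtStage.card_ge {G : Gr n} (h : AtStage G) :
    Real.sqrt (mHi n * (n : ℝ) ^ 3) / 2 - 3 ≤ G.card := by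
  have h1 : (eHi n : ℝ) ≤ (G.card : ℝ) + 3 := by exact_mod_cast h.gt.le
  linarith [le_eHi n]

lemma xt_le_one_iff {E k : ℕ} (hm : 0 < mI n E) (hk : 3 * k < E) :
    xt n E k ≤ 1 ↔ (E : ℝ) / Real.sqrt (1 + 2 * mI n E) ≤ (E : ℝ) - 3 * k := by
  have hE : (0 : ℝ) < E := by
    have : 0 < E := by omega
    exact_mod_cast this
  have hk' : 0 < (E : ℝ) - 3 * k := by
    have : (3 : ℝ) * k < E := by exact_mod_cast hk
    linarith
  have hs : 0 < Real.sqrt (1 + 2 * mI n E) := Real.sqrt_pos.2 (by linarith)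
  rw [xt, div_le_one (by linarith), sub_le_iff_le_add, phi, inv_div, div_le_comm₀ hs hk',
    Real.le_sqrt (by positivity) (by linarith), add_comm (1 : ℝ)]

lemma pred_eq {G : Gr n} (hE : 0 < G.card) :
    pred G = (G.card : ℝ) - 3 * nGrid n G.card := by
  have : (G.card : ℝ) ≠ 0 := by exact_mod_cast hE.ne'
  rw [pred, phi, mul_div_cancel₀ _ this]

/-- The prediction is the closed formula, up to one step. -/
lemma pred_bounds {G : Gr n} (hE : 0 < G.card) (hm : 0 < mI n G.card) :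
    (G.card : ℝ) / Real.sqrt (1 + 2 * mI n G.card) ≤ pred G ∧
      pred G < (G.card : ℝ) / Real.sqrt (1 + 2 * mI n G.card) + 3 := by
  rw [pred_eq hE]
  have hs : 1 ≤ Real.sqrt (1 + 2 * mI n G.card) := by
    rw [Real.le_sqrt zero_le_one (by linarith)]; linarith
  have hzero : 3 * 0 < G.card ∧ xt n G.card 0 ≤ 1 := by
    refine ⟨by omega, (xt_le_one_iff hm (by omega)).2 ?_⟩
    rw [Nat.cast_zero, mul_zero, sub_zero]
    exact div_le_self (Nat.cast_nonneg _) hs
  obtain ⟨N, hN⟩ : ∃ N, N = nGrid n G.card := ⟨_, rfl⟩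
  have hspec : 3 * N < G.card ∧ xt n G.card N ≤ 1 := by
    rw [hN]
    exact Nat.findGreatest_spec (P := fun k => 3 * k < G.card ∧ xt n G.card k ≤ 1)
      (Nat.zero_le _) hzero
  rw [← hN]
  refine ⟨(xt_le_one_iff hm hspec.1).1 hspec.2, not_le.1 fun hc => ?_⟩
  have hpos : 0 < (G.card : ℝ) / Real.sqrt (1 + 2 * mI n G.card) :=
    div_pos (by exact_mod_cast hE) (by linarith)
  have h3 : 3 * (N + 1) < G.card := by
    have : ((3 * (N + 1) : ℕ) : ℝ) < G.card := by push_cast; linarith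
    exact_mod_cast this
  refine Nat.findGreatest_is_greatest (P := fun k => 3 * k < G.card ∧ xt n G.card k ≤ 1)
    (k := N + 1) (by rw [hN]; exact Nat.lt_succ_self _) (by omega)
    ⟨h3, (xt_le_one_iff hm h3).2 ?_⟩
  push_cast
  linarith

/-- The predicted final count is `n^(3/2) / (2 sqrt 2)` up to a vanishing relative error. -/
theorem pred_limit {ε : ℝ} (hε : 0 < ε) : ∀ᶠ n : ℕ in atTop, ∀ G : Gr n, AtStage G →
    |pred G / (n : ℝ) ^ (3 / 2 : ℝ) - 1 / (2 * Real.sqrt 2)| ≤ ε := by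
  filter_upwards [tendsto_lg.eventually_ge_atTop (max 1 (32 / ε)), eventually_ge_atTop 12,
    (tendsto_natCast_atTop_atTop (R := ℝ)).eventually_ge_atTop (6 / ε)] with n hL hn hnε G hG
  have hn6 : (12 : ℝ) ≤ n := by exact_mod_cast hn
  have hn0 : (0 : ℝ) < n := by linarith
  have hL1 : 1 ≤ lg n := le_trans (le_max_left _ _) hL
  have hM : 1 ≤ mHi n := one_le_pow₀ hL1
  have hM' : 32 / ε ≤ mHi n :=
    ((le_max_right _ _).trans hL).trans (le_self_pow₀ hL1 (by norm_num))
  obtain ⟨r, hr⟩ : ∃ r, r = (n : ℝ) ^ (3 / 2 : ℝ) := ⟨_, rfl⟩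
  have hr0 : 0 < r := hr ▸ Real.rpow_pos_of_pos hn0 _
  have hr2 : r ^ 2 = (n : ℝ) ^ 3 := by
    rw [hr, ← Real.rpow_natCast ((n : ℝ) ^ (3 / 2 : ℝ)), ← Real.rpow_mul hn0.le]
    rw [← Real.rpow_natCast (n : ℝ) 3]
    congr 1
    norm_num
  have hrn : (n : ℝ) ≤ r := by
    nlinarith [sq_nonneg (r - n)]
  have hs : r ≤ Real.sqrt (mHi n * (n : ℝ) ^ 3) := by
    rw [Real.le_sqrt hr0.le (by positivity), hr2]
    exact le_mul_of_one_le_left (by positivity) hM
  have hbig : Real.sqrt (mHi n * (n : ℝ) ^ 3) / 4 ≤ G.card := by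
    have := hG.card_ge
    linarith
  obtain ⟨E, hE⟩ : ∃ E : ℝ, E = G.card := ⟨_, rfl⟩
  rw [← hE] at hbig
  have hE0 : 0 < E := by linarith
  have hE0' : 0 < G.card := by rw [hE] at hE0; exact_mod_cast hE0
  have hm : 0 < mI n G.card := by rw [mI, ← hE]; positivity
  obtain ⟨b1, b2⟩ := pred_bounds hE0' hm
  rw [← hE] at b1 b2
  obtain ⟨x, hx⟩ : ∃ x, x = (n : ℝ) ^ 3 / E ^ 2 := ⟨_, rfl⟩
  have hx0 : 0 ≤ x := by rw [hx]; positivity
  have hxε : x ≤ ε / 2 := by
    have h1 := pow_le_pow_left₀ (by positivity) hbig 2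
    rw [div_pow, Real.sq_sqrt (by positivity)] at h1
    rw [div_le_iff₀ hε] at hM'
    rw [hx, div_le_iff₀ (by positivity)]
    nlinarith [mul_le_mul_of_nonneg_right hM' (show 0 ≤ (n : ℝ) ^ 3 by positivity)]
  have key : E / Real.sqrt (1 + 2 * mI n E) = r / Real.sqrt (8 + x) := by
    rw [mI, hx, ← hr2, show (1 : ℝ) + 2 * (4 * E ^ 2 / r ^ 2) = (8 + r ^ 2 / E ^ 2) * (E / r) ^ 2
      by field_simp; ring, Real.sqrt_mul' _ (sq_nonneg _), Real.sqrt_sq (by positivity)]
    field_simp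
  rw [key] at b1 b2
  have h8 : Real.sqrt 8 = 2 * Real.sqrt 2 := by
    rw [show (8 : ℝ) = 2 ^ 2 * 2 by norm_num, Real.sqrt_mul (by norm_num),
      Real.sqrt_sq (by norm_num)]
  rw [← h8, ← hr, abs_le]
  have hs8 : 1 ≤ Real.sqrt 8 := by rw [Real.le_sqrt] <;> norm_num
  have hsx : Real.sqrt 8 ≤ Real.sqrt (8 + x) := Real.sqrt_le_sqrt (by linarith)
  have hdiff : 1 / Real.sqrt 8 - 1 / Real.sqrt (8 + x) ≤ x := by
    have e1 := Real.sq_sqrt (show (0 : ℝ) ≤ 8 by norm_num)
    have e2 := Real.sq_sqrt (show 0 ≤ 8 + x by linarith)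
    rw [div_sub_div _ _ (by linarith) (by linarith), div_le_iff₀ (mul_pos (by linarith) (by linarith))]
    nlinarith [mul_nonneg hx0 (sub_nonneg.2 (one_le_mul_of_one_le_of_one_le hs8 (hs8.trans hsx))),
      mul_le_mul_of_nonneg_left (show (1 : ℝ) ≤ Real.sqrt (8 + x) + Real.sqrt 8 by linarith)
        (sub_nonneg.2 hsx)]
  have h3 : 3 / r ≤ ε / 2 := by
    rw [div_le_iff₀ hε] at hnε
    rw [div_le_iff₀ hr0]
    nlinarith [mul_le_mul_of_nonneg_right hrn hε.le]
  have u1 : 1 / Real.sqrt (8 + x) ≤ pred G / r := by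
    rw [le_div_iff₀ hr0, div_mul_eq_mul_div, one_mul]; exact b1
  have u2 : pred G / r ≤ 1 / Real.sqrt (8 + x) + 3 / r := by
    rw [div_le_iff₀ hr0, add_mul, div_mul_eq_mul_div, one_mul, div_mul_cancel₀ _ hr0.ne']
    exact b2.le
  have u3 : 1 / Real.sqrt (8 + x) ≤ 1 / Real.sqrt 8 := one_div_le_one_div_of_le (by linarith) hsx
  constructor <;> linarith

end Vale.Agent.P046.Full
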