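import Vale.Agent.P046.Prob
import Vale.Agent.P046.Track.Comb

/-!
Exponential supermartingales for the number of present tokens, each token sitting on a pair of
vertices, while all codegrees are within a relative error `a / E` of their common value.
-/

namespace Vale.Agent.P046.Full.Tokens

open Finset
open scoped Classical

variable {n : ℕ} {ι : Type*} {G : Finset (Sym2 (Fin n))}

/-- The number of tokens on present pairs. -/
noncomputable def X (P : Finset ι) (f : ι → Sym2 (Fin n)) (G : Finset (Sym2 (Fin n))) : ℝ :=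
  (P.filter fun i => f i ∈ G).card

/-- All codegrees agree with some common value up to the relative error `a / E`. -/
def Reg (a : ℝ) (G : Finset (Sym2 (Fin n))) : Prop :=
  ∃ m : ℝ, 0 < m ∧ ∀ e ∈ G,
    |(((triangles G).filter fun t => e ∈ edgesOf t).card : ℝ) - m| ≤ m * (a / G.card)

/-- The exponential rate at `E` edges; `σ = 1` for upper and `σ = -1` for lower tails. -/
noncomputable def rate (σ EM θ κ E : ℝ) : ℝ :=
  θ * (EM / E) * Real.exp (σ * κ * (1 / EM - 1 / E))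

/-- The parameters. -/
structure Par (a EM θ κ : ℝ) : Prop where
  EM_big : 30 ≤ EM
  a_nonneg : 0 ≤ a
  a_le : 12 * a ≤ EM
  θ_pos : 0 < θ
  κ_def : κ = 6 * a + 30 * θ * EM
  κ_le : 2 * κ ≤ EM

variable {a EM θ κ : ℝ}

lemma Par.θ_le (h : Par a EM θ κ) : θ ≤ 1 / 60 := by
  have h1 := h.κ_le; have h2 := h.κ_def; have h3 := h.a_nonneg
  have h5 : (60 * θ) * EM ≤ 1 * EM := by linarith
  have := le_of_mul_le_mul_right h5 (by linarith [h.EM_big])
  linarith

lemma Par.κ_pos (h : Par a EM θ κ) : 0 < κ := by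
  rw [h.κ_def]; have := h.EM_big; have := h.θ_pos; have := h.a_nonneg; positivity

lemma rate_pos (h : Par a EM θ κ) (σ : ℝ) {E : ℝ} (hE : 0 < E) : 0 < rate σ EM θ κ E := by
  have := h.EM_big; have := h.θ_pos
  unfold rate; positivity

lemma rate_step (σ : ℝ) {E : ℝ} (hEM : EM ≠ 0) (hE : 3 < E) :
    rate σ EM θ κ (E - 3) =
      rate σ EM θ κ E * (E / (E - 3)) * Real.exp (-(σ * (3 * κ / (E * (E - 3))))) := by
  have h1 : E ≠ 0 := by linarith
  have h2 : E - 3 ≠ 0 := by linarith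
  have e : σ * κ * (1 / EM - 1 / (E - 3)) =
      σ * κ * (1 / EM - 1 / E) + -(σ * (3 * κ / (E * (E - 3)))) := by field_simp; ring
  unfold rate
  rw [e, Real.exp_add]
  field_simp

/-- The rates of both signs one step below a state above the threshold. -/
lemma rate_sub_bound (h : Par a EM θ κ) {E : ℝ} (hE : EM < E) {σ : ℝ} (hσ : |σ| = 1) :
    (E - 3) * rate σ EM θ κ (E - 3) ≤ 16 / 9 * θ * EM ∧ rate σ EM θ κ (E - 3) ≤ 1 / 20 := by
  have hEM := h.EM_big; have hθ := h.θ_pos; have hκ := h.κ_pos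
  have hE3 : 0 < E - 3 := by linarith
  have hx : σ * κ * (1 / EM - 1 / (E - 3)) ≤ 1 / 2 := by
    refine (le_abs_self _).trans ?_
    rw [abs_mul, abs_mul, hσ, one_mul, abs_of_pos hκ]
    have hdiff : |1 / EM - 1 / (E - 3)| ≤ 1 / EM := by
      rw [abs_le]
      have i1 : 1 / (E - 3) ≤ 2 / EM := by
        rw [div_le_div_iff₀ hE3 (by linarith)]; linarith
      have i2 : 0 < 1 / (E - 3) := by positivity
      have i3 : 2 / EM = 2 * (1 / EM) := by ring
      constructor <;> linarith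
    refine (mul_le_mul_of_nonneg_left hdiff hκ.le).trans ?_
    rw [mul_one_div, div_le_iff₀ (by linarith)]; linarith [h.κ_le]
  have he : Real.exp (σ * κ * (1 / EM - 1 / (E - 3))) ≤ 16 / 9 := by
    refine (Real.exp_le_exp.2 hx).trans ?_
    have h4 := Real.exp_bound_div_one_sub_of_interval (x := 1 / 4) (by norm_num) (by norm_num)
    rw [show (1 / 2 : ℝ) = 1 / 4 + 1 / 4 by norm_num, Real.exp_add]
    nlinarith [Real.exp_pos (1 / 4)]
  have h1 : (E - 3) * rate σ EM θ κ (E - 3) =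
      θ * EM * Real.exp (σ * κ * (1 / EM - 1 / (E - 3))) := by unfold rate; field_simp
  refine ⟨by rw [h1]; nlinarith [mul_pos hθ (by linarith : (0 : ℝ) < EM)], ?_⟩
  have h2 : rate σ EM θ κ (E - 3) ≤ θ * (EM / (E - 3)) * (16 / 9) :=
    mul_le_mul_of_nonneg_left he (by positivity)
  have h3 : EM / (E - 3) ≤ 4 / 3 := by rw [div_le_iff₀ hE3]; linarith
  have h4 := h.θ_le
  nlinarith [mul_le_mul_of_nonneg_left h3 hθ.le]

/-- One step: the drift of the token count, and its jumps. -/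
lemma drop_stats (ha0 : 0 ≤ a) {P : Finset ι} {f : ι → Sym2 (Fin n)}
    (hfib : ∀ e, (P.filter fun i => f i = e).card ≤ 2) (hne : triangles G ≠ ∅)
    (hreg : Reg a G) (ha : 12 * a ≤ G.card) :
    ∃ D : Finset (Fin n) → ℝ,
      (∀ t ∈ triangles G, X P f (G \ edgesOf t) = X P f G - D t ∧ 0 ≤ D t ∧ D t ≤ 6) ∧
      (triangles G).card * (3 * X P f G / G.card * (1 - 2 * a / G.card)) ≤
        ∑ t ∈ triangles G, D t ∧
      ∑ t ∈ triangles G, D t ≤
        (triangles G).card * (3 * X P f G / G.card * (1 + 3 * a / G.card)) := by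
  refine ⟨fun t => ((P.filter fun i => f i ∈ edgesOf t).card : ℝ), fun t ht => ⟨?_, by positivity, ?_⟩,
    ?_⟩
  · rw [eq_sub_iff_add_eq, X, X, ← Nat.cast_add, Nat.cast_inj, ← card_union_of_disjoint]
    · congr 1; ext i
      simp only [mem_union, mem_filter, mem_sdiff]
      constructor
      · rintro (⟨hi, hG, _⟩ | ⟨hi, h⟩)
        · exact ⟨hi, hG⟩
        · exact ⟨hi, edgesOf_subset ht h⟩
      · rintro ⟨hi, hG⟩
        by_cases h : f i ∈ edgesOf t
        · exact Or.inr ⟨hi, h⟩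
        · exact Or.inl ⟨hi, hG, h⟩
    · exact disjoint_filter.2 fun i _ h h' => (mem_sdiff.1 h).2 h'
  · have : P.filter (fun i => f i ∈ edgesOf t) ⊆
        (edgesOf t).biUnion fun e => P.filter fun i => f i = e := by
      intro i hi; simp only [mem_filter] at hi
      simp only [mem_biUnion, mem_filter]; exact ⟨f i, hi.2, hi.1, rfl⟩
    have := (card_le_card this).trans card_biUnion_le
    have h6 : ∑ e ∈ edgesOf t, (P.filter fun i => f i = e).card ≤ 6 :=
      (sum_le_card_nsmul _ _ 2 fun e _ => hfib e).trans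
        (by rw [card_edgesOf (card_of_mem_triangles ht)]; rfl)
    have h7 := this.trans h6
    dsimp only
    exact_mod_cast h7
  obtain ⟨c, hc⟩ : ∃ c : Sym2 (Fin n) → ℝ,
      c = fun e => (((triangles G).filter fun t => e ∈ edgesOf t).card : ℝ) := ⟨_, rfl⟩
  have hsum : ∑ t ∈ triangles G, ((P.filter fun i => f i ∈ edgesOf t).card : ℝ) =
      ∑ i ∈ P with f i ∈ G, c (f i) := by
    simp only [card_filter, Nat.cast_sum, hc]
    rw [sum_comm, sum_filter]
    refine sum_congr rfl fun i _ => ?_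
    split_ifs with h
    · rfl
    · exact sum_eq_zero fun t ht => by
        rw [if_neg fun h' => h (edgesOf_subset ht h')]; simp
  have h3 : ∑ e ∈ G, c e = 3 * ((triangles G).card : ℝ) := by
    rw [hc]; exact Track.sum_cod G
  obtain ⟨m, hm, hd⟩ := hreg
  obtain ⟨η, hη⟩ : ∃ η, η = a / (G.card : ℝ) := ⟨_, rfl⟩
  have hE : (0 : ℝ) < G.card := by
    exact_mod_cast lt_of_lt_of_le (by norm_num : 0 < 3) (three_le_card_of_nonterminal hne)
  have hη0 : 0 ≤ η := hη ▸ div_nonneg ha0 hE.le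
  have hη1 : η ≤ 1 / 12 := by rw [hη, div_le_iff₀ hE]; linarith
  have hcd : ∀ e ∈ G, m * (1 - η) ≤ c e ∧ c e ≤ m * (1 + η) := fun e he => by
    have := abs_le.1 (hd e he)
    rw [hc]; rw [← hη] at this; dsimp only; constructor <;> nlinarith
  obtain ⟨T, hT⟩ : ∃ T : ℝ, T = ((triangles G).card : ℝ) := ⟨_, rfl⟩
  have hT3 : G.card * (m * (1 - η)) ≤ 3 * T ∧ 3 * T ≤ G.card * (m * (1 + η)) := by
    rw [hT, ← h3, ← nsmul_eq_mul, ← nsmul_eq_mul, ← sum_const, ← sum_const]
    exact ⟨sum_le_sum fun e he => (hcd e he).1, sum_le_sum fun e he => (hcd e he).2⟩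
  obtain ⟨S, hS⟩ : ∃ S : ℝ, S = ∑ i ∈ P with f i ∈ G, c (f i) := ⟨_, rfl⟩
  obtain ⟨x, hx⟩ : ∃ x : ℝ, x = X P f G := ⟨_, rfl⟩
  have hx0 : 0 ≤ x := hx ▸ Nat.cast_nonneg _
  have hS2 : x * (m * (1 - η)) ≤ S ∧ S ≤ x * (m * (1 + η)) := by
    rw [hS, hx, X, ← nsmul_eq_mul, ← nsmul_eq_mul, ← sum_const, ← sum_const]
    exact ⟨sum_le_sum fun i hi => (hcd _ (mem_filter.1 hi).2).1,
      sum_le_sum fun i hi => (hcd _ (mem_filter.1 hi).2).2⟩
  rw [hsum, ← hS, ← hT, ← hx, mul_div_assoc 2, mul_div_assoc 3 a, ← hη]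
  have hT0 : 0 ≤ T := hT ▸ Nat.cast_nonneg _
  constructor
  · have e : T * (3 * x / G.card * (1 - 2 * η)) = 3 * T * (x * (1 - 2 * η) / G.card) := by ring
    rw [e]
    calc 3 * T * (x * (1 - 2 * η) / G.card)
        ≤ G.card * (m * (1 + η)) * (x * (1 - 2 * η) / G.card) :=
          mul_le_mul_of_nonneg_right hT3.2 (div_nonneg (mul_nonneg hx0 (by linarith)) hE.le)
      _ = x * m * ((1 + η) * (1 - 2 * η)) := by field_simp
      _ ≤ x * m * (1 - η) :=
          mul_le_mul_of_nonneg_left (by nlinarith) (mul_nonneg hx0 hm.le)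
      _ ≤ S := by linarith [hS2.1]
  · have e : T * (3 * x / G.card * (1 + 3 * η)) = 3 * T * (x * (1 + 3 * η) / G.card) := by ring
    rw [e]
    refine le_trans ?_ (mul_le_mul_of_nonneg_right hT3.1
      (div_nonneg (mul_nonneg hx0 (by linarith)) hE.le))
    calc S ≤ x * m * (1 + η) := by linarith [hS2.2]
      _ ≤ x * m * ((1 - η) * (1 + 3 * η)) :=
          mul_le_mul_of_nonneg_left (by nlinarith) (mul_nonneg hx0 hm.le)
      _ = _ := by field_simp

lemma exp_neg_le {z : ℝ} (hz : 0 ≤ z) : Real.exp (-z) ≤ 1 - z + z ^ 2 / 2 := by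
  rw [Real.exp_neg]
  have h := Real.quadratic_le_exp_of_nonneg hz
  rw [inv_le_iff_one_le_mul₀ (Real.exp_pos z)]
  nlinarith [sq_nonneg (z - 1), mul_nonneg hz hz, sq_nonneg z, mul_nonneg (mul_nonneg hz hz) (mul_nonneg hz hz)]

lemma exp_le_quad {z : ℝ} (hz : 0 ≤ z) (hz1 : z ≤ 1) : Real.exp z ≤ 1 + z + z ^ 2 := by
  have h := Real.abs_exp_sub_one_sub_id_le (x := z) (by rwa [abs_of_nonneg hz])
  linarith [(abs_le.1 h).2]

lemma avg_le_exp {s : Finset (Finset (Fin n))} (hs : (0 : ℝ) < s.card) {z : Finset (Fin n) → ℝ}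
    {g : Finset (Fin n) → ℝ} {A c y : ℝ} (hA : 0 ≤ A) (hg : ∀ t ∈ s, g t ≤ A * (1 + c * z t))
    (hz : c * ∑ t ∈ s, z t ≤ s.card * y) :
    (∑ t ∈ s, g t) / s.card ≤ A * Real.exp y := by
  rw [div_le_iff₀ hs]
  refine (sum_le_sum hg).trans ?_
  rw [← mul_sum, sum_add_distrib, sum_const, nsmul_eq_mul, mul_one, ← mul_sum]
  calc A * (s.card + c * ∑ t ∈ s, z t) ≤ A * (s.card + s.card * y) := by gcongr
    _ = A * (1 + y) * s.card := by ring
    _ ≤ A * Real.exp y * s.card := by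
        gcongr; linarith [Real.add_one_le_exp y]

/-- The upper exponential potential is a supermartingale. -/
lemma drift_up (h : Par a EM θ κ) {P : Finset ι} {f : ι → Sym2 (Fin n)}
    (hfib : ∀ e, (P.filter fun i => f i = e).card ≤ 2) (hne : triangles G ≠ ∅)
    (hreg : Reg a G) (hbig : EM < G.card) :
    childAvg (fun H => Real.exp (rate 1 EM θ κ H.card * X P f H)) G ≤
      Real.exp (rate 1 EM θ κ G.card * X P f G) := by
  obtain ⟨E, hE⟩ : ∃ E : ℝ, E = G.card := ⟨_, rfl⟩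
  obtain ⟨D, hD, hlo, -⟩ := drop_stats (P := P) (f := f) h.a_nonneg hfib hne hreg (by linarith [h.a_le])
  have hE12 : 30 ≤ E := by linarith [h.EM_big, hE]
  obtain ⟨l, hl⟩ : ∃ l, l = rate 1 EM θ κ (E - 3) := ⟨_, rfl⟩
  obtain ⟨x, hx⟩ : ∃ x, x = X P f G := ⟨_, rfl⟩
  have hx0 : 0 ≤ x := hx ▸ Nat.cast_nonneg _
  have hl0 : 0 < l := hl ▸ rate_pos h 1 (by linarith)
  obtain ⟨hl2, hl3⟩ := rate_sub_bound h (E := E) (σ := 1) (by linarith [hE]) (by norm_num)
  rw [← hl] at hl2 hl3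
  have hs := card_pos_of_nonterminal hne
  have key : childAvg (fun H => Real.exp (rate 1 EM θ κ H.card * X P f H)) G ≤
      Real.exp (l * x) * Real.exp (-(l * (1 - 3 * l)) * (3 * x / E * (1 - 2 * a / E))) := by
    refine avg_le_exp (z := D) (c := -(l * (1 - 3 * l))) hs (Real.exp_nonneg _) (fun t ht => ?_) ?_
    · obtain ⟨e, hd0, hd6⟩ := hD t ht
      have hc : ((G \ edgesOf t).card : ℝ) = E - 3 := hE ▸ Track.card_sdiff_edgesOf ht
      dsimp only
      rw [hc, e, ← hl, ← hx, mul_sub, sub_eq_add_neg, Real.exp_add]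
      refine mul_le_mul_of_nonneg_left ?_ (Real.exp_nonneg _)
      have := exp_neg_le (mul_nonneg hl0.le hd0)
      have : l ^ 2 * D t * (D t) ≤ l ^ 2 * D t * 6 := by gcongr
      nlinarith
    · rw [← hE, ← hx] at hlo
      have hneg : -(l * (1 - 3 * l)) ≤ 0 := by nlinarith
      calc _ ≤ -(l * (1 - 3 * l)) * (((triangles G).card : ℝ) * (3 * x / E * (1 - 2 * a / E))) :=
            mul_le_mul_of_nonpos_left hlo hneg
        _ = _ := by ring
  refine key.trans ?_
  rw [← Real.exp_add, ← hE, ← hx]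
  refine Real.exp_le_exp.2 ?_
  have hstep := rate_step (EM := EM) (θ := θ) (κ := κ) 1 (E := E) (by linarith [h.EM_big]) (by linarith)
  rw [← hl, one_mul] at hstep
  obtain ⟨r, hr⟩ : ∃ r, r = rate 1 EM θ κ E := ⟨_, rfl⟩
  rw [← hr] at hstep ⊢
  obtain ⟨u, hu⟩ : ∃ u, u = 3 * κ / (E * (E - 3)) := ⟨_, rfl⟩
  rw [← hu] at hstep
  have hE3 : 0 < E - 3 := by linarith
  have hr0 : 0 ≤ r := hr ▸ (rate_pos h 1 (by linarith)).le
  have hv : 3 / (E - 3) * (2 * a / E + 3 * l) ≤ u := by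
    have hEl : E * l ≤ 3 * θ * EM := by nlinarith [mul_nonneg hl0.le (by linarith [h.EM_big] : (0 : ℝ) ≤ E - 30)]
    have e1 : 3 / (E - 3) * (2 * a / E + 3 * l) = 3 / (E * (E - 3)) * (2 * a + 3 * (E * l)) := by
      field_simp
    rw [e1, hu, show 3 * κ / (E * (E - 3)) = 3 / (E * (E - 3)) * κ by ring]
    refine mul_le_mul_of_nonneg_left ?_ (by positivity)
    rw [h.κ_def]; have := h.a_nonneg; nlinarith [h.θ_pos, h.EM_big]
  have hm : Real.exp (-u) * (1 + 3 / (E - 3) * (2 * a / E + 3 * l)) ≤ 1 := by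
    rw [Real.exp_neg, inv_mul_le_iff₀ (Real.exp_pos u), mul_one]
    linarith [Real.add_one_le_exp u]
  have hq : l * (1 - 3 / E * ((1 - 3 * l) * (1 - 2 * a / E))) ≤ r := by
    have i1 : (1 - 3 * l) * (1 - 2 * a / E) ≥ 1 - 2 * a / E - 3 * l := by
      have : 0 ≤ 2 * a / E := div_nonneg (by linarith [h.a_nonneg]) (by linarith)
      nlinarith
    calc l * (1 - 3 / E * ((1 - 3 * l) * (1 - 2 * a / E)))
        ≤ l * (1 - 3 / E * (1 - 2 * a / E - 3 * l)) := by
          refine mul_le_mul_of_nonneg_left ?_ hl0.le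
          have : 0 ≤ 3 / E := by positivity
          nlinarith
      _ = r * (Real.exp (-u) * (1 + 3 / (E - 3) * (2 * a / E + 3 * l))) := by
          have e2 : 1 - 3 / E * (1 - 2 * a / E - 3 * l) =
              (E - 3) / E * (1 + 3 / (E - 3) * (2 * a / E + 3 * l)) := by field_simp; ring
          rw [e2]
          generalize 1 + 3 / (E - 3) * (2 * a / E + 3 * l) = w
          rw [hstep]; field_simp
      _ ≤ r := mul_le_of_le_one_right hr0 hm
  calc l * x + -(l * (1 - 3 * l)) * (3 * x / E * (1 - 2 * a / E))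
      = l * (1 - 3 / E * ((1 - 3 * l) * (1 - 2 * a / E))) * x := by ring
    _ ≤ r * x := mul_le_mul_of_nonneg_right hq hx0

/-- The lower exponential potential is a supermartingale. -/
lemma drift_low (h : Par a EM θ κ) {P : Finset ι} {f : ι → Sym2 (Fin n)}
    (hfib : ∀ e, (P.filter fun i => f i = e).card ≤ 2) (hne : triangles G ≠ ∅)
    (hreg : Reg a G) (hbig : EM < G.card) :
    childAvg (fun H => Real.exp (-(rate (-1) EM θ κ H.card * X P f H))) G ≤
      Real.exp (-(rate (-1) EM θ κ G.card * X P f G)) := by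
  obtain ⟨E, hE⟩ : ∃ E : ℝ, E = G.card := ⟨_, rfl⟩
  obtain ⟨D, hD, -, hhi⟩ := drop_stats (P := P) (f := f) h.a_nonneg hfib hne hreg (by linarith [h.a_le])
  have hE12 : 30 ≤ E := by linarith [h.EM_big, hE]
  obtain ⟨l, hl⟩ : ∃ l, l = rate (-1) EM θ κ (E - 3) := ⟨_, rfl⟩
  obtain ⟨x, hx⟩ : ∃ x, x = X P f G := ⟨_, rfl⟩
  have hx0 : 0 ≤ x := hx ▸ Nat.cast_nonneg _
  have hl0 : 0 < l := hl ▸ rate_pos h (-1) (by linarith)
  obtain ⟨hl2, hl3⟩ := rate_sub_bound h (E := E) (σ := -1) (by linarith [hE]) (by norm_num)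
  rw [← hl] at hl2 hl3
  have hs := card_pos_of_nonterminal hne
  have key : childAvg (fun H => Real.exp (-(rate (-1) EM θ κ H.card * X P f H))) G ≤
      Real.exp (-(l * x)) * Real.exp (l * (1 + 6 * l) * (3 * x / E * (1 + 3 * a / E))) := by
    refine avg_le_exp (z := D) (c := l * (1 + 6 * l)) hs (Real.exp_nonneg _) (fun t ht => ?_) ?_
    · obtain ⟨e, hd0, hd6⟩ := hD t ht
      have hc : ((G \ edgesOf t).card : ℝ) = E - 3 := hE ▸ Track.card_sdiff_edgesOf ht
      dsimp only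
      rw [hc, e, ← hl, ← hx, mul_sub, neg_sub, sub_eq_add_neg, add_comm, Real.exp_add]
      refine mul_le_mul_of_nonneg_left ?_ (Real.exp_nonneg _)
      have := exp_le_quad (mul_nonneg hl0.le hd0) (by nlinarith)
      have : l ^ 2 * D t * (D t) ≤ l ^ 2 * D t * 6 := by gcongr
      nlinarith
    · rw [← hE, ← hx] at hhi
      calc _ ≤ l * (1 + 6 * l) * (((triangles G).card : ℝ) * (3 * x / E * (1 + 3 * a / E))) :=
            mul_le_mul_of_nonneg_left hhi (by positivity)
        _ = _ := by ring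
  refine key.trans ?_
  rw [← Real.exp_add, ← hE, ← hx]
  refine Real.exp_le_exp.2 ?_
  have hstep := rate_step (EM := EM) (θ := θ) (κ := κ) (-1) (E := E) (by linarith [h.EM_big]) (by linarith)
  rw [← hl, neg_one_mul, neg_neg] at hstep
  obtain ⟨r, hr⟩ : ∃ r, r = rate (-1) EM θ κ E := ⟨_, rfl⟩
  rw [← hr] at hstep ⊢
  obtain ⟨u, hu⟩ : ∃ u, u = 3 * κ / (E * (E - 3)) := ⟨_, rfl⟩
  rw [← hu] at hstep
  have hE3 : 0 < E - 3 := by linarith
  have hr0 : 0 ≤ r := hr ▸ (rate_pos h (-1) (by linarith)).le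
  have hu0 : 0 ≤ u := by rw [hu]; have := h.κ_pos; positivity
  have hEbig : EM ≤ E := by linarith [hE]
  have hu1 : u ≤ 1 := by
    rw [hu, div_le_iff₀ (by positivity)]; nlinarith [h.κ_le]
  obtain ⟨v, hv⟩ : ∃ v, v = 3 / (E - 3) * (3 * a / E + 15 / 2 * l) := ⟨_, rfl⟩
  have hv2 : v ≤ u / 2 := by
    have hEl : E * l ≤ 10 / 9 * (16 / 9 * θ * EM) := by
      nlinarith [mul_nonneg hl0.le (by linarith [h.EM_big] : (0 : ℝ) ≤ E - 30)]
    have e1 : v = 3 / (E * (E - 3)) * (3 * a + 15 / 2 * (E * l)) := by rw [hv]; field_simp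
    rw [e1, hu, show 3 * κ / (E * (E - 3)) / 2 = 3 / (E * (E - 3)) * (κ / 2) by ring]
    refine mul_le_mul_of_nonneg_left ?_ (by positivity)
    rw [h.κ_def]
    nlinarith [mul_nonneg (mul_nonneg hl0.le hE3.le) h.a_nonneg, h.θ_pos, h.EM_big]
  have hv0 : 0 ≤ v := by rw [hv]; have := h.a_nonneg; positivity
  have hm : 1 ≤ Real.exp u * (1 - v) := by
    have := mul_le_mul_of_nonneg_right (Real.add_one_le_exp u) (by linarith : 0 ≤ 1 - v)
    nlinarith
  have hq : r ≤ l * (1 - 3 / E * ((1 + 6 * l) * (1 + 3 * a / E))) := by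
    have haE : 3 * a / E ≤ 1 / 4 := by
      rw [div_le_iff₀ (by linarith)]; linarith [h.a_le]
    calc r ≤ r * (Real.exp u * (1 - v)) := le_mul_of_one_le_right hr0 hm
      _ = l * (1 - 3 / E * (1 + 3 * a / E + 15 / 2 * l)) := by
          have e2 : 1 - 3 / E * (1 + 3 * a / E + 15 / 2 * l) = (E - 3) / E * (1 - v) := by
            rw [hv]; field_simp; ring
          rw [e2, hstep]; field_simp
      _ ≤ _ := by
          refine mul_le_mul_of_nonneg_left ?_ hl0.le
          have : 0 ≤ 3 / E := by positivity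
          have i1 : (1 + 6 * l) * (1 + 3 * a / E) ≤ 1 + 3 * a / E + 15 / 2 * l := by nlinarith
          nlinarith [mul_le_mul_of_nonneg_left i1 this]
  calc -(l * x) + l * (1 + 6 * l) * (3 * x / E * (1 + 3 * a / E))
      = -(l * (1 - 3 / E * ((1 + 6 * l) * (1 + 3 * a / E))) * x) := by ring
    _ ≤ -(r * x) := neg_le_neg (mul_le_mul_of_nonneg_right hq hx0)

lemma rate_end (h : Par a EM θ κ) {E : ℝ} (h1 : E ≤ EM) (h2 : EM < E + 3) :
    θ ≤ rate 1 EM θ κ E ∧ rate (-1) EM θ κ E ≤ θ * (1 + 12 / EM) := by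
  have hEM := h.EM_big; have hθ := h.θ_pos; have hκ := h.κ_pos
  have hE : 0 < E := by linarith
  obtain ⟨δ, hδ⟩ : ∃ δ, δ = EM / E - 1 := ⟨_, rfl⟩
  have hδ0 : 0 ≤ δ := by rw [hδ, sub_nonneg, one_le_div hE]; exact h1
  have hδ1 : δ ≤ 4 / EM := by
    rw [hδ, sub_le_iff_le_add, div_le_iff₀ hE]
    field_simp
    nlinarith
  have hδ2 : δ ≤ 1 / 3 := by
    refine hδ1.trans ?_; rw [div_le_iff₀ (by linarith)]; linarith
  have hE2 : EM / E = 1 + δ := by rw [hδ]; ring
  have he : κ * (1 / E - 1 / EM) = κ / EM * δ := by rw [hδ]; field_simp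
  have hk : κ / EM ≤ 1 / 2 := by rw [div_le_iff₀ (by linarith)]; linarith [h.κ_le]
  have hy : κ * (1 / E - 1 / EM) ≤ δ / 2 := by
    rw [he]; nlinarith
  have hexp : Real.exp (δ / 2) ≤ 1 + δ := by
    refine (Real.exp_bound_div_one_sub_of_interval (by linarith) (by linarith)).trans ?_
    rw [div_le_iff₀ (by linarith)]; nlinarith
  constructor
  · unfold rate
    rw [hE2, one_mul, show κ * (1 / EM - 1 / E) = -(κ * (1 / E - 1 / EM)) by ring, Real.exp_neg,
      mul_assoc, le_mul_iff_one_le_right hθ, ← div_eq_mul_inv, one_le_div (Real.exp_pos _)]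
    exact (Real.exp_le_exp.2 hy).trans hexp
  · unfold rate
    rw [hE2, show -1 * κ * (1 / EM - 1 / E) = κ * (1 / E - 1 / EM) by ring, mul_assoc]
    refine mul_le_mul_of_nonneg_left ?_ hθ.le
    calc (1 + δ) * Real.exp (κ * (1 / E - 1 / EM)) ≤ (1 + δ) * (1 + δ) :=
          mul_le_mul_of_nonneg_left ((Real.exp_le_exp.2 hy).trans hexp) (by linarith)
      _ ≤ 1 + 3 * δ := by nlinarith
      _ ≤ 1 + 12 / EM := by have : (12 : ℝ) / EM = 3 * (4 / EM) := by ring
                            linarith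

lemma rate_start (h : Par a EM θ κ) {E : ℝ} (hE : EM ≤ E) :
    rate 1 EM θ κ E ≤ θ * (EM / E) * (1 + 2 * (κ / EM)) ∧
      θ * (EM / E) * (1 - κ / EM) ≤ rate (-1) EM θ κ E := by
  have hEM := h.EM_big; have hθ := h.θ_pos; have hκ := h.κ_pos
  have hE0 : 0 < E := by linarith
  have hy : κ * (1 / EM - 1 / E) ≤ κ / EM := by
    rw [mul_sub, mul_one_div]; linarith [show 0 < κ * (1 / E) by positivity]
  have hk : κ / EM ≤ 1 / 2 := by rw [div_le_iff₀ (by linarith)]; linarith [h.κ_le]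
  constructor
  · refine mul_le_mul_of_nonneg_left ?_ (by positivity)
    rw [one_mul]
    refine (Real.exp_le_exp.2 hy).trans ?_
    have h0 : 0 ≤ κ / EM := by positivity
    refine (Real.exp_bound_div_one_sub_of_interval h0 (by linarith)).trans ?_
    rw [div_le_iff₀ (by linarith)]; nlinarith
  · refine mul_le_mul_of_nonneg_left ?_ (by positivity)
    rw [show -1 * κ * (1 / EM - 1 / E) = -(κ * (1 / EM - 1 / E)) by ring]
    linarith [Real.add_one_le_exp (-(κ * (1 / EM - 1 / E)))]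

variable {G0 : Finset (Sym2 (Fin n))} {stop : Finset (Sym2 (Fin n)) → Prop}

/-- Upper tail of the token count where the process first has at most `EM` edges. -/
theorem tail_up (h : Par a EM θ κ) {P : Finset ι} {f : ι → Sym2 (Fin n)}
    (hfib : ∀ e, (P.filter fun i => f i = e).card ≤ 2)
    (hstop : ∀ G, G ⊆ G0 → ¬ stop G → EM < G.card ∧ Reg a G) (hbig : EM ≤ G0.card) (x : ℝ) :
    EvUntil stop (fun H => if (H.card : ℝ) ≤ EM ∧ EM < H.card + 3 ∧ x ≤ X P f H then 1 else 0) G0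
      ≤ Real.exp (θ * ((EM / G0.card) * (1 + 2 * (κ / EM)) * X P f G0 - x)) := by
  obtain ⟨W, hW⟩ : ∃ W : Finset (Sym2 (Fin n)) → ℝ,
      W = fun H => Real.exp (-(θ * x)) * Real.exp (rate 1 EM θ κ H.card * X P f H) := ⟨_, rfl⟩
  refine (EvUntil_le_of_superharmonic W (fun G _ _ => ?_) fun G hG hns hne => ?_).trans ?_
  · subst hW
    split_ifs with hh
    · dsimp only
      rw [← Real.exp_add]; apply Real.one_le_exp
      have hx : (0 : ℝ) ≤ X P f G := Nat.cast_nonneg _
      have := mul_le_mul_of_nonneg_right (rate_end h hh.1 hh.2.1).1 hx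
      have := mul_le_mul_of_nonneg_left hh.2.2 h.θ_pos.le
      linarith
    · positivity
  · subst hW
    rw [childAvg_const_mul]
    exact mul_le_mul_of_nonneg_left (drift_up h hfib hne (hstop G hG hns).2 (hstop G hG hns).1)
      (Real.exp_nonneg _)
  · subst hW
    dsimp only
    rw [← Real.exp_add]; apply Real.exp_le_exp.2
    have := mul_le_mul_of_nonneg_right (rate_start h hbig).1
      (Nat.cast_nonneg (α := ℝ) (P.filter fun i => f i ∈ G0).card)
    unfold X at *
    linarith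

/-- Lower tail of the token count where the process first has at most `EM` edges. -/
theorem tail_low (h : Par a EM θ κ) {P : Finset ι} {f : ι → Sym2 (Fin n)}
    (hfib : ∀ e, (P.filter fun i => f i = e).card ≤ 2)
    (hstop : ∀ G, G ⊆ G0 → ¬ stop G → EM < G.card ∧ Reg a G) (hbig : EM ≤ G0.card) (x : ℝ) :
    EvUntil stop (fun H => if (H.card : ℝ) ≤ EM ∧ EM < H.card + 3 ∧ X P f H ≤ x then 1 else 0) G0
      ≤ Real.exp (θ * ((1 + 12 / EM) * x - (EM / G0.card) * (1 - κ / EM) * X P f G0)) := by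
  obtain ⟨W, hW⟩ : ∃ W : Finset (Sym2 (Fin n)) → ℝ, W = fun H =>
      Real.exp (θ * (1 + 12 / EM) * x) * Real.exp (-(rate (-1) EM θ κ H.card * X P f H)) := ⟨_, rfl⟩
  refine (EvUntil_le_of_superharmonic W (fun G _ _ => ?_) fun G hG hns hne => ?_).trans ?_
  · subst hW
    split_ifs with hh
    · dsimp only
      rw [← Real.exp_add]; apply Real.one_le_exp
      have hx : (0 : ℝ) ≤ X P f G := Nat.cast_nonneg _
      have := mul_le_mul_of_nonneg_right (rate_end h hh.1 hh.2.1).2 hx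
      have h12 : 0 ≤ θ * (1 + 12 / EM) := by have := h.θ_pos; have := h.EM_big; positivity
      have := mul_le_mul_of_nonneg_left hh.2.2 h12
      linarith
    · positivity
  · subst hW
    rw [childAvg_const_mul]
    exact mul_le_mul_of_nonneg_left (drift_low h hfib hne (hstop G hG hns).2 (hstop G hG hns).1)
      (Real.exp_nonneg _)
  · subst hW
    dsimp only
    rw [← Real.exp_add]; apply Real.exp_le_exp.2
    have := mul_le_mul_of_nonneg_right (rate_start h hbig).2
      (Nat.cast_nonneg (α := ℝ) (P.filter fun i => f i ∈ G0).card)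
    unfold X at *
    linarith

end Vale.Agent.P046.Full.Tokens
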