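import Vale.Agent.P046.Full.Gap
import Vale.Agent.P046.Full.Tokens
import Vale.Agent.P046.Full.Params

/-!
Module 2: at the stopping stage the edge set is jumbled, so the triangle adjacency has almost no
negative part.
-/

namespace Vale.Agent.P046.Full

open Finset Filter
open scoped Classical

variable {n : ℕ}

namespace GapProof

/-- The ordered pairs of distinct vertices in `S × T`. -/
noncomputable def pairs (S T : Finset (Fin n)) : Finset (Fin n × Fin n) :=
  (S ×ˢ T).filter fun q => q.1 ≠ q.2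

/-- The pair of an ordered pair. -/
def toEdge (q : Fin n × Fin n) : Sym2 (Fin n) := s(q.1, q.2)

/-- The number of ordered pairs in `S × T` which are edges of `G`. -/
noncomputable def eCount (G : Gr n) (S T : Finset (Fin n)) : ℝ := Tokens.X (pairs S T) toEdge G

/-- The neighbours of `v`. -/
noncomputable def nbhd (G : Gr n) (v : Fin n) : Finset (Fin n) :=
  univ.filter fun a => a ≠ v ∧ s(v, a) ∈ G

/-- Two sets are of comparable size. -/
def Balanced (β Q : ℝ) (s t : ℕ) : Prop :=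
  0 < s ∧ 0 < t ∧ β ^ 2 * t ≤ 4 * Q ^ 2 * s ∧ β ^ 2 * s ≤ 4 * Q ^ 2 * t

/-- The graph is jumbled: maximum degree at most `D`, and small discrepancy on comparable sets. -/
def Jumbled (p D β : ℝ) (G : Gr n) : Prop :=
  (∀ v, ((nbhd G v).card : ℝ) ≤ D) ∧
    ∀ S T : Finset (Fin n), Balanced β (p * D) S.card T.card → (S.card : ℝ) ≤ D →
      (T.card : ℝ) ≤ D →
        |eCount G S T - p * S.card * T.card| ≤ β * Real.sqrt ((S.card : ℝ) * T.card)

lemma fiber_le (S T : Finset (Fin n)) (e : Sym2 (Fin n)) :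
    ((pairs S T).filter fun q => toEdge q = e).card ≤ 2 := by
  induction e using Sym2.ind with
  | _ a b =>
    refine (card_le_card (t := {(a, b), (b, a)}) ?_).trans card_le_two
    rintro ⟨c, d⟩ hq
    simpa [toEdge, Sym2.eq_iff] using (mem_filter.1 hq).2

/-- In a good state above the stage the codegrees are regular. -/
lemma reg_of_good {G : Gr n} (hn : 0 < n) (hL : 1 ≤ lg n) (hG : Good G) (hE : eHi n < G.card) :
    Tokens.Reg (lg n ^ 5 * Real.sqrt ((n : ℝ) ^ 3) / 2) G := by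
  have hE' : (eHi n : ℝ) ≤ G.card := by exact_mod_cast hE.le
  have hm : mHi n ≤ mI n (G.card : ℝ) := mHi_le_mI hn hL hE'
  have hE0 : (0 : ℝ) < G.card := by exact_mod_cast (show 0 < G.card by omega)
  have hm0 : 0 < mS G := by unfold mS mI; positivity
  refine ⟨mS G, hm0, fun f hf => ?_⟩
  have h := hG f hf 0 (by omega) ((mLo_le_mHi hL).trans (by simpa using hm))
  simp only [Nat.cast_zero, mul_zero, sub_zero, Z, prop, dv, if_pos hf] at h
  have hb : Bd n (mI n (G.card : ℝ)) = lg n ^ 5 * Real.sqrt ((n : ℝ) ^ 3) / 2 / G.card := by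
    unfold Bd mI
    rw [Real.sqrt_div (by positivity), show (4 : ℝ) * (G.card : ℝ) ^ 2 = (2 * G.card) ^ 2 by ring,
      Real.sqrt_sq (by positivity)]
    field_simp
  rw [hb] at h
  rw [div_sub_one hm0.ne', abs_div, abs_of_pos hm0, div_le_iff₀ hm0] at h
  exact h.trans_eq (mul_comm _ _)

/-- The sum of `c ^ |S|` over the nonempty sets. -/
lemma sum_pow_card_le {c : ℝ} (hc : 0 ≤ c) (hnc : (n : ℝ) * c ≤ 1 / 2) :
    ∑ S : Finset (Fin n), (if S.Nonempty then c ^ S.card else 0) ≤ 2 * ((n : ℝ) * c) := by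
  have h := Fintype.sum_pow_mul_eq_add_pow (Fin n) c 1
  simp only [one_pow, mul_one, Fintype.card_fin] at h
  have h2 : ∀ S : Finset (Fin n), (if S.Nonempty then c ^ S.card else 0) =
      c ^ S.card - if S = ∅ then 1 else 0 := by
    intro S
    rcases S.eq_empty_or_nonempty with rfl | hS
    · simp
    · simp [hS, hS.ne_empty]
  rw [sum_congr rfl fun S _ => h2 S, sum_sub_distrib, h, sum_ite_eq' univ (∅ : Finset (Fin n)),
    if_pos (mem_univ _), sub_le_iff_le_add]
  refine (pow_le_pow_left₀ (by linarith) (by linarith [Real.add_one_le_exp c] : c + 1 ≤ Real.exp c)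
    n).trans ?_
  rw [← Real.exp_nat_mul]
  have h0 : 0 ≤ (n : ℝ) * c := by positivity
  refine (Real.exp_bound_div_one_sub_of_interval h0 (by linarith)).trans ?_
  rw [div_le_iff₀ (by linarith)]
  nlinarith

/-- A union bound over a finite family of events. -/
lemma EvUntil_sum {ι : Type*} (s : Finset ι) (stop : Gr n → Prop) (φ : ι → Gr n → ℝ) (G : Gr n) :
    EvUntil stop (fun H => ∑ i ∈ s, φ i H) G = ∑ i ∈ s, EvUntil stop (φ i) G := by
  induction s using Finset.induction with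
  | empty => simpa using EvUntil_const stop 0 G
  | insert i s hi ih => simp only [sum_insert hi]; rw [EvUntil_add, ih]

section Prob

variable {a EM θ κ β D p : ℝ} {stop : Gr n → Prop}

/-- The event that the process stops at the stage. -/
def AtEM (EM : ℝ) (H : Gr n) : Prop := (H.card : ℝ) ≤ EM ∧ EM < H.card + 3

/-- The discrepancy event of one pair of sets is unlikely. -/
lemma disc_tail (h : Tokens.Par a EM θ κ)
    (hstop : ∀ G, G ⊆ completeEdges n → ¬ stop G → EM < G.card ∧ Tokens.Reg a G)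
    (hbig : EM ≤ (completeEdges n).card) (ha : 2 ≤ a) (hp : p = EM / (completeEdges n).card)
    (hβ0 : 0 < β) (hβ : 4 * (κ / EM) * (p * D) + 4 ≤ β) (hD : 0 ≤ D) {S T : Finset (Fin n)}
    (hbal : Balanced β (p * D) S.card T.card) (hSD : (S.card : ℝ) ≤ D) (hTD : (T.card : ℝ) ≤ D) :
    EvUntil stop (fun H => if AtEM EM H ∧
        β * Real.sqrt ((S.card : ℝ) * T.card) < |eCount H S T - p * S.card * T.card|
        then 1 else 0) (completeEdges n) ≤
      2 * Real.exp (-(θ * β ^ 2 / (8 * (p * D)) * ((S.card : ℝ) + T.card))) := by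
  obtain ⟨hs, ht, hb1, hb2⟩ := hbal
  obtain ⟨s, hse⟩ : ∃ s : ℝ, s = (S.card : ℝ) := ⟨_, rfl⟩
  obtain ⟨t, hte⟩ : ∃ t : ℝ, t = (T.card : ℝ) := ⟨_, rfl⟩
  rw [← hse] at hb1 hb2 hSD ⊢
  rw [← hte] at hb1 hb2 hTD ⊢
  have hs1 : 1 ≤ s := by rw [hse]; exact_mod_cast hs
  have ht1 : 1 ≤ t := by rw [hte]; exact_mod_cast ht
  have hEM := h.EM_big
  have hE0 : (0 : ℝ) < (completeEdges n).card := by linarith
  have hp0 : 0 < p := by rw [hp]; positivity
  have hp1 : p ≤ 1 := by rw [hp, div_le_one hE0]; exact hbig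
  have hQ : 0 < p * D := mul_pos hp0 (by linarith)
  obtain ⟨w, hw⟩ : ∃ w : ℝ, w = Real.sqrt (s * t) := ⟨_, rfl⟩
  have hw2 : w ^ 2 = s * t := by rw [hw, Real.sq_sqrt (by positivity)]
  have hw0 : 0 ≤ w := hw ▸ Real.sqrt_nonneg _
  rw [← hw]
  have hwD : w ≤ D := by nlinarith
  have hw1 : 1 ≤ w := by nlinarith
  have hX0 : eCount (completeEdges n) S T = ((pairs S T).card : ℝ) := by
    unfold eCount Tokens.X
    rw [filter_true_of_mem fun q hq => ?_]
    simp only [completeEdges, mem_filter, mem_univ, true_and, toEdge, Sym2.mk_isDiag_iff]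
    exact (mem_filter.1 hq).2
  have hX1 : eCount (completeEdges n) S T ≤ s * t := by
    rw [hX0, hse, hte, ← Nat.cast_mul, ← card_product]; exact_mod_cast card_filter_le _ _
  have hX2 : s * t - w ≤ eCount (completeEdges n) S T := by
    have hd : ((S ×ˢ T).filter fun q : Fin n × Fin n => ¬ q.1 ≠ q.2).card ≤ (S ∩ T).card := by
      refine card_le_card_of_injOn Prod.fst (fun q hq => ?_) fun q hq q' hq' he => ?_
      · simp only [coe_filter, Set.mem_setOf_eq, mem_product, not_not] at hq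
        simp [hq.1.1, hq.2 ▸ hq.1.2]
      · simp only [coe_filter, Set.mem_setOf_eq, mem_product, not_not] at hq hq'
        exact Prod.ext he (hq.2 ▸ hq'.2 ▸ he)
    have h1 : ((pairs S T).card : ℝ) + ((S ×ˢ T).filter fun q : Fin n × Fin n => ¬ q.1 ≠ q.2).card =
        s * t := by
      rw [hse, hte, ← Nat.cast_mul, ← card_product, ← Nat.cast_add, pairs,
        card_filter_add_card_filter_not]
    have h2 : ((S ∩ T).card : ℝ) ≤ w := by
      have a1 : ((S ∩ T).card : ℝ) ≤ s := hse ▸ by exact_mod_cast card_le_card inter_subset_left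
      have a2 : ((S ∩ T).card : ℝ) ≤ t := hte ▸ by exact_mod_cast card_le_card inter_subset_right
      nlinarith [mul_le_mul a1 a2 (Nat.cast_nonneg _) (by linarith)]
    rw [hX0]
    linarith [(Nat.cast_le (α := ℝ)).2 hd]
  obtain ⟨k, hk⟩ : ∃ k, k = κ / EM := ⟨_, rfl⟩
  rw [← hk] at hβ
  have hk0 : 0 ≤ k := hk ▸ div_nonneg h.κ_pos.le (by linarith)
  have hk12 : 12 / EM ≤ k := by
    rw [hk, h.κ_def]
    refine div_le_div_of_nonneg_right ?_ (by linarith)
    nlinarith [h.θ_pos]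
  have hk1 : k ≤ 1 / 2 := by rw [hk, div_le_iff₀ (by linarith)]; linarith [h.κ_le]
  have hpst : p * (s * t) ≤ p * D * w := by
    rw [← hw2]
    have := mul_le_mul_of_nonneg_left hwD (mul_nonneg hp0.le hw0)
    linarith [show p * w * w = p * w ^ 2 by ring]
  have hexp : θ * β ^ 2 / (8 * (p * D)) * (s + t) ≤ θ * β * w / 2 := by
    rw [div_mul_eq_mul_div, div_le_iff₀ (by positivity)]
    have i1 : β * t ≤ 2 * (p * D) * w := by
      refine pow_le_pow_iff_left₀ (by positivity) (by positivity) two_ne_zero |>.1 ?_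
      rw [mul_pow, mul_pow, hw2]
      linarith [mul_le_mul_of_nonneg_right hb1 (show 0 ≤ t by linarith)]
    have i2 : β * s ≤ 2 * (p * D) * w := by
      refine pow_le_pow_iff_left₀ (by positivity) (by positivity) two_ne_zero |>.1 ?_
      rw [mul_pow, mul_pow, hw2]
      linarith [mul_le_mul_of_nonneg_right hb2 (show 0 ≤ s by linarith)]
    linarith [mul_le_mul_of_nonneg_left (add_le_add i1 i2) (mul_nonneg h.θ_pos.le hβ0.le)]
  have hup := Tokens.tail_up (P := pairs S T) (f := toEdge) h (fiber_le S T) hstop hbig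
    (p * s * t + β * w)
  have hlo := Tokens.tail_low (P := pairs S T) (f := toEdge) h (fiber_le S T) hstop hbig
    (p * s * t - β * w)
  refine (EvUntil_mono (χ := fun H =>
    (if (H.card : ℝ) ≤ EM ∧ EM < H.card + 3 ∧ p * s * t + β * w ≤ eCount H S T then (1 : ℝ) else 0) +
    if (H.card : ℝ) ≤ EM ∧ EM < H.card + 3 ∧ eCount H S T ≤ p * s * t - β * w then 1 else 0)
    fun H _ _ => ?_).trans ?_
  · have i0 : ∀ (P : Prop) [Decidable P], (0 : ℝ) ≤ if P then 1 else 0 := fun P _ => by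
      split_ifs <;> norm_num
    by_cases h1 : AtEM EM H ∧ β * w < |eCount H S T - p * s * t|
    · rw [if_pos h1]
      obtain ⟨⟨he1, he2⟩, he3⟩ := h1
      rcases lt_abs.1 he3 with h5 | h5
      · rw [if_pos (⟨he1, he2, by linarith⟩ : _ ∧ _ ∧ _)]
        exact le_add_of_nonneg_right (i0 _)
      · rw [add_comm, if_pos (⟨he1, he2, by linarith⟩ : _ ∧ _ ∧ _)]
        exact le_add_of_nonneg_right (i0 _)
    · rw [if_neg h1]; exact add_nonneg (i0 _) (i0 _)
  rw [EvUntil_add, two_mul]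
  refine add_le_add (hup.trans ?_) (hlo.trans ?_)
  all_goals
    refine Real.exp_le_exp.2 (le_trans ?_ (neg_le_neg hexp))
    rw [← hp, show θ * β * w / 2 = θ * (β * w / 2) by ring, ← mul_neg, ← hk]
    refine mul_le_mul_of_nonneg_left ?_ h.θ_pos.le
    unfold eCount at hX1 hX2
  · have := mul_le_mul_of_nonneg_left hX1 (by positivity : 0 ≤ p * (1 + 2 * k))
    have : 2 * k * (p * (s * t)) ≤ 2 * k * (p * D * w) := by gcongr
    linarith [mul_le_mul_of_nonneg_right hβ hw0]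
  · have := mul_le_mul_of_nonneg_left hX2 (mul_nonneg hp0.le (by linarith : 0 ≤ 1 - k))
    have : 12 / EM * (p * s * t) ≤ k * (p * D * w) := by
      refine mul_le_mul hk12 ?_ (by positivity) hk0
      rw [mul_assoc p s t]; exact hpst
    have : k * (p * (s * t)) ≤ k * (p * D * w) := by gcongr
    have : p * (1 - k) * w ≤ 1 * w := by
      refine mul_le_mul_of_nonneg_right ?_ hw0
      exact mul_le_one₀ hp1 (by linarith) (by linarith)
    have : 0 ≤ 12 / EM * (β * w) := by positivity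
    linarith [mul_le_mul_of_nonneg_right hβ hw0]

/-- A large degree is unlikely. -/
lemma deg_tail (h : Tokens.Par a EM θ κ)
    (hstop : ∀ G, G ⊆ completeEdges n → ¬ stop G → EM < G.card ∧ Tokens.Reg a G)
    (hbig : EM ≤ (completeEdges n).card) (hp : p = EM / (completeEdges n).card)
    (hk : κ / EM ≤ 1 / 4) (v : Fin n) :
    EvUntil stop (fun H => if AtEM EM H ∧ 2 * n * p < (nbhd H v).card then 1 else 0)
      (completeEdges n) ≤ Real.exp (-(θ * p * n / 2)) := by
  have hfib : ∀ e, (((univ : Finset (Fin n)).filter fun a => a ≠ v).filter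
      fun a => s(v, a) = e).card ≤ 2 := by
    intro e
    induction e using Sym2.ind with
    | _ c d =>
      refine (card_le_card (t := {d, c}) fun x hx => ?_).trans card_le_two
      have := (mem_filter.1 hx).2
      rcases Sym2.eq_iff.1 this with ⟨_, rfl⟩ | ⟨_, rfl⟩ <;> simp
  have hX : ∀ H : Gr n, Tokens.X ((univ : Finset (Fin n)).filter fun a => a ≠ v)
      (fun a => s(v, a)) H = ((nbhd H v).card : ℝ) := by
    intro H; rw [Tokens.X, nbhd, filter_filter]
  refine le_trans (EvUntil_mono fun H _ _ => ?_)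
    ((Tokens.tail_up h hfib hstop hbig (2 * n * p)).trans (Real.exp_le_exp.2 ?_))
  · rw [hX]
    split_ifs with h1 h2 <;> try norm_num
    exact absurd ⟨h1.1.1, h1.1.2, h1.2.le⟩ h2
  · rw [hX, ← hp]
    have h1 : ((nbhd (completeEdges n) v).card : ℝ) ≤ n := by
      exact_mod_cast (card_le_univ _).trans (Fintype.card_fin n).le
    have hp0 : 0 ≤ p := by rw [hp]; have := h.EM_big; positivity
    have hk0 : 0 ≤ κ / EM := div_nonneg h.κ_pos.le (by linarith [h.EM_big])
    have := mul_le_mul_of_nonneg_left h1 (by positivity : 0 ≤ p * (1 + 2 * (κ / EM)))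
    have : p * n * (2 * (κ / EM)) ≤ p * n * (1 / 2) :=
      mul_le_mul_of_nonneg_left (by linarith) (by positivity)
    nlinarith [h.θ_pos]

/-- The graph at the stage is jumbled, with high probability. -/
theorem jumbled_prob (h : Tokens.Par a EM θ κ)
    (hstop : ∀ G, G ⊆ completeEdges n → ¬ stop G → EM < G.card ∧ Tokens.Reg a G)
    (hbig : EM ≤ (completeEdges n).card) (ha : 2 ≤ a) (hp : p = EM / (completeEdges n).card)
    (hD : D = 2 * n * p) (hβ0 : 0 < β) (hβ : 4 * (κ / EM) * (p * D) + 4 ≤ β)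
    (hk : κ / EM ≤ 1 / 4) (hpair : 4 * Real.log n ≤ θ * β ^ 2 / (8 * (p * D)))
    (hdeg : 5 * Real.log n ≤ θ * p * n / 2) (hn : 16 ≤ n) :
    EvUntil stop (fun H => if AtEM EM H ∧ ¬ Jumbled p D β H then 1 else 0) (completeEdges n) ≤
      1 / (n : ℝ) ^ 3 := by
  have hn' : (16 : ℝ) ≤ n := by exact_mod_cast hn
  have hp0 : 0 ≤ p := by rw [hp]; have := h.EM_big; positivity
  have hD0 : 0 ≤ D := by rw [hD]; positivity
  obtain ⟨c, hc⟩ : ∃ c : ℝ, c = 1 / (n : ℝ) ^ 4 := ⟨_, rfl⟩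
  have hexp : ∀ k : ℕ, Real.exp (-(k * Real.log n)) = 1 / (n : ℝ) ^ k := by
    intro k
    rw [Real.exp_neg, Real.exp_nat_mul, Real.exp_log (by linarith), one_div]
  let g : Finset (Fin n) → ℝ := fun S => if S.Nonempty then c ^ S.card else 0
  let A : Fin n → Gr n → ℝ := fun v H => if AtEM EM H ∧ D < (nbhd H v).card then 1 else 0
  let B : Finset (Fin n) × Finset (Fin n) → Gr n → ℝ := fun q H =>
    if (Balanced β (p * D) q.1.card q.2.card ∧ (q.1.card : ℝ) ≤ D ∧ (q.2.card : ℝ) ≤ D) then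
      (if AtEM EM H ∧ β * Real.sqrt ((q.1.card : ℝ) * q.2.card) <
        |eCount H q.1 q.2 - p * q.1.card * q.2.card| then 1 else 0) else 0
  have hA0 : ∀ v H, 0 ≤ A v H := fun v H => by simp only [A]; split_ifs <;> norm_num
  have hB0 : ∀ q H, 0 ≤ B q H := fun q H => by simp only [B]; split_ifs <;> norm_num
  refine (EvUntil_mono (χ := fun H => (∑ v, A v H) + ∑ q, B q H) fun H _ _ => ?_).trans ?_
  · have hA : 0 ≤ ∑ v, A v H := sum_nonneg fun v _ => hA0 v H
    have hB : 0 ≤ ∑ q, B q H := sum_nonneg fun q _ => hB0 q H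
    split_ifs with hbad
    · obtain ⟨hat, hj⟩ := hbad
      rw [Jumbled, not_and_or] at hj
      rcases hj with hj | hj
      · simp only [not_forall, not_le] at hj
        obtain ⟨v, hv⟩ := hj
        have := single_le_sum (fun v _ => hA0 v H) (mem_univ v)
        simp only [A] at this hA ⊢
        rw [if_pos ⟨hat, hv⟩] at this
        linarith
      · simp only [not_forall, not_le, exists_prop] at hj
        obtain ⟨S, T, hbal, h1, h2, h3⟩ := hj
        have := single_le_sum (fun q _ => hB0 q H) (mem_univ (S, T))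
        simp only [B] at this hB ⊢
        rw [if_pos ⟨hbal, h1, h2⟩, if_pos ⟨hat, h3⟩] at this
        linarith
    · linarith
  rw [EvUntil_add, EvUntil_sum, EvUntil_sum]
  have h1 : ∀ v, EvUntil stop (A v) (completeEdges n) ≤ 1 / (n : ℝ) ^ 5 := by
    intro v
    simp only [A, hD]
    refine (deg_tail h hstop hbig hp hk v).trans ?_
    rw [← hexp]; apply Real.exp_le_exp.2; push_cast; linarith
  have h2 : ∀ q, EvUntil stop (B q) (completeEdges n) ≤ 2 * (g q.1 * g q.2) := by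
    intro q
    have hg : ∀ S, 0 ≤ g S := fun S => by simp only [g, hc]; split_ifs <;> positivity
    by_cases hq : Balanced β (p * D) q.1.card q.2.card ∧ (q.1.card : ℝ) ≤ D ∧ (q.2.card : ℝ) ≤ D
    · simp only [B, if_pos hq]
      refine (disc_tail h hstop hbig ha hp hβ0 hβ hD0 hq.1 hq.2.1 hq.2.2).trans ?_
      simp only [g]
      rw [if_pos (card_pos.1 hq.1.1), if_pos (card_pos.1 hq.1.2.1), ← pow_add, hc, div_pow, one_pow,
        ← pow_mul, ← hexp]
      refine mul_le_mul_of_nonneg_left (Real.exp_le_exp.2 (neg_le_neg ?_)) two_pos.le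
      push_cast
      have := mul_le_mul_of_nonneg_right hpair
        (by positivity : 0 ≤ (q.1.card : ℝ) + q.2.card)
      linarith
    · simp only [B, if_neg hq]
      rw [EvUntil_const]
      exact mul_nonneg two_pos.le (mul_nonneg (hg _) (hg _))
  have hnc : (n : ℝ) * c = 1 / (n : ℝ) ^ 3 := by rw [hc]; field_simp
  have hn3 : (0 : ℝ) < 1 / (n : ℝ) ^ 3 ∧ 1 / (n : ℝ) ^ 3 ≤ 1 / 4096 := by
    refine ⟨by positivity, one_div_le_one_div_of_le (by norm_num) ?_⟩
    have := pow_le_pow_left₀ (by norm_num) hn' 3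
    linarith
  refine (add_le_add (sum_le_sum fun v _ => h1 v) (sum_le_sum fun q _ => h2 q)).trans ?_
  rw [sum_const, card_univ, Fintype.card_fin, nsmul_eq_mul, ← mul_sum, Fintype.sum_prod_type,
    ← sum_mul_sum]
  have hgs : ∑ S, g S ≤ 2 * (1 / (n : ℝ) ^ 3) := by
    rw [← hnc]; exact sum_pow_card_le (by rw [hc]; positivity) (by rw [hnc]; linarith)
  have hg0 : 0 ≤ ∑ S, g S := sum_nonneg fun S _ => by simp only [g, hc]; split_ifs <;> positivity
  have h5 : (n : ℝ) * (1 / (n : ℝ) ^ 5) = 1 / (n : ℝ) ^ 3 * (1 / n) := by field_simp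
  have h16 : 1 / (n : ℝ) ≤ 1 / 16 := one_div_le_one_div_of_le (by norm_num) hn'
  rw [h5]
  nlinarith [mul_le_mul hgs hgs hg0 (by linarith), hn3.1, hn3.2]

end Prob

/-- A jumbled graph with bounded codegrees has a spectral gap. -/
theorem gap_of_jumbled {G : Gr n} {p D β : ℝ} (hp : 0 ≤ p) (hD : 0 ≤ D) (hβ : 0 ≤ β)
    (hj : Jumbled p D β G) (hcd : ∀ f, cd G f ≤ p * D) (ℓ : ℕ) (x : Sym2 (Fin n) → ℝ) :
    -(2 * (11 * ((2 * ℓ + 1) * β + 4 * (p * D) / 2 ^ ℓ))) * ∑ e, x e ^ 2 ≤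
      ∑ e, x e * Spectral.apply (Spectral.adj (triangles G) edgesOf) x e := by
  refine Gap.adj_gap G (mul_nonneg (by norm_num) (by positivity)) (fun v y => ?_) x
  have hA0 : ∀ a b, 0 ≤ Gap.linkAdj G v a b := fun a b => by
    unfold Gap.linkAdj; split_ifs <;> norm_num
  have hsymm : ∀ a b, Gap.linkAdj G v a b = Gap.linkAdj G v b a := fun a b => by
    unfold Gap.linkAdj; rw [show ({v, a, b} : Finset (Fin n)) = {v, b, a} by
      rw [pair_comm a b]]
  have hmem : ∀ a b, Gap.linkAdj G v a b ≠ 0 → v ≠ a ∧ v ≠ b ∧ a ≠ b ∧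
      ({v, a, b} : Finset (Fin n)) ∈ Track.triangles G := by
    intro a b h0
    unfold Gap.linkAdj at h0
    split_ifs at h0 with h1
    · obtain ⟨_, _, _, h2, h3, h4⟩ :=
        (Gap.triple_eq_iff (Track.card3_of_mem h1) v a b).1 rfl
      exact ⟨h2, h3, h4, h1⟩
    · exact absurd rfl h0
  have hedge : ∀ a b, Gap.linkAdj G v a b ≠ 0 → s(v, a) ∈ G ∧ s(v, b) ∈ G := by
    intro a b h0
    obtain ⟨h2, h3, h4, h1⟩ := hmem a b h0
    have hs := Track.edgesOf_sub h1
    rw [Gap.edgesOf_three h2 h3 h4] at hs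
    exact ⟨hs (by simp), hs (by simp)⟩
  have hrow : ∀ a, ∑ b, Gap.linkAdj G v a b ≤ p * D := by
    intro a
    refine le_trans ?_ (hcd s(v, a))
    unfold Gap.linkAdj cd
    rw [sum_boole, Nat.cast_le]
    have hd : ∀ b, ({v, a, b} : Finset (Fin n)) ∈ Track.triangles G → v ≠ a ∧ v ≠ b ∧ a ≠ b :=
      fun b h1 => by
        obtain ⟨_, _, _, h⟩ := (Gap.triple_eq_iff (Track.card3_of_mem h1) v a b).1 rfl
        exact h
    refine card_le_card_of_injOn (fun b => ({v, a, b} : Finset (Fin n))) (fun b hb => ?_)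
      fun b hb b' _ he => ?_
    · simp only [coe_filter, Set.mem_setOf_eq, mem_univ, true_and] at hb ⊢
      obtain ⟨h2, h3, h4⟩ := hd b hb
      refine ⟨hb, ?_⟩
      show s(v, a) ∈ Track.edgesOf _
      rw [Gap.edgesOf_three h2 h3 h4]; simp
    · simp only [coe_filter, Set.mem_setOf_eq, mem_univ, true_and] at hb
      obtain ⟨_, h3, h4⟩ := hd b hb
      have : b ∈ ({v, a, b'} : Finset (Fin n)) := by
        simp only at he; rw [← he]; simp
      simpa [Ne.symm h3, Ne.symm h4] using this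
  refine Gap.link_lower (V := nbhd G v) (p := p) hβ hp hA0 (fun a b hab => ?_)
    (fun S T hS hT => ?_) hrow (fun b => ?_) ?_ ℓ y
  · by_contra h0
    obtain ⟨h2, h3, -⟩ := hmem a b h0
    obtain ⟨h5, h6⟩ := hedge a b h0
    rcases hab with h | h
    · exact h (mem_filter.2 ⟨mem_univ _, h2.symm, h5⟩)
    · exact h (mem_filter.2 ⟨mem_univ _, h3.symm, h6⟩)
  · have hc : ∑ a ∈ S, ∑ b ∈ T, Gap.linkAdj G v a b = eCount G S T := by
      unfold eCount Tokens.X pairs
      rw [filter_filter, ← sum_boole, sum_product]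
      refine sum_congr rfl fun a ha => sum_congr rfl fun b hb => ?_
      obtain ⟨ha1, ha2⟩ := (mem_filter.1 (hS ha)).2
      obtain ⟨hb1, hb2⟩ := (mem_filter.1 (hT hb)).2
      unfold Gap.linkAdj toEdge
      refine if_congr ⟨fun h1 => ?_, fun h1 => ?_⟩ rfl rfl
      · obtain ⟨_, _, _, h2, h3, h4⟩ :=
          (Gap.triple_eq_iff (Track.card3_of_mem h1) v a b).1 rfl
        have hs := Track.edgesOf_sub h1
        rw [Gap.edgesOf_three h2 h3 h4] at hs
        exact ⟨h4, hs (by simp)⟩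
      · refine mem_filter.2 ⟨mem_powersetCard.2 ⟨subset_univ _, card_eq_three.2
          ⟨v, a, b, ha1.symm, hb1.symm, h1.1, rfl⟩⟩, ?_⟩
        rw [Gap.edgesOf_three ha1.symm hb1.symm h1.1]
        simp [insert_subset_iff, ha2, hb2, h1.2]
    rw [hc]
    by_cases hbal : Balanced β (p * D) S.card T.card
    · exact hj.2 S T hbal ((Nat.cast_le.2 (card_le_card hS)).trans (hj.1 v))
        ((Nat.cast_le.2 (card_le_card hT)).trans (hj.1 v))
    rcases Nat.eq_zero_or_pos S.card with hs0 | hs0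
    · simp [eCount, Tokens.X, pairs, card_eq_zero.1 hs0]
    rcases Nat.eq_zero_or_pos T.card with ht0 | ht0
    · simp [eCount, Tokens.X, pairs, card_eq_zero.1 ht0]
    have key : ∀ s t : ℝ, 0 ≤ s → 4 * (p * D) ^ 2 * s < β ^ 2 * t →
        2 * (p * D) * s ≤ β * Real.sqrt (s * t) := by
      intro s t hs h
      have ht : 0 ≤ t := by
        by_contra hh
        have : 0 ≤ 4 * (p * D) ^ 2 * s := by positivity
        nlinarith [sq_nonneg β]
      refine pow_le_pow_iff_left₀ (by positivity) (by positivity) two_ne_zero |>.1 ?_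
      rw [mul_pow β, Real.sq_sqrt (by positivity)]
      nlinarith
    have hnn : 0 ≤ eCount G S T := Nat.cast_nonneg _
    have hsS : eCount G S T ≤ S.card * (p * D) := by
      rw [← hc, ← nsmul_eq_mul, ← sum_const]
      exact sum_le_sum fun a _ => (sum_le_sum_of_subset_of_nonneg (subset_univ T)
        fun b _ _ => hA0 a b).trans (hrow a)
    have htT : eCount G S T ≤ T.card * (p * D) := by
      rw [← hc, sum_comm, ← nsmul_eq_mul, ← sum_const]
      refine sum_le_sum fun b _ => ?_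
      rw [sum_congr rfl fun a _ => hsymm a b]
      exact (sum_le_sum_of_subset_of_nonneg (subset_univ S) fun a _ _ => hA0 b a).trans (hrow b)
    have hS' : (S.card : ℝ) ≤ D := (Nat.cast_le.2 (card_le_card hS)).trans (hj.1 v)
    have hT' : (T.card : ℝ) ≤ D := (Nat.cast_le.2 (card_le_card hT)).trans (hj.1 v)
    have hst : p * S.card * T.card ≤ S.card * (p * D) ∧ p * S.card * T.card ≤ T.card * (p * D) :=
      ⟨by nlinarith [mul_le_mul_of_nonneg_left hT' (mul_nonneg hp (Nat.cast_nonneg (α := ℝ) S.card))],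
       by nlinarith [mul_le_mul_of_nonneg_left hS' (mul_nonneg hp (Nat.cast_nonneg (α := ℝ) T.card))]⟩
    have hpst0 : 0 ≤ p * S.card * T.card := by positivity
    unfold Balanced at hbal
    simp only [hs0, ht0, true_and, not_and_or, not_le] at hbal
    rw [abs_le]
    rcases hbal with hb | hb
    · have := key _ _ (Nat.cast_nonneg (α := ℝ) S.card) hb
      constructor <;> linarith
    · have := key _ _ (Nat.cast_nonneg (α := ℝ) T.card) hb
      rw [mul_comm (T.card : ℝ) (S.card : ℝ)] at this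
      constructor <;> linarith
  · rw [sum_congr rfl fun a _ => hsymm a b]; exact hrow b
  · exact mul_le_mul_of_nonneg_left (hj.1 v) hp

/-- The parameters of the stopping stage, with `q = √mHi`. -/
structure Setting (n : ℕ) (L q r s EM p : ℝ) : Prop where
  n_big : (16 : ℝ) ≤ n
  L_eq : L = lg n
  L_big : 20000 ≤ L
  q_big : L ^ 61 ≤ q
  M_eq : mHi n = q ^ 2
  M_le : 16 * q ^ 2 ≤ n
  r_nonneg : 0 ≤ r
  r_cube : r ^ 3 = q ^ 2
  r_eq : gapEps n = L ^ 4 / r
  s_eq : s = q * Real.sqrt ((n : ℝ) ^ 3)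
  EM_eq : EM = (eHi n : ℝ)
  p_eq : p = EM / ((completeEdges n).card : ℝ)

variable {L q r s EM p : ℝ}

lemma Setting.L_one (h : Setting n L q r s EM p) : 1 ≤ L := by linarith [h.L_big]

lemma Setting.n_pos (h : Setting n L q r s EM p) : (0 : ℝ) < n := by linarith [h.n_big]

lemma Setting.n_cube (h : Setting n L q r s EM p) : (0 : ℝ) < (n : ℝ) ^ 3 := pow_pos h.n_pos 3

lemma Setting.q_pos (h : Setting n L q r s EM p) : 0 < q :=
  (pow_pos (by linarith [h.L_one]) 61).trans_le h.q_big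

lemma Setting.r_L (h : Setting n L q r s EM p) : L ≤ r ∧ 0 < r := by
  have hr : L ≤ r := by
    refine pow_le_pow_iff_left₀ (by linarith [h.L_one]) h.r_nonneg three_ne_zero |>.1 ?_
    rw [h.r_cube]
    have h1 : L ^ 3 ≤ q := (pow_le_pow_right₀ h.L_one (by norm_num)).trans h.q_big
    have h2 : 1 ≤ q := (one_le_pow₀ h.L_one).trans h.q_big
    nlinarith
  exact ⟨hr, by linarith [h.L_one]⟩

lemma Setting.key (h : Setting n L q r s EM p) : 3072 * L ^ 4 * q ≤ r ^ 2 := by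
  have hq := h.q_pos; have hL := h.L_one
  refine pow_le_pow_iff_left₀ (by positivity) (sq_nonneg r) three_ne_zero |>.1 ?_
  rw [← pow_mul, show 2 * 3 = 3 * 2 by rfl, pow_mul r, h.r_cube]
  have h1 : (3072 : ℝ) ^ 3 * L ^ 12 ≤ q := by
    calc (3072 : ℝ) ^ 3 * L ^ 12 ≤ L ^ 3 * L ^ 12 := by
          gcongr; linarith [h.L_big]
      _ = L ^ 15 := by ring
      _ ≤ q := (pow_le_pow_right₀ hL (by norm_num)).trans h.q_big
  calc (3072 * L ^ 4 * q) ^ 3 = (3072 : ℝ) ^ 3 * L ^ 12 * q ^ 3 := by ring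
    _ ≤ q * q ^ 3 := by gcongr
    _ = (q ^ 2) ^ 2 := by ring

lemma Setting.s_sq (h : Setting n L q r s EM p) : s ^ 2 = q ^ 2 * (n : ℝ) ^ 3 := by
  rw [h.s_eq, mul_pow, Real.sq_sqrt h.n_cube.le]

lemma Setting.s_big (h : Setting n L q r s EM p) :
    64 ≤ s ∧ 64 ≤ Real.sqrt ((n : ℝ) ^ 3) := by
  have h1 : 64 ≤ Real.sqrt ((n : ℝ) ^ 3) := by
    refine Real.le_sqrt_of_sq_le ?_
    have := pow_le_pow_left₀ (by norm_num) h.n_big 3
    linarith
  refine ⟨?_, h1⟩
  have h2 : 1 ≤ q := (one_le_pow₀ h.L_one).trans h.q_big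
  rw [h.s_eq]; exact h1.trans (le_mul_of_one_le_left (Real.sqrt_nonneg _) h2)

lemma Setting.sqrt_eq (h : Setting n L q r s EM p) :
    Real.sqrt (mHi n * (n : ℝ) ^ 3) = s := by
  rw [h.M_eq, Real.sqrt_mul (sq_nonneg q), Real.sqrt_sq h.q_pos.le, h.s_eq]

lemma Setting.EM_bounds (h : Setting n L q r s EM p) :
    s / 2 ≤ EM ∧ EM ≤ s ∧ EM ≤ (completeEdges n).card ∧ 30 ≤ EM := by
  have h1 : s / 2 ≤ EM := by rw [h.EM_eq, ← h.sqrt_eq]; exact le_eHi n
  have h2 : EM < s / 2 + 1 := by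
    rw [h.EM_eq, ← h.sqrt_eq]; unfold eHi
    exact Nat.ceil_lt_add_one (div_nonneg (Real.sqrt_nonneg _) zero_le_two)
  have h3 : s ≤ (n : ℝ) ^ 2 / 4 := by
    refine pow_le_pow_iff_left₀ (by linarith [h.s_big.1]) (by positivity) two_ne_zero |>.1 ?_
    rw [h.s_sq]
    calc q ^ 2 * (n : ℝ) ^ 3 = 16 * q ^ 2 * (n : ℝ) ^ 3 / 16 := by ring
      _ ≤ (n : ℝ) * (n : ℝ) ^ 3 / 16 := by gcongr; exact h.M_le
      _ = ((n : ℝ) ^ 2 / 4) ^ 2 := by ring
  refine ⟨h1, by linarith [h.s_big.1], ?_, by linarith [h.s_big.1]⟩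
  rw [card_completeEdges, Nat.cast_choose_two]
  nlinarith [h.n_big, mul_le_mul_of_nonneg_right h.n_big (by linarith [h.n_big] : (0 : ℝ) ≤ n)]

lemma Setting.p_bounds (h : Setting n L q r s EM p) :
    0 < p ∧ p ≤ 1 ∧ p * (n : ℝ) ^ 2 ≤ 4 * EM ∧ 2 * EM ≤ p * (n : ℝ) ^ 2 := by
  obtain ⟨-, -, h3, h4⟩ := h.EM_bounds
  have hn := h.n_big
  have hE : (0 : ℝ) < (completeEdges n).card := by linarith
  have he : p * ((n : ℝ) * (n - 1) / 2) = EM := by
    rw [← Nat.cast_choose_two, ← card_completeEdges, h.p_eq]; field_simp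
  have hp : 0 < p := by rw [h.p_eq]; positivity
  refine ⟨hp, by rw [h.p_eq, div_le_one hE]; exact h3, ?_, ?_⟩
  · nlinarith [mul_nonneg (mul_nonneg hp.le (by linarith : (0 : ℝ) ≤ n))
      (by linarith : (0 : ℝ) ≤ n - 2)]
  · nlinarith [mul_nonneg hp.le (by linarith : (0 : ℝ) ≤ n)]

lemma Setting.Q_bounds (h : Setting n L q r s EM p) :
    2 * q ^ 2 ≤ p * (2 * n * p) ∧ p * (2 * n * p) ≤ 32 * q ^ 2 := by
  obtain ⟨h1, h2, -, h4⟩ := h.EM_bounds
  obtain ⟨hp, -, h5, h6⟩ := h.p_bounds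
  have hn3 : (0 : ℝ) < (n : ℝ) ^ 3 := h.n_cube
  have hQ : p * (2 * n * p) * (n : ℝ) ^ 3 = 2 * (p * (n : ℝ) ^ 2) ^ 2 := by ring
  have hs0 : 0 ≤ s := by linarith [h.s_big.1]
  constructor
  · refine le_of_mul_le_mul_right ?_ hn3
    rw [hQ, show 2 * q ^ 2 * (n : ℝ) ^ 3 = 2 * s ^ 2 by rw [h.s_sq]; ring]
    linarith [pow_le_pow_left₀ hs0 ((show s ≤ 2 * EM by linarith).trans h6) 2]
  · refine le_of_mul_le_mul_right ?_ hn3
    rw [hQ, show 32 * q ^ 2 * (n : ℝ) ^ 3 = 32 * s ^ 2 by rw [h.s_sq]; ring]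
    linarith [pow_le_pow_left₀ (by positivity)
      (h5.trans (mul_le_mul_of_nonneg_left h2 (by norm_num : (0 : ℝ) ≤ 4))) 2]

lemma Setting.kappa_small (h : Setting n L q r s EM p) :
    128 * r ^ 3 * ((6 * (L ^ 5 * Real.sqrt ((n : ℝ) ^ 3) / 2) +
        30 * (L / (20000 * r)) * EM) / EM) ≤ L * r ^ 2 / 2 ∧
      (6 * (L ^ 5 * Real.sqrt ((n : ℝ) ^ 3) / 2) + 30 * (L / (20000 * r)) * EM) / EM ≤ 1 / 20 := by
  obtain ⟨h1, -, -, h4⟩ := h.EM_bounds
  obtain ⟨hLr, hr0⟩ := h.r_L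
  have hq := h.q_pos; have hL := h.L_one
  have hEM : 0 < EM := by linarith
  have hk1 : 6 * (L ^ 5 * Real.sqrt ((n : ℝ) ^ 3) / 2) / EM ≤ 6 * L ^ 5 / q := by
    rw [div_le_div_iff₀ hEM hq]
    calc 6 * (L ^ 5 * Real.sqrt ((n : ℝ) ^ 3) / 2) * q = 6 * L ^ 5 * (s / 2) := by
          rw [h.s_eq]; ring
      _ ≤ 6 * L ^ 5 * EM := by gcongr
  have e1 : 128 * r ^ 3 * (6 * L ^ 5 / q) = 768 * L ^ 5 * q := by
    rw [h.r_cube]; field_simp; ring
  have e2 : 128 * r ^ 3 * (30 * (L / (20000 * r))) = 24 / 125 * (L * r ^ 2) := by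
    field_simp; ring
  have hr3 : 0 < r ^ 3 := by positivity
  have ek : (6 * (L ^ 5 * Real.sqrt ((n : ℝ) ^ 3) / 2) + 30 * (L / (20000 * r)) * EM) / EM =
      6 * (L ^ 5 * Real.sqrt ((n : ℝ) ^ 3) / 2) / EM + 30 * (L / (20000 * r)) := by
    field_simp
  have hmain : 128 * r ^ 3 * ((6 * (L ^ 5 * Real.sqrt ((n : ℝ) ^ 3) / 2) +
        30 * (L / (20000 * r)) * EM) / EM) ≤ L * r ^ 2 / 2 := by
    rw [ek, mul_add, e2]
    have i1 := mul_le_mul_of_nonneg_left hk1 (by positivity : 0 ≤ 128 * r ^ 3)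
    have i2 := mul_le_mul_of_nonneg_left h.key (by linarith : 0 ≤ L)
    have i3 : 768 * L ^ 5 * q = L * (3072 * L ^ 4 * q) / 4 := by ring
    have i4 : 0 ≤ L * r ^ 2 := by positivity
    linarith
  refine ⟨hmain, le_of_mul_le_mul_left (hmain.trans ?_) (by positivity : 0 < 128 * r ^ 3)⟩
  calc L * r ^ 2 / 2 ≤ r * r ^ 2 / 2 := by gcongr
    _ ≤ 128 * r ^ 3 * (1 / 20) := by linarith [show r * r ^ 2 = r ^ 3 by ring]

/-- At the stage, a good jumbled graph has the gap. -/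
lemma Setting.gap (h : Setting n L q r s EM p) {G : Gr n} (hA : AtStage G) (hgood : Good G)
    (hj : Jumbled p (2 * n * p) (L * r ^ 2) G) : Gap G := by
  intro x _
  obtain ⟨h1, -, -, h4⟩ := h.EM_bounds
  obtain ⟨hp, -, -, hp4⟩ := h.p_bounds
  obtain ⟨hLr, hr0⟩ := h.r_L
  have hq := h.q_pos; have hL := h.L_one
  have hn3 : (0 : ℝ) < (n : ℝ) ^ 3 := h.n_cube
  have hle : (G.card : ℝ) ≤ EM := by rw [h.EM_eq]; exact_mod_cast hA.le
  have hgt : EM < (G.card : ℝ) + 3 := by rw [h.EM_eq]; exact_mod_cast hA.gt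
  have hE : s / 4 ≤ (G.card : ℝ) := by linarith [h.s_big.1]
  have hEpos : (0 : ℝ) < G.card := by linarith [h.s_big.1]
  have hnp : (0 : ℝ) < n := h.n_pos
  have hmS : mS G * (n : ℝ) ^ 3 = 4 * (G.card : ℝ) ^ 2 := by unfold mS mI; field_simp
  have hm0 : 0 < mS G := by unfold mS mI; positivity
  have hmlo : q ^ 2 / 4 ≤ mS G := by
    refine le_of_mul_le_mul_right ?_ hn3
    rw [hmS, show q ^ 2 / 4 * (n : ℝ) ^ 3 = s ^ 2 / 4 by rw [h.s_sq]; ring]
    have := pow_le_pow_left₀ (by linarith [h.s_big.1]) hE 2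
    nlinarith
  have hmhi : 2 * mS G ≤ p * (2 * n * p) := by
    refine le_of_mul_le_mul_right ?_ hn3
    rw [mul_assoc, hmS]
    calc 2 * (4 * (G.card : ℝ) ^ 2) = 2 * (2 * G.card) ^ 2 := by ring
      _ ≤ 2 * (p * (n : ℝ) ^ 2) ^ 2 := by
          refine mul_le_mul_of_nonneg_left (pow_le_pow_left₀ (by positivity) ?_ 2) two_pos.le
          linarith
      _ = _ := by ring
  have hcd : ∀ f, cd G f ≤ p * (2 * n * p) := by
    intro f
    by_cases hf : f ∈ G
    · have hq2 : ∀ k : ℕ, k ≤ 60 → 4 * L ^ k ≤ q := fun k hk =>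
        le_trans (mul_le_mul_of_nonneg_right (by linarith [h.L_big]) (by positivity) :
          4 * L ^ k ≤ L * L ^ k)
          (by rw [← pow_succ']; exact (pow_le_pow_right₀ hL (by omega)).trans h.q_big)
      have hq1 : 1 ≤ q := (one_le_pow₀ hL).trans h.q_big
      have hml : mLo n ≤ mI n ((G.card : ℝ) - 3 * ((0 : ℕ) : ℝ)) := by
        simp only [Nat.cast_zero, mul_zero, sub_zero]
        refine le_trans ?_ hmlo
        rw [mLo, ← h.L_eq]
        nlinarith [hq2 60 le_rfl]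
      have hz := hgood f hf 0 (by exact_mod_cast hEpos) hml
      simp only [Nat.cast_zero, mul_zero, sub_zero, Z, prop, dv, if_pos hf] at hz
      have hb : Bd n (mI n (G.card : ℝ)) ≤ 1 := by
        change lg n ^ 5 / Real.sqrt (mS G) ≤ 1
        rw [div_le_one (Real.sqrt_pos.2 hm0), ← h.L_eq]
        refine le_trans ?_ (Real.sqrt_le_sqrt hmlo)
        refine Real.le_sqrt_of_sq_le ?_
        rw [← pow_mul]
        nlinarith [hq2 10 (by norm_num)]
      have h' := (abs_le.1 (hz.trans hb)).2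
      rw [sub_le_iff_le_add, div_le_iff₀ hm0] at h'
      linarith
    · rw [cd, filter_false_of_mem fun t ht hft => hf (edgesOf_subset ht hft)]
      simp; positivity
  obtain ⟨ℓ, hℓ⟩ : ∃ ℓ : ℕ, ℓ = ⌈2 * L⌉₊ := ⟨_, rfl⟩
  have hℓ1 : (ℓ : ℝ) ≤ 3 * L := by
    have := Nat.ceil_lt_add_one (show 0 ≤ 2 * L by linarith)
    rw [hℓ]; linarith
  have hℓ2 : (n : ℝ) ≤ 2 ^ ℓ := by
    rw [← Real.exp_log hnp, ← Real.rpow_natCast,
      Real.rpow_def_of_pos (by norm_num : (0 : ℝ) < 2), Real.exp_le_exp]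
    have h2 := Nat.le_ceil (2 * L)
    rw [← hℓ, h.L_eq, lg] at h2
    nlinarith [Real.log_two_gt_d9, Real.log_nonneg (by linarith [h.n_big] : (1 : ℝ) ≤ n)]
  have hgl := gap_of_jumbled hp.le (by positivity) (by positivity) hj hcd ℓ x
  have happ : ∀ f, Spectral.apply (nh G) x f =
      Spectral.apply (Spectral.adj (triangles G) edgesOf) x f / mS G := by
    intro f; simp only [Spectral.apply, nh, sum_div]
    exact sum_congr rfl fun g _ => by ring
  simp only [happ, ← mul_div_assoc, ← sum_div]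
  rw [le_div_iff₀ hm0]
  refine le_trans ?_ hgl
  have hx : 0 ≤ ∑ f, x f ^ 2 := sum_nonneg fun f _ => sq_nonneg _
  have hone : 1 ≤ L * r ^ 2 :=
    one_le_mul_of_one_le_of_one_le hL (one_le_pow₀ (by linarith))
  have i1 : 4 * (p * (2 * n * p)) / 2 ^ ℓ ≤ 128 * (L * r ^ 2) := by
    rw [div_le_iff₀ (by positivity)]
    have h6 : 16 * q ^ 2 ≤ 2 ^ ℓ := h.M_le.trans hℓ2
    have h7 := mul_le_mul_of_nonneg_right hone (by positivity : (0 : ℝ) ≤ 2 ^ ℓ)
    linarith [h.Q_bounds.2]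
  have i2 : L ^ 4 * r ^ 2 / 4 ≤ gapEps n * mS G := by
    rw [h.r_eq]
    calc L ^ 4 * r ^ 2 / 4 = L ^ 4 / r * (r ^ 3 / 4) := by field_simp
      _ ≤ L ^ 4 / r * mS G := by rw [h.r_cube]; gcongr
  have i3 : (2 * (ℓ : ℝ) + 1) * (L * r ^ 2) ≤ 7 * L * (L * r ^ 2) :=
    mul_le_mul_of_nonneg_right (by linarith) (by positivity)
  have i4 : 12000 * (L ^ 2 * r ^ 2) ≤ L ^ 4 * r ^ 2 := by
    rw [show L ^ 4 * r ^ 2 = L ^ 2 * (L ^ 2 * r ^ 2) by ring]
    exact mul_le_mul_of_nonneg_right (by nlinarith [h.L_big]) (by positivity)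
  have i5 : L * r ^ 2 ≤ L ^ 2 * r ^ 2 :=
    mul_le_mul_of_nonneg_right (by nlinarith) (by positivity)
  calc -gapEps n * (∑ f, x f ^ 2) * mS G = -(gapEps n * mS G) * ∑ f, x f ^ 2 := by ring
    _ ≤ _ := mul_le_mul_of_nonneg_right (neg_le_neg (by nlinarith)) hx

/-- The probability that a good stage graph is not jumbled. -/
lemma Setting.prob (h : Setting n L q r s EM p) :
    EvUntil Stop (fun H => if AtEM EM H ∧ ¬ Jumbled p (2 * n * p) (L * r ^ 2) H then 1 else 0)
      (completeEdges n) ≤ 1 / (n : ℝ) ^ 3 := by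
  obtain ⟨h1, -, h3, h4⟩ := h.EM_bounds
  obtain ⟨hp, hp1, -, -⟩ := h.p_bounds
  obtain ⟨hQlo, hQhi⟩ := h.Q_bounds
  obtain ⟨hkb, hk20⟩ := h.kappa_small
  obtain ⟨hLr, hr0⟩ := h.r_L
  have hL := h.L_one; have hq := h.q_pos
  have hr2 : (20000 : ℝ) ^ 2 ≤ r ^ 2 := pow_le_pow_left₀ (by norm_num) (h.L_big.trans hLr) 2
  have hβ8 : 8 ≤ L * r ^ 2 := by
    have := mul_le_mul_of_nonneg_right hL (sq_nonneg r)
    linarith
  have hEM0 : EM ≠ 0 := by linarith
  obtain ⟨a, had⟩ : ∃ a, a = L ^ 5 * Real.sqrt ((n : ℝ) ^ 3) / 2 := ⟨_, rfl⟩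
  obtain ⟨θ, hθd⟩ : ∃ θ, θ = L / (20000 * r) := ⟨_, rfl⟩
  obtain ⟨κ, hκd⟩ : ∃ κ, κ = 6 * a + 30 * θ * EM := ⟨_, rfl⟩
  rw [← had, ← hθd, ← hκd] at hkb hk20
  have hθ0 : 0 < θ := by rw [hθd]; positivity
  have ha2 : 2 ≤ a := by
    have := mul_le_mul (one_le_pow₀ hL (n := 5)) h.s_big.2 (by norm_num) (by positivity)
    rw [had]; linarith
  have hκEM : 20 * κ ≤ EM := by
    rw [div_le_iff₀ (by linarith)] at hk20; linarith
  have hPar : Tokens.Par a EM θ κ :=
    ⟨h4, by linarith, by nlinarith [mul_pos hθ0 (by linarith : 0 < EM)], hθ0, hκd, by linarith⟩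
  have hk0 : 0 ≤ κ / EM := div_nonneg hPar.κ_pos.le (by linarith)
  have hβ : 4 * (κ / EM) * (p * (2 * n * p)) + 4 ≤ L * r ^ 2 := by
    have : 4 * (κ / EM) * (p * (2 * n * p)) ≤ 128 * r ^ 3 * (κ / EM) := by
      rw [h.r_cube]
      calc 4 * (κ / EM) * (p * (2 * n * p)) ≤ 4 * (κ / EM) * (32 * q ^ 2) := by gcongr
        _ = _ := by ring
    linarith
  have hlog : Real.log n = L := h.L_eq.symm
  have hpair : 4 * Real.log n ≤ θ * (L * r ^ 2) ^ 2 / (8 * (p * (2 * n * p))) := by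
    rw [hlog, le_div_iff₀ (by nlinarith), hθd]
    calc 4 * L * (8 * (p * (2 * n * p))) ≤ 4 * L * (8 * (32 * q ^ 2)) := by gcongr
      _ = 1024 * L * r ^ 3 := by rw [h.r_cube]; ring
      _ ≤ L ^ 2 / 20000 * L * r ^ 3 := by
          gcongr; rw [le_div_iff₀ (by norm_num)]; nlinarith [h.L_big]
      _ = L / (20000 * r) * (L * r ^ 2) ^ 2 := by field_simp
  have hdeg : 5 * Real.log n ≤ θ * p * n / 2 := by
    have hpn : q ^ 2 ≤ p * n := by
      nlinarith [mul_nonneg (mul_nonneg hp.le h.n_pos.le) (sub_nonneg.2 hp1)]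
    rw [hlog, mul_assoc θ p]
    have i2 : θ * q ^ 2 ≤ θ * (p * n) := mul_le_mul_of_nonneg_left hpn hθ0.le
    have i3 : θ * q ^ 2 = L * r ^ 2 / 20000 := by rw [hθd, ← h.r_cube]; field_simp
    nlinarith [mul_le_mul_of_nonneg_left hr2 (by linarith : 0 ≤ L)]
  refine jumbled_prob hPar (fun G _ hG => ?_) h3 ha2 h.p_eq rfl (by linarith) hβ (by linarith)
    hpair hdeg (by exact_mod_cast h.n_big)
  simp only [Stop, not_or, not_not, not_le] at hG
  refine ⟨by rw [h.EM_eq]; exact_mod_cast hG.2, ?_⟩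
  rw [had, h.L_eq]
  exact reg_of_good (by exact_mod_cast h.n_pos) (h.L_eq ▸ hL) hG.1 hG.2

end GapProof

open GapProof in
/-- Module 2: the gap at the stopping stage. -/
theorem gapStep : GapStep := by
  have hlim : ∀ᶠ x : ℝ in atTop, 16 * Real.log x ^ 2000 ≤ x := by
    have h := (Real.isLittleO_pow_log_id_atTop (n := 2000)).bound (show (0 : ℝ) < 1 / 16 by norm_num)
    filter_upwards [h, eventually_ge_atTop (0 : ℝ)] with x hx h0
    simp only [Real.norm_eq_abs, id_eq, abs_of_nonneg h0] at hx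
    linarith [(le_abs_self (Real.log x ^ 2000))]
  filter_upwards [tendsto_natCast_atTop_atTop.eventually hlim,
    tendsto_lg.eventually_ge_atTop 20000, eventually_ge_atTop 16,
    eventually_eHi_lt, eventually_atStage] with n hnM hL hn hE0 hst
  have hL1 : 1 ≤ lg n := by linarith
  have hM : mHi n = (lg n ^ 1000) ^ 2 := by rw [mHi, ← pow_mul]
  have hset : Setting n (lg n) (lg n ^ 1000) (mHi n ^ (1 / 3 : ℝ))
      (lg n ^ 1000 * Real.sqrt ((n : ℝ) ^ 3)) (eHi n)
      ((eHi n : ℝ) / (completeEdges n).card) := by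
    have hM0 : 0 ≤ mHi n := by rw [hM]; exact sq_nonneg _
    refine ⟨by exact_mod_cast hn, rfl, hL, pow_le_pow_right₀ hL1 (by norm_num), hM, ?_,
      Real.rpow_nonneg hM0 _, ?_, rfl, rfl, rfl, rfl⟩
    · rw [← pow_mul]; exact hnM
    · rw [← Real.rpow_natCast, ← Real.rpow_mul hM0, ← hM]; norm_num
  refine le_trans (EvUntil_mono_inv (P := AboveStage) ⟨subset_rfl, hE0⟩
    (fun G hP hs T hT => hP.step hs hT) fun G _ hP hs => ?_) hset.prob
  split_ifs with h1 h2 <;> try norm_num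
  obtain ⟨hgood, hgap⟩ := h1
  have hA := hst G hP hgood hs
  refine hgap (hset.gap hA hgood ?_)
  by_contra hj
  exact h2 ⟨⟨by exact_mod_cast hA.le, by exact_mod_cast hA.gt⟩, hj⟩

end Vale.Agent.P046.Full
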