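import Vale.Agent.P046.Full.Params

/-!
Elementary facts on the time grid, the stopping stage and the polylogarithmic scales.
-/

namespace Vale.Agent.P046.Full

open Finset Filter
open scoped Classical

variable {n E k : ℕ}

/-! ## Scales -/

lemma eventually_le_lg (c : ℝ) : ∀ᶠ n : ℕ in atTop, c ≤ lg n :=
  tendsto_lg.eventually_ge_atTop c

lemma lg_nonneg (n : ℕ) : 0 ≤ lg n := Real.log_natCast_nonneg n

/-- Powers of the logarithm are below every positive power of `n`. -/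
lemma eventually_mul_lg_rpow_le (C a : ℝ) {ε : ℝ} (hε : 0 < ε) :
    ∀ᶠ n : ℕ in atTop, C * lg n ^ a ≤ (n : ℝ) ^ ε := by
  have h := ((isLittleO_log_rpow_rpow_atTop a hε).const_mul_left C).bound one_pos
  filter_upwards [tendsto_natCast_atTop_atTop.eventually h] with n hn
  rw [one_mul, Real.norm_eq_abs, Real.norm_eq_abs,
    abs_of_nonneg (Real.rpow_nonneg (Nat.cast_nonneg n) ε)] at hn
  exact (le_abs_self _).trans hn

lemma eventually_mul_lg_pow_le (C : ℝ) (a : ℕ) {ε : ℝ} (hε : 0 < ε) :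
    ∀ᶠ n : ℕ in atTop, C * lg n ^ a ≤ (n : ℝ) ^ ε := by
  filter_upwards [eventually_mul_lg_rpow_le C a hε] with n hn
  rwa [Real.rpow_natCast] at hn

lemma eventually_mul_lg_pow_le_pow (C : ℝ) {a b : ℕ} (h : a < b) :
    ∀ᶠ n : ℕ in atTop, C * lg n ^ a ≤ lg n ^ b := by
  filter_upwards [eventually_le_lg (max C 1)] with n hn
  have h1 : 1 ≤ lg n := (le_max_right _ _).trans hn
  calc C * lg n ^ a ≤ lg n * lg n ^ a := by
        gcongr; exact (le_max_left _ _).trans hn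
    _ = lg n ^ (a + 1) := by ring
    _ ≤ lg n ^ b := pow_le_pow_right₀ h1 h

lemma eventually_le_mHi (c : ℝ) : ∀ᶠ n : ℕ in atTop, c ≤ mHi n := by
  filter_upwards [eventually_le_lg (max c 1)] with n hn
  exact ((le_max_left _ _).trans hn).trans
    (le_self_pow₀ ((le_max_right _ _).trans hn) (by norm_num))

lemma eventually_le_mLo (c : ℝ) : ∀ᶠ n : ℕ in atTop, c ≤ mLo n := by
  filter_upwards [eventually_le_lg (max c 1)] with n hn
  exact ((le_max_left _ _).trans hn).trans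
    (le_self_pow₀ ((le_max_right _ _).trans hn) (by norm_num))

lemma eventually_mHi_pow_le (C : ℝ) (a : ℕ) {ε : ℝ} (hε : 0 < ε) :
    ∀ᶠ n : ℕ in atTop, C * mHi n ^ a ≤ (n : ℝ) ^ ε := by
  filter_upwards [eventually_mul_lg_pow_le C (2000 * a) hε] with n hn
  rwa [mHi, ← pow_mul]

lemma even_rad (n : ℕ) : Even (rad n) := even_two_mul _

lemma le_rad (n : ℕ) : 2 * Real.log (lg n) ^ 4 ≤ rad n := by
  rw [rad]; push_cast
  linarith [Nat.le_ceil (Real.log (lg n) ^ 4)]

lemma eventually_rad_le : ∀ᶠ n : ℕ in atTop, (rad n : ℝ) ≤ 3 * Real.log (lg n) ^ 4 := by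
  filter_upwards [(Real.tendsto_log_atTop.comp tendsto_lg).eventually_ge_atTop 2] with n hn
  have h2 : (2 : ℝ) ≤ Real.log (lg n) := hn
  have := pow_le_pow_left₀ (by norm_num) h2 4
  rw [rad]; push_cast
  linarith [Nat.ceil_lt_add_one (show 0 ≤ Real.log (lg n) ^ 4 by positivity)]

/-- The factorial decay at depth at least `rad n`. -/
lemma eventually_series_le (C : ℝ) (a : ℕ) :
    ∀ᶠ n : ℕ in atTop, ∀ j, rad n ≤ j →
      (C * Real.log (lg n)) ^ j / (j.factorial : ℝ) ≤ 1 / lg n ^ a := by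
  filter_upwards [(Real.tendsto_log_atTop.comp tendsto_lg).eventually_ge_atTop
      (max (max (Real.exp 2 * |C|) (a : ℝ)) 1), eventually_le_lg 1] with n hn hlg j hj
  simp only [Function.comp_apply, max_le_iff] at hn
  obtain ⟨⟨h1, h2⟩, h3⟩ := hn
  set l := Real.log (lg n)
  have hj' : 2 * l ^ 4 ≤ j := (le_rad n).trans (by exact_mod_cast hj)
  have hl4 : l * l ≤ l ^ 4 := by
    calc l * l = l ^ 2 := (sq l).symm
      _ ≤ l ^ 4 := pow_le_pow_right₀ h3 (by norm_num)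
  have hla : (a : ℝ) * l ≤ l * l := mul_le_mul_of_nonneg_right h2 (by linarith)
  have hlC : Real.exp 2 * |C| * l ≤ l * l := mul_le_mul_of_nonneg_right h1 (by linarith)
  have hjpos : (0 : ℝ) < j := by nlinarith
  have key : Real.exp 2 * |C * l| ≤ j := by
    rw [abs_mul, abs_of_nonneg (by linarith : (0 : ℝ) ≤ l), ← mul_assoc]; nlinarith
  have hsum : (j : ℝ) ^ j / (j.factorial : ℝ) ≤ Real.exp j :=
    Real.pow_div_factorial_le_exp _ hjpos.le j
  calc (C * l) ^ j / (j.factorial : ℝ) ≤ |C * l| ^ j / (j.factorial : ℝ) := by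
        exact div_le_div_of_nonneg_right ((le_abs_self _).trans_eq (abs_pow _ _)) (by positivity)
    _ ≤ (Real.exp (-2) * j) ^ j / (j.factorial : ℝ) := by
        gcongr
        rw [Real.exp_neg, ← div_eq_inv_mul, le_div_iff₀ (Real.exp_pos 2), mul_comm]; exact key
    _ = Real.exp (-2) ^ j * ((j : ℝ) ^ j / (j.factorial : ℝ)) := by rw [mul_pow]; ring
    _ ≤ Real.exp (-2) ^ j * Real.exp j := by gcongr
    _ = Real.exp (-(j : ℝ)) := by rw [← Real.exp_nat_mul, ← Real.exp_add]; ring_nf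
    _ ≤ 1 / lg n ^ a := by
        rw [one_div, ← Real.exp_log (show 0 < lg n ^ a by positivity), ← Real.exp_neg,
          Real.exp_le_exp, Real.log_pow]
        nlinarith

/-- Balls of radius `rad n` contain `n^(o(1))` edges. -/
lemma eventually_mHi_pow_rad_le (C : ℝ) (D : ℕ) {ε : ℝ} (hε : 0 < ε) :
    ∀ᶠ n : ℕ in atTop, (C * mHi n) ^ (D * rad n + D) ≤ (n : ℝ) ^ ε := by
  have h5 := ((isLittleO_log_rpow_rpow_atTop 5 one_pos).const_mul_left
    (4 * (D : ℝ) * 2001)).bound hε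
  filter_upwards [eventually_rad_le, eventually_le_lg (max |C| 1),
    (Real.tendsto_log_atTop.comp tendsto_lg).eventually_ge_atTop 1,
    tendsto_lg.eventually h5, eventually_gt_atTop 0] with n hr hlg hl hb hn
  rw [max_le_iff] at hlg
  replace hl : (1 : ℝ) ≤ Real.log (lg n) := hl
  set l := Real.log (lg n) with hldef
  rw [show (5 : ℝ) = ((5 : ℕ) : ℝ) by norm_num, Real.rpow_natCast, Real.rpow_one,
    Real.norm_eq_abs, Real.norm_eq_abs, abs_of_nonneg (lg_nonneg n),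
    abs_of_nonneg (by positivity)] at hb
  have hpos : 0 < lg n := by linarith
  have hn' : (0 : ℝ) < n := by exact_mod_cast hn
  calc (C * mHi n) ^ (D * rad n + D) ≤ (lg n ^ 2001) ^ (D * rad n + D) := by
        refine (le_abs_self _).trans ?_
        rw [abs_pow]
        refine pow_le_pow_left₀ (abs_nonneg _) ?_ _
        rw [abs_mul, abs_of_nonneg (show 0 ≤ mHi n by unfold mHi; positivity), mHi,
          show lg n ^ 2001 = lg n * lg n ^ 2000 by ring]
        exact mul_le_mul_of_nonneg_right hlg.1 (by positivity)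
    _ = Real.exp (((2001 * (D * rad n + D) : ℕ) : ℝ) * l) := by
        rw [← pow_mul, Real.exp_nat_mul, Real.exp_log hpos]
    _ ≤ (n : ℝ) ^ ε := by
        rw [Real.rpow_def_of_pos hn', Real.exp_le_exp]
        push_cast
        have h4 : (1 : ℝ) ≤ l ^ 4 := one_le_pow₀ hl
        have h4' : (D : ℝ) * rad n + D ≤ 4 * D * l ^ 4 := by
          have := mul_le_mul_of_nonneg_left hr (Nat.cast_nonneg D (α := ℝ))
          have := mul_le_mul_of_nonneg_left h4 (Nat.cast_nonneg D (α := ℝ))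
          linarith
        have := mul_le_mul_of_nonneg_right h4' (by linarith : (0 : ℝ) ≤ l)
        have hL : Real.log n = lg n := rfl
        rw [hL]
        nlinarith

/-! ## The grid -/

/-- The edges left after `k` steps. -/
lemma left_pos (h : 3 * k < E) : (0 : ℝ) < (E : ℝ) - 3 * k := by
  have : ((3 * k : ℕ) : ℝ) < E := by exact_mod_cast h
  push_cast at this; linarith

lemma phi_zero (h : 0 < E) : phi E 0 = 1 := by
  have : (E : ℝ) ≠ 0 := by exact_mod_cast h.ne'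
  simp [phi, this]

lemma phi_pos (h : 3 * k < E) : 0 < phi E k :=
  div_pos (left_pos h) (by exact_mod_cast (by omega : 0 < E))

lemma phi_le_one (E k : ℕ) : phi E k ≤ 1 :=
  div_le_one_of_le₀ (by linarith [(Nat.cast_nonneg k : (0 : ℝ) ≤ k)]) (Nat.cast_nonneg E)

lemma phi_anti {i : ℕ} (h : i ≤ k) : phi E k ≤ phi E i := by
  have : (i : ℝ) ≤ k := by exact_mod_cast h
  unfold phi; gcongr

lemma card_mul_phi (h : 0 < E) : (E : ℝ) * phi E k = (E : ℝ) - 3 * k := by
  have : (E : ℝ) ≠ 0 := by exact_mod_cast h.ne'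
  rw [phi]; field_simp

lemma stp_pos (h : 3 * (k + 1) < E) : 0 < stp E k := by
  have := left_pos h; push_cast at this
  unfold stp; positivity

lemma phi_succ_mul (h : 3 * (k + 1) < E) : phi E (k + 1) * (1 + stp E k) = phi E k := by
  have h1 := left_pos h
  have hE : (E : ℝ) ≠ 0 := by exact_mod_cast (by omega : E ≠ 0)
  push_cast at h1
  unfold phi stp; push_cast
  field_simp
  ring

lemma mI_target (n : ℕ) (h : 0 < E) :
    mI n ((E : ℝ) - 3 * k) = mI n E * phi E k ^ 2 := by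
  rw [← card_mul_phi h, mI, mI]; ring

lemma mI_nonneg (n : ℕ) (x : ℝ) : 0 ≤ mI n x := by unfold mI; positivity

lemma xt_zero (n : ℕ) (h : 0 < E) : xt n E 0 = 0 := by simp [xt, phi_zero h]

lemma xt_mono (n : ℕ) {i : ℕ} (hik : i ≤ k) (h : 3 * k < E) : xt n E i ≤ xt n E k := by
  have hk := phi_pos h
  have hm := mI_nonneg n E
  have := inv_anti₀ hk (phi_anti (E := E) hik)
  have hi : 0 < phi E i := phi_pos (by omega)
  unfold xt; gcongr

lemma xt_nonneg (n : ℕ) (h : 3 * k < E) : 0 ≤ xt n E k := by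
  simpa [xt_zero n (by omega : 0 < E)] using xt_mono n (Nat.zero_le k) h

lemma hst_nonneg (n : ℕ) (h : 3 * (k + 1) < E) : 0 ≤ hst n E k :=
  sub_nonneg.2 (xt_mono n (Nat.le_succ k) h)

/-- The exact time increment of a step. -/
lemma hst_eq (n : ℕ) (h : 3 * (k + 1) < E) :
    hst n E k = (stp E k + stp E k ^ 2 / 2) / (mI n E * phi E k ^ 2) := by
  have h1 := phi_succ_mul h
  have hp : phi E (k + 1) ≠ 0 := (phi_pos h).ne'
  have hpos : 0 < 1 + stp E k := by linarith [stp_pos h]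
  rcases eq_or_ne (mI n (E : ℝ)) 0 with hm | hm
  · simp [hst, xt, hm]
  rw [hst, xt, xt, ← h1]
  field_simp
  ring

lemma nGrid_spec (n : ℕ) (h : 0 < E) :
    3 * nGrid n E < E ∧ xt n E (nGrid n E) ≤ 1 :=
  Nat.findGreatest_spec (P := fun k => 3 * k < E ∧ xt n E k ≤ 1) (Nat.zero_le E)
    ⟨h, by rw [xt_zero n h]; norm_num⟩

lemma three_mul_lt (n : ℕ) (h : 0 < E) (hk : k ≤ nGrid n E) : 3 * k < E := by
  have := (nGrid_spec n h).1; omega

lemma xt_le_one (n : ℕ) (h : 0 < E) (hk : k ≤ nGrid n E) : xt n E k ≤ 1 :=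
  (xt_mono n hk (nGrid_spec n h).1).trans (nGrid_spec n h).2

lemma le_nGrid (hk : 3 * k < E) (hx : xt n E k ≤ 1) : k ≤ nGrid n E :=
  Nat.le_findGreatest (by omega) ⟨hk, hx⟩

lemma one_lt_xt (hk : 3 * k < E) (hK : nGrid n E < k) : 1 < xt n E k :=
  not_le.1 fun hx => absurd (le_nGrid hk hx) (by omega)

/-- Every step with target codegree at least one half is in the grid. -/
lemma le_nGrid_of_target (hk : 3 * k < E) (hm : 1 / 2 ≤ mI n ((E : ℝ) - 3 * k)) :
    k ≤ nGrid n E := by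
  refine le_nGrid hk ?_
  rw [mI_target n (by omega)] at hm
  have hp := phi_pos hk
  have hmE : 0 < mI n (E : ℝ) := pos_of_mul_pos_left (by linarith) (sq_nonneg _)
  rw [xt, div_le_one (by positivity), inv_pow, sub_le_iff_le_add]
  refine inv_le_of_inv_le₀ (by positivity) ?_
  rw [inv_le_iff_one_le_mul₀ (by positivity)]
  nlinarith [sq_nonneg (phi E k)]

lemma sum_hst (n : ℕ) (h : 0 < E) (k : ℕ) : ∑ i ∈ range k, hst n E i = xt n E k := by
  have := Finset.sum_range_sub (xt n E) k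
  rw [xt_zero n h, sub_zero] at this
  exact this

lemma wGrid_nonneg (n : ℕ) (h : 0 < E) (i : ℕ) : 0 ≤ wGrid n E i := by
  unfold wGrid
  split_ifs with h1 h2
  · exact hst_nonneg n (three_mul_lt n h h1)
  · linarith [xt_le_one n h h2.le]
  · rfl

lemma sum_wGrid (n : ℕ) (h : 0 < E) {c : ℕ} (hc : c ≤ nGrid n E) :
    ∑ i ∈ range c, wGrid n E i = xt n E c := by
  rw [← sum_hst n h c]
  refine Finset.sum_congr rfl fun i hi => ?_
  rw [wGrid, if_pos (lt_of_lt_of_le (Finset.mem_range.1 hi) hc)]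

lemma sum_wGrid_succ (n : ℕ) (h : 0 < E) {c : ℕ} (hc : nGrid n E < c) :
    ∑ i ∈ range c, wGrid n E i = 1 := by
  rw [← Finset.sum_range_add_sum_Ico _ (Nat.succ_le_of_lt hc), Finset.sum_range_succ,
    sum_wGrid n h le_rfl, Finset.sum_eq_zero fun i hi => ?_]
  · simp [wGrid]
  · have := (Finset.mem_Ico.1 hi).1
    rw [wGrid, if_neg (by omega), if_neg (by omega)]

lemma sum_wGrid_le_one (n : ℕ) (h : 0 < E) (c : ℕ) : ∑ i ∈ range c, wGrid n E i ≤ 1 := by
  rcases le_or_gt c (nGrid n E) with hc | hc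
  · rw [sum_wGrid n h hc]; exact xt_le_one n h hc
  · rw [sum_wGrid_succ n h hc]

/-- The product of the step factors. -/
lemma prod_one_add_stp (h : 3 * k < E) :
    ∏ i ∈ range k, (1 + stp E i) = (E : ℝ) / ((E : ℝ) - 3 * k) := by
  induction k with
  | zero =>
    have : (E : ℝ) ≠ 0 := by exact_mod_cast (by omega : E ≠ 0)
    simp [this]
  | succ k ih =>
    rw [Finset.prod_range_succ, ih (by omega), stp]
    have h1 := left_pos h
    have h2 := left_pos (show 3 * k < E by omega)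
    push_cast at h1 ⊢
    field_simp
    ring

/-- The squares of the steps sum to at most `9` over the edges left. -/
lemma sum_stp_sq_le (h : 3 * k + 3 ≤ E) :
    ∑ i ∈ range k, stp E i ^ 2 ≤ 9 / ((E : ℝ) - 3 * k) := by
  have hJ : ∀ i ≤ k, (3 : ℝ) ≤ (E : ℝ) - 3 * i := fun i hi => by
    have : ((3 * i + 3 : ℕ) : ℝ) ≤ E := by exact_mod_cast (by omega : 3 * i + 3 ≤ E)
    push_cast at this; linarith
  have step : ∀ i, i + 1 ≤ k →
      stp E i ^ 2 ≤ 6 / ((E : ℝ) - 3 * (i + 1 : ℕ)) - 6 / ((E : ℝ) - 3 * i) := by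
    intro i hi
    have h1 := hJ (i + 1) hi
    have h2 := hJ i (by omega)
    unfold stp
    push_cast at h1 ⊢
    rw [div_sub_div _ _ (by linarith : (E : ℝ) - 3 * (↑i + 1) ≠ 0) (by linarith), div_pow,
      div_le_div_iff₀ (by positivity) (by positivity)]
    nlinarith [mul_pos (by linarith : (0 : ℝ) < (E : ℝ) - 3 * (↑i + 1))
      (by linarith : (0 : ℝ) < (E : ℝ) - 3 * (↑i + 1))]
  have hk := hJ k le_rfl
  calc ∑ i ∈ range k, stp E i ^ 2
      ≤ ∑ i ∈ range k, (6 / ((E : ℝ) - 3 * (i + 1 : ℕ)) - 6 / ((E : ℝ) - 3 * i)) :=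
        Finset.sum_le_sum fun i hi => step i (Finset.mem_range.1 hi)
    _ = 6 / ((E : ℝ) - 3 * k) - 6 / ((E : ℝ) - 3 * (0 : ℕ)) :=
        Finset.sum_range_sub (fun i : ℕ => 6 / ((E : ℝ) - 3 * i)) k
    _ ≤ 9 / ((E : ℝ) - 3 * k) := by
        have : 6 / ((E : ℝ) - 3 * k) ≤ 9 / ((E : ℝ) - 3 * k) := by gcongr; norm_num
        have : 0 ≤ 6 / ((E : ℝ) - 3 * (0 : ℕ)) := by simp; positivity
        linarith

/-- The steps sum to the logarithm of the shrinking factor. -/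
lemma sum_stp_le (h : 3 * k + 3 ≤ E) :
    ∑ i ∈ range k, stp E i ≤
      Real.log ((E : ℝ) / ((E : ℝ) - 3 * k)) + 9 / ((E : ℝ) - 3 * k) := by
  have hpos : ∀ i ∈ range k, 0 < stp E i := fun i hi =>
    stp_pos (by have := Finset.mem_range.1 hi; omega)
  have key : ∀ i ∈ range k, stp E i - stp E i ^ 2 ≤ Real.log (1 + stp E i) := fun i hi => by
    have a := hpos i hi
    refine le_trans ?_ (Real.one_sub_inv_le_log_of_pos (by linarith))
    rw [show 1 - (1 + stp E i)⁻¹ = stp E i / (1 + stp E i) by field_simp; ring,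
      le_div_iff₀ (by linarith)]
    nlinarith [pow_pos a 3]
  have h1 := Finset.sum_le_sum key
  rw [Finset.sum_sub_distrib, ← Real.log_prod fun i hi => (show 1 + stp E i ≠ 0 by
    linarith [hpos i hi]), prod_one_add_stp (by omega)] at h1
  linarith [sum_stp_sq_le h]

/-- Before time one the edges left are at least `E / √(2m+1)`. -/
lemma sq_le_left (hm : 0 < mI n (E : ℝ)) (hk : k ≤ nGrid n E) :
    (E : ℝ) ^ 2 ≤ (2 * mI n E + 1) * ((E : ℝ) - 3 * k) ^ 2 := by
  have hE : 0 < E := by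
    by_contra h0
    simp [show E = 0 by omega, mI] at hm
  have hp := phi_pos (three_mul_lt n hE hk)
  have h := xt_le_one n hE hk
  rw [xt, div_le_one (by positivity), inv_pow, sub_le_iff_le_add,
    inv_le_iff_one_le_mul₀ (by positivity)] at h
  rw [← card_mul_phi hE]
  nlinarith [sq_nonneg (E : ℝ)]

/-- The grid stops well before the edges run out. -/
lemma nGrid_room (hm : 0 < mI n (E : ℝ)) (hbig : 81 * (2 * mI n E + 1) < (E : ℝ) ^ 2)
    (hk : k ≤ nGrid n E) : 3 * k + 9 < E := by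
  have hE : 0 < E := by
    by_contra h0
    simp [show E = 0 by omega, mI] at hm
  have h3 := three_mul_lt n hE hk
  by_contra hcon
  have h9 : (E : ℝ) - 3 * k ≤ 9 := by
    have : (E : ℝ) ≤ ((3 * k + 9 : ℕ) : ℝ) := by exact_mod_cast (by omega : E ≤ 3 * k + 9)
    push_cast at this; linarith
  have := sq_le_left hm hk
  have := pow_le_pow_left₀ (left_pos h3).le h9 2
  nlinarith

/-- One step after the last the time exceeds one. -/
lemma left_sq_lt (hm : 0 < mI n (E : ℝ)) (hbig : 81 * (2 * mI n E + 1) < (E : ℝ) ^ 2) :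
    (2 * mI n E + 1) * ((E : ℝ) - 3 * nGrid n E - 3) ^ 2 < (E : ℝ) ^ 2 := by
  have hr := nGrid_room hm hbig le_rfl
  set K := nGrid n E with hK
  have h1 : 1 < xt n E (K + 1) := one_lt_xt (by omega) (by omega)
  have hp := phi_pos (show 3 * (K + 1) < E by omega)
  rw [xt, one_lt_div (by positivity), inv_pow, lt_sub_iff_add_lt,
    lt_inv_comm₀ (by positivity) (by positivity)] at h1
  have e := card_mul_phi (k := K + 1) (show 0 < E by omega)
  push_cast at e
  rw [show (E : ℝ) - 3 * K - 3 = (E : ℝ) * phi E (K + 1) by linarith]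
  have h2 := mul_lt_mul_of_pos_left h1 (show 0 < 2 * mI n (E : ℝ) + 1 by positivity)
  rw [mul_inv_cancel₀ (by positivity)] at h2
  have hE2 : (0 : ℝ) < (E : ℝ) ^ 2 := by
    have : (0 : ℝ) < E := by exact_mod_cast (by omega : 0 < E)
    positivity
  nlinarith [mul_lt_mul_of_pos_left h2 hE2]

lemma hst_le (hm : 16 ≤ mI n (E : ℝ)) (hbig : 81 * (2 * mI n E + 1) < (E : ℝ) ^ 2)
    (hk : k ≤ nGrid n E) :
    hst n E k ≤ 12 * (2 * mI n E + 1) ^ 2 / (mI n E * E) := by
  have hr := nGrid_room (by linarith) hbig hk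
  have hE : (0 : ℝ) < E := by exact_mod_cast (by omega : 0 < E)
  have h := sq_le_left (by linarith) hk
  have hJ : (9 : ℝ) ≤ (E : ℝ) - 3 * k := by
    have : ((3 * k + 9 : ℕ) : ℝ) ≤ E := by exact_mod_cast (by omega : 3 * k + 9 ≤ E)
    push_cast at this; linarith
  set m := mI n (E : ℝ)
  set J := (E : ℝ) - 3 * k with hJdef
  rw [hst_eq n (by omega)]
  have hEJ : (E : ℝ) ≤ (2 * m + 1) * J := by
    refine (pow_le_pow_iff_left₀ hE.le (by nlinarith) two_ne_zero).1 (h.trans ?_)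
    rw [mul_pow]
    exact mul_le_mul_of_nonneg_right (by nlinarith) (sq_nonneg J)
  have hphi : 1 ≤ (2 * m + 1) * phi E k ^ 2 := by
    rw [phi, div_pow, ← mul_div_assoc, one_le_div (by positivity)]; exact h
  have ha : stp E k ≤ 6 * (2 * m + 1) / E := by
    rw [stp, show (E : ℝ) - 3 * (k + 1) = J - 3 by rw [hJdef]; ring,
      div_le_div_iff₀ (by linarith) hE]
    nlinarith
  have ha0 := stp_pos (show 3 * (k + 1) < E by omega)
  have ha1 : stp E k ≤ 1 := by
    rw [stp, div_le_one (by linarith)]; linarith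
  have hphi0 := phi_pos (show 3 * k < E by omega)
  rw [div_le_div_iff₀ (by positivity) (by positivity)]
  rw [le_div_iff₀ hE] at ha
  calc (stp E k + stp E k ^ 2 / 2) * (m * E) ≤ 2 * (stp E k * E) * m := by
        nlinarith [mul_nonneg (mul_nonneg ha0.le (sub_nonneg.2 ha1))
          (show 0 ≤ m * (E : ℝ) by positivity), mul_pos ha0 (show 0 < m * (E : ℝ) by positivity)]
    _ ≤ 2 * (6 * (2 * m + 1)) * m * 1 := by rw [mul_one]; gcongr
    _ ≤ 2 * (6 * (2 * m + 1)) * m * ((2 * m + 1) * phi E k ^ 2) := by gcongr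
    _ = _ := by ring

/-! ## The stopping stage -/

/-- The end of the grid from its two defining inequalities. -/
lemma ends_of_sq {m Q J : ℝ} (hm : 0 < m) (hQ : 0 ≤ Q) (hJ : 3 ≤ J)
    (h1 : 2 * m * Q ^ 2 ≤ (2 * m + 1) * J ^ 2) (h2 : (2 * m + 1) * (J - 3) ^ 2 < 2 * m * Q ^ 2) :
    Q - Q / (2 * m) ≤ J ∧ J - 3 ≤ Q := by
  constructor
  · refine le_trans ?_ ((pow_le_pow_iff_left₀ (by positivity) (by linarith) two_ne_zero).1
      (show (2 * m * Q / (2 * m + 1)) ^ 2 ≤ J ^ 2 from ?_))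
    · rw [sub_le_iff_le_add, div_add_div _ _ (by positivity) (by positivity),
        le_div_iff₀ (by positivity)]
      nlinarith
    · rw [div_pow, div_le_iff₀ (by positivity)]
      nlinarith [mul_le_mul_of_nonneg_left h1 (show 0 ≤ 2 * m + 1 by linarith),
        mul_nonneg (show 0 ≤ 2 * m by linarith) (sq_nonneg Q)]
  · refine (pow_le_pow_iff_left₀ (by linarith) hQ two_ne_zero).1 ?_
    nlinarith [sq_nonneg Q]

/-- Numerical facts at the stopping stage. -/
structure StageFacts {n : ℕ} (G : Gr n) : Prop where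
  n_large : 100 ≤ (n : ℝ)
  lg_large : 100 ≤ lg n
  card_lt : G.card < n.choose 2
  card_lo : (n : ℝ) ^ (3 / 2 : ℝ) / 4 ≤ G.card
  card_hi : (G.card : ℝ) ≤ mHi n * (n : ℝ) ^ (3 / 2 : ℝ)
  mS_close : |mS G / mHi n - 1| ≤ 1 / n
  mS_big : 16 ≤ mS G
  big : 81 * (2 * mS G + 1) < (G.card : ℝ) ^ 2
  room : 3 * nGrid n G.card + 9 < G.card
  last : 1 - xt n G.card (nGrid n G.card) ≤ 3 * (2 * mHi n + 1) ^ 2 / G.card
  hst_small : ∀ k, k ≤ nGrid n G.card → hst n G.card k ≤ 3 * (2 * mHi n + 1) ^ 2 / G.card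
  phi_lb : ∀ k, k ≤ nGrid n G.card → 1 ≤ (2 * mS G + 1) * phi G.card k ^ 2
  target_lb : ∀ k, k ≤ nGrid n G.card → 1 / 3 ≤ mI n ((G.card : ℝ) - 3 * k)
  tau_le : ∀ k, k ≤ nGrid n G.card → ∑ i ∈ range k, stp G.card i ≤ 1001 * Real.log (lg n)
  pred_close : |pred G - (n : ℝ) ^ (3 / 2 : ℝ) / (2 * Real.sqrt 2)| ≤
    (n : ℝ) ^ (3 / 2 : ℝ) / lg n ^ 2
  pred_lo : (n : ℝ) ^ (3 / 2 : ℝ) / 4 ≤ pred G

/-- The numerical size of a state at the stopping stage. -/
lemma atStage_size {n : ℕ} (hn' : (1000 : ℝ) ≤ n) (hM : 10000 ≤ mHi n)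
    (hMn : 20 * mHi n ≤ (n : ℝ) ^ (1 / 4 : ℝ)) {G : Gr n} (hG : AtStage G) :
    |mS G / mHi n - 1| ≤ 1 / n ∧ mHi n / 2 ≤ mS G ∧ mS G ≤ 3 / 2 * mHi n ∧
      81 * (2 * mS G + 1) < (G.card : ℝ) ^ 2 ∧ (n : ℝ) ^ (3 / 2 : ℝ) / 4 ≤ G.card ∧
      (G.card : ℝ) ≤ mHi n * (n : ℝ) ^ (3 / 2 : ℝ) := by
  set M := mHi n with hMdef
  set N := (n : ℝ) ^ (3 / 2 : ℝ) with hN
  have hN0 : 0 < N := by positivity
  have hN2 : N ^ 2 = (n : ℝ) ^ 3 := by
    rw [hN, ← Real.rpow_natCast, ← Real.rpow_mul (by positivity), ← Real.rpow_natCast]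
    norm_num
  have hNn : (n : ℝ) * 30 ≤ N := by
    refine (pow_le_pow_iff_left₀ (by positivity) hN0.le two_ne_zero).1 ?_
    rw [hN2]; nlinarith [sq_nonneg (n : ℝ)]
  have hn14 : (n : ℝ) ^ (1 / 4 : ℝ) ≤ n := by
    simpa using Real.rpow_le_rpow_of_exponent_le (by linarith : (1 : ℝ) ≤ n)
      (show (1 / 4 : ℝ) ≤ 1 by norm_num)
  have hMn' : 20 * M ≤ n := hMn.trans hn14
  set S := Real.sqrt (M * (n : ℝ) ^ 3) / 2 with hS
  have hS2 : S ^ 2 = M * (n : ℝ) ^ 3 / 4 := by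
    rw [hS, div_pow, Real.sq_sqrt (by positivity)]; norm_num
  have hS0 : 0 ≤ S := by positivity
  have hSlo : 50 * N ≤ S := by
    refine (pow_le_pow_iff_left₀ (by positivity) hS0 two_ne_zero).1 ?_
    rw [mul_pow, hN2, hS2]
    nlinarith [mul_le_mul_of_nonneg_right hM (show 0 ≤ (n : ℝ) ^ 3 by positivity)]
  have hShi : S ≤ M * N / 2 := by
    refine (pow_le_pow_iff_left₀ hS0 (by positivity) two_ne_zero).1 ?_
    rw [hS2, div_pow, mul_pow, hN2]
    nlinarith [mul_le_mul_of_nonneg_right (show M ≤ M ^ 2 by nlinarith)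
      (show 0 ≤ (n : ℝ) ^ 3 by positivity)]
  have he : eHi n = ⌈S⌉₊ := rfl
  have h1 : S ≤ (eHi n : ℝ) := by rw [he]; exact Nat.le_ceil S
  have h2 : (eHi n : ℝ) < S + 1 := by rw [he]; exact Nat.ceil_lt_add_one hS0
  have h3 : (G.card : ℝ) ≤ eHi n := by exact_mod_cast hG.le
  have h4 : (eHi n : ℝ) + 1 ≤ G.card + 3 := by exact_mod_cast hG.gt
  set e := (G.card : ℝ) with he'
  have hd : |e - S| ≤ 2 := abs_le.2 ⟨by linarith, by linarith⟩
  have hm : mS G = 4 * e ^ 2 / (n : ℝ) ^ 3 := rfl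
  have hmM : mS G / M = e ^ 2 / S ^ 2 := by
    rw [hm, hS2]; field_simp
  have hclose : |mS G / M - 1| ≤ 1 / n := by
    rw [hmM, div_sub_one (by positivity), abs_div, abs_of_nonneg (sq_nonneg S), sq_sub_sq,
      abs_mul, div_le_div_iff₀ (by positivity) (by positivity)]
    have h5 : |e + S| ≤ 3 * S := by
      rw [abs_le]; obtain ⟨a, b⟩ := abs_le.1 hd; exact ⟨by linarith, by linarith⟩
    have := mul_le_mul h5 hd (abs_nonneg _) (by positivity)
    nlinarith
  obtain ⟨c1, c2⟩ := abs_le.1 hclose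
  have hn1 : 1 / (n : ℝ) ≤ 1 / 2 := by gcongr; linarith
  have hmlo : M / 2 ≤ mS G := by
    have : (1 : ℝ) / 2 ≤ mS G / M := by linarith
    rw [le_div_iff₀ (by linarith)] at this; linarith
  have hmhi : mS G ≤ 3 / 2 * M := by
    have : mS G / M ≤ 3 / 2 := by linarith
    rwa [div_le_iff₀ (by linarith)] at this
  have hbig : 81 * (2 * mS G + 1) < e ^ 2 := by
    have : 40 * (n : ℝ) ≤ e := by obtain ⟨a, b⟩ := abs_le.1 hd; linarith
    have := pow_le_pow_left₀ (by positivity) this 2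
    nlinarith
  obtain ⟨d1, d2⟩ := abs_le.1 hd
  exact ⟨hclose, hmlo, hmhi, hbig, by linarith, by nlinarith⟩

lemma hst_bound_num {m M e : ℝ} (he : 0 < e) (hm : 16 ≤ m) (h : m ≤ 3 / 2 * M) :
    12 * (2 * m + 1) ^ 2 / (m * e) ≤ 3 * (2 * M + 1) ^ 2 / e := by
  rw [div_le_div_iff₀ (by positivity) he]
  have h6 : (2 * m + 1) ^ 2 ≤ 4 * (2 * M + 1) ^ 2 := by
    rw [show (4 : ℝ) * (2 * M + 1) ^ 2 = (2 * (2 * M + 1)) ^ 2 by ring]
    gcongr; linarith
  have h7 : 12 * (4 * (2 * M + 1) ^ 2) ≤ 3 * (2 * M + 1) ^ 2 * m := by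
    nlinarith [sq_nonneg (2 * M + 1)]
  have h8 : 12 * (2 * m + 1) ^ 2 ≤ 3 * (2 * M + 1) ^ 2 * m := by linarith
  linarith [mul_le_mul_of_nonneg_right h8 he.le]

/-- The predicted count at a state with the size of the stopping stage. -/
lemma pred_close_num {n : ℕ} {G : Gr n} (hn : (0 : ℝ) < n) (hm : 4 ≤ mS G)
    (hbig : 81 * (2 * mS G + 1) < (G.card : ℝ) ^ 2) {B : ℝ} (hB : 3 ≤ B)
    (hmB : (n : ℝ) ^ (3 / 2 : ℝ) / (2 * mS G) ≤ B)
    (hNn : 3000 ≤ (n : ℝ) ^ (3 / 2 : ℝ)) :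
    |pred G - (n : ℝ) ^ (3 / 2 : ℝ) / (2 * Real.sqrt 2)| ≤ B ∧
      (n : ℝ) ^ (3 / 2 : ℝ) / 4 ≤ pred G := by
  have hmpos : 0 < mI n (G.card : ℝ) := by change 0 < mS G; linarith
  have hroom := nGrid_room hmpos hbig (le_refl _)
  have hE : 0 < G.card := by omega
  set N := (n : ℝ) ^ (3 / 2 : ℝ) with hN
  have hN0 : 0 < N := by positivity
  have hN2 : N ^ 2 = (n : ℝ) ^ 3 := by
    rw [hN, ← Real.rpow_natCast, ← Real.rpow_mul (by positivity), ← Real.rpow_natCast]
    norm_num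
  set e := (G.card : ℝ) with he'
  have hm' : mS G = 4 * e ^ 2 / (n : ℝ) ^ 3 := rfl
  set J := (G.card : ℝ) - 3 * nGrid n G.card with hJ
  have hpred : pred G = J := by rw [pred, card_mul_phi hE]
  have hJ9 : (9 : ℝ) ≤ J := by
    have : ((3 * nGrid n G.card + 9 : ℕ) : ℝ) ≤ (G.card : ℝ) := by exact_mod_cast hroom.le
    push_cast at this; rw [hJ]; linarith
  set Q := N / (2 * Real.sqrt 2) with hQ
  have hQ0 : 0 < Q := by positivity
  have hQ2 : e ^ 2 = 2 * mS G * Q ^ 2 := by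
    rw [hQ, div_pow, mul_pow, Real.sq_sqrt zero_le_two, hN2, hm']; field_simp; ring
  obtain ⟨hlow, hup⟩ := ends_of_sq (m := mS G) (Q := Q) (J := J) (by linarith) hQ0.le (by linarith)
    (by rw [← hQ2]; exact sq_le_left hmpos (le_refl _))
    (by rw [← hQ2]; exact left_sq_lt hmpos hbig)
  have hQN : Q ≤ N := div_le_self hN0.le (by
    nlinarith [Real.sqrt_nonneg 2, Real.sq_sqrt (zero_le_two : (0 : ℝ) ≤ 2)])
  have hQ3 : N / 3 ≤ Q := by
    have : Real.sqrt 2 ≤ 3 / 2 := Real.sqrt_le_iff.2 ⟨by norm_num, by norm_num⟩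
    rw [hQ]; gcongr; linarith
  have a1 : Q / (2 * mS G) ≤ N / (2 * mS G) := by gcongr
  have a2 : Q / (2 * mS G) ≤ Q / 8 :=
    div_le_div_of_nonneg_left hQ0.le (by norm_num) (by linarith)
  rw [hpred]
  exact ⟨abs_le.2 ⟨by linarith, by linarith⟩, by linarith⟩

lemma tau_le_of_size {n k : ℕ} {G : Gr n} (hm : 0 < mS G)
    (hmhi : mS G ≤ 3 / 2 * mHi n) (hlg : 100 ≤ lg n) (hM : 1 ≤ mHi n)
    (hbig : 81 * (2 * mS G + 1) < (G.card : ℝ) ^ 2) (hk : k ≤ nGrid n G.card) :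
    ∑ i ∈ range k, stp G.card i ≤ 1001 * Real.log (lg n) := by
  have hmpos : 0 < mI n (G.card : ℝ) := hm
  set M := mHi n with hMdef
  set e := (G.card : ℝ) with he'
  have hr := nGrid_room hmpos hbig hk
  refine (sum_stp_le (by omega)).trans ?_
  have h9 : (9 : ℝ) ≤ e - 3 * k := by
    have : ((3 * k + 9 : ℕ) : ℝ) ≤ e := by rw [he']; exact_mod_cast hr.le
    push_cast at this; linarith
  have a1 : 9 / (e - 3 * k) ≤ 1 := (div_le_one (by linarith)).2 h9
  have a2 : (e / (e - 3 * k)) ^ 2 ≤ lg n ^ 2001 := by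
    rw [div_pow, div_le_iff₀ (by positivity)]
    refine (sq_le_left hmpos hk).trans ?_
    change (2 * mS G + 1) * _ ≤ _
    gcongr
    have : M * 4 ≤ M * lg n := by gcongr; linarith
    rw [pow_succ]; change 2 * mS G + 1 ≤ M * lg n
    linarith
  have a3 := Real.log_le_log
    (pow_pos (div_pos (by rw [he']; exact_mod_cast (by omega : 0 < G.card)) (by linarith)) 2) a2
  rw [Real.log_pow, Real.log_pow] at a3
  have a4 : 2 ≤ Real.log (lg n) := by
    rw [Real.le_log_iff_exp_le (by linarith), show (2 : ℝ) = 1 + 1 by norm_num, Real.exp_add]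
    nlinarith [Real.exp_one_lt_d9, Real.exp_pos 1]
  push_cast at a3
  linarith

lemma eventually_stageFacts : ∀ᶠ n : ℕ in atTop, ∀ G : Gr n, AtStage G → StageFacts G := by
  filter_upwards [eventually_ge_atTop 1000, eventually_le_lg 100, eventually_le_mHi 10000,
    eventually_mul_lg_pow_le_pow 4 (show 2 < 2000 by norm_num),
    eventually_mul_lg_pow_le 6 2 (show (0 : ℝ) < 1 / 2 by norm_num),
    eventually_mHi_pow_le 20 1 (show (0 : ℝ) < 1 / 4 by norm_num)] with n hn hlg hM hM4 hlgn hMn G hG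
  have hn' : (1000 : ℝ) ≤ n := by exact_mod_cast hn
  rw [pow_one] at hMn
  obtain ⟨hclose, hmlo, hmhi, hbig, hlo, hhi⟩ := atStage_size hn' hM hMn hG
  have hmpos : 0 < mI n (G.card : ℝ) := by change 0 < mS G; linarith
  have hroom := nGrid_room hmpos hbig (le_refl _)
  have hE : 0 < G.card := by omega
  have hsmall : ∀ k, k ≤ nGrid n G.card →
      hst n G.card k ≤ 3 * (2 * mHi n + 1) ^ 2 / G.card := fun k hk =>
    (hst_le (by change (16 : ℝ) ≤ mS G; linarith) hbig hk).trans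
      (hst_bound_num (by exact_mod_cast hE) (by change (16 : ℝ) ≤ mS G; linarith)
        (by change mS G ≤ _; exact hmhi))
  have hphi : ∀ k, k ≤ nGrid n G.card → 1 ≤ (2 * mS G + 1) * phi G.card k ^ 2 := fun k hk => by
    rw [phi, div_pow, ← mul_div_assoc, one_le_div (by positivity)]
    exact sq_le_left hmpos hk
  set N := (n : ℝ) ^ (3 / 2 : ℝ) with hN
  have hnN : (n : ℝ) ^ (1 / 2 : ℝ) ≤ N :=
    Real.rpow_le_rpow_of_exponent_le (by linarith) (by norm_num)
  have hnN1 : (n : ℝ) ≤ N := by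
    simpa using Real.rpow_le_rpow_of_exponent_le (by linarith : (1 : ℝ) ≤ n)
      (show (1 : ℝ) ≤ 3 / 2 by norm_num)
  have hl : 0 < lg n ^ 2 := pow_pos (by linarith) 2
  have hB : 3 ≤ N / lg n ^ 2 := by rw [le_div_iff₀ hl]; linarith
  have hmB : N / (2 * mS G) ≤ N / lg n ^ 2 := by
    refine div_le_div_of_nonneg_left (by positivity) hl ?_
    change 4 * lg n ^ 2 ≤ mHi n at hM4; linarith
  obtain ⟨hp1, hp2⟩ := pred_close_num (by linarith) (by linarith) hbig hB hmB (by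
    have h1 : (3000 : ℝ) ≤ (n : ℝ) * 3 := by linarith
    refine h1.trans ?_
    have h2 : (3 : ℝ) ≤ (n : ℝ) ^ (1 / 2 : ℝ) := by nlinarith
    calc (n : ℝ) * 3 ≤ n * (n : ℝ) ^ (1 / 2 : ℝ) := by gcongr
      _ = N := by rw [hN, show (3 / 2 : ℝ) = 1 + 1 / 2 by norm_num,
          Real.rpow_add (by linarith), Real.rpow_one])
  refine ⟨by linarith, hlg, ?_, hlo, hhi, hclose, by linarith, hbig, hroom, ?_, hsmall, hphi,
    fun k hk => ?_, fun k hk => tau_le_of_size (by linarith) hmhi hlg (by linarith) hbig hk,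
    hp1, hp2⟩
  · have : (G.card : ℝ) < (n.choose 2 : ℕ) := by
      rw [Nat.cast_choose_two]
      have hn2 : N * (n : ℝ) ^ (1 / 4 : ℝ) ≤ (n : ℝ) ^ 2 := by
        rw [hN, ← Real.rpow_add (by linarith), ← Real.rpow_natCast _ 2]
        exact Real.rpow_le_rpow_of_exponent_le (by linarith) (by norm_num)
      have h3 : N * (20 * mHi n) ≤ (n : ℝ) ^ 2 :=
        (mul_le_mul_of_nonneg_left hMn (by positivity)).trans hn2
      have : (n : ℝ) * 1000 ≤ (n : ℝ) ^ 2 := by rw [sq]; gcongr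
      linarith
    exact_mod_cast this
  · have h := one_lt_xt (n := n) (E := G.card) (k := nGrid n G.card + 1) (by omega) (by omega)
    have := hsmall _ (le_refl (nGrid n G.card))
    rw [hst] at this
    linarith
  · rw [mI_target n hE]
    change 1 / 3 ≤ mS G * _
    have := hphi k hk
    nlinarith [phi_le_one G.card k, sq_nonneg (phi G.card k)]

/-- The stopping stage is strictly below the complete graph. -/
lemma eventually_eHi_lt_choose : ∀ᶠ n : ℕ in atTop, eHi n < n.choose 2 := by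
  filter_upwards [eventually_ge_atTop 1000,
    eventually_mHi_pow_le 20 1 (show (0 : ℝ) < 1 / 4 by norm_num),
    eventually_le_mHi 10000] with n hn hMn hM
  rw [pow_one] at hMn
  have hn' : (1000 : ℝ) ≤ n := by exact_mod_cast hn
  have hsq : Real.sqrt (mHi n * (n : ℝ) ^ 3) / 2 ≤ (n : ℝ) ^ 2 / 8 := by
    have hn14 : (n : ℝ) ^ (1 / 4 : ℝ) ≤ n := by
      simpa using Real.rpow_le_rpow_of_exponent_le (by linarith : (1 : ℝ) ≤ n)
        (show (1 / 4 : ℝ) ≤ 1 by norm_num)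
    have h1 : mHi n * (n : ℝ) ^ 3 ≤ ((n : ℝ) ^ 2 / 4) ^ 2 := by
      have := mul_le_mul_of_nonneg_right (hMn.trans hn14) (show 0 ≤ (n : ℝ) ^ 3 by positivity)
      nlinarith [pow_nonneg (show (0 : ℝ) ≤ n by positivity) 4]
    have := (Real.sqrt_le_sqrt h1).trans_eq (Real.sqrt_sq (by positivity))
    linarith
  have h2 : (eHi n : ℝ) < (n.choose 2 : ℕ) := by
    have := Nat.ceil_lt_add_one (show 0 ≤ Real.sqrt (mHi n * (n : ℝ) ^ 3) / 2 by positivity)
    rw [Nat.cast_choose_two]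
    have : (n : ℝ) * 1000 ≤ (n : ℝ) ^ 2 := by rw [sq]; gcongr
    rw [eHi]
    linarith
  exact_mod_cast h2

/-- The predicted count is `(1/(2√2)+o(1)) n^(3/2)`, uniformly at the stopping stage. -/
lemma eventually_pred {ε : ℝ} (hε : 0 < ε) : ∀ᶠ n : ℕ in atTop, ∀ G : Gr n, AtStage G →
    |pred G - (n : ℝ) ^ (3 / 2 : ℝ) / (2 * Real.sqrt 2)| ≤ ε * (n : ℝ) ^ (3 / 2 : ℝ) := by
  filter_upwards [eventually_stageFacts, eventually_le_lg (max 1 (1 / ε))] with n h hl G hG
  refine (h G hG).pred_close.trans ?_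
  rw [max_le_iff, div_le_iff₀ hε] at hl
  rw [div_le_iff₀ (by nlinarith)]
  have : 1 ≤ ε * lg n ^ 2 := by nlinarith [mul_pos hε (show 0 < lg n by linarith)]
  nlinarith [show 0 ≤ (n : ℝ) ^ (3 / 2 : ℝ) by positivity]

end Vale.Agent.P046.Full
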