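import Vale.Agent.P046.Full.Grid
import Vale.Agent.P046.Full.Iter.Late

/-!
# Module 5: the depth recursion agrees with the cavity system
-/

namespace Vale.Agent.P046.Full.Iter

open Finset Filter
open scoped Classical

variable {n : ℕ} {G : Gr n}

/-- The cavity messages continued over the last cell. -/
noncomputable def Iw (G : Gr n) : ℕ → Msg n
  | 0 => fun _ _ => 0
  | k + 1 => fun t f => Iw G k t f + wGrid n G.card k * rate G (Iw G k) t f

lemma Iw_eq : ∀ k, k ≤ nGrid n G.card → Iw G k = msg G k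
  | 0, _ => rfl
  | k + 1, h => by
    funext t f
    simp only [Iw, msg, Iw_eq k (Nat.le_of_succ_le h)]
    rw [wGrid, if_pos (Nat.lt_of_succ_le h)]

/-- What is needed from the size of `n`. -/
structure Large (n : ℕ) : Prop where
  lg_big : (10 : ℝ) ^ 6 ≤ lg n
  le_n : lg n ^ 30000 ≤ (n : ℝ)
  le_two : lg n ^ 30000 ≤ 2 ^ (rad n / 2)

lemma eventually_large : ∀ᶠ n : ℕ in atTop, Large n := by
  filter_upwards [eventually_le_lg ((10 : ℝ) ^ 6),
    eventually_mul_lg_pow_le 1 30000 (show (0 : ℝ) < 1 by norm_num),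
    (Real.tendsto_log_atTop.comp tendsto_lg).eventually_ge_atTop 60000] with n h1 h2 h3
  rw [one_mul, Real.rpow_one] at h2
  refine ⟨h1, h2, ?_⟩
  have h3' : (60000 : ℝ) ≤ Real.log (lg n) := h3
  have hj : Real.log (lg n) ^ 4 ≤ ((rad n / 2 : ℕ) : ℝ) := by
    rw [rad, Nat.mul_div_cancel_left _ (by norm_num)]
    exact Nat.le_ceil _
  generalize rad n / 2 = j at hj
  obtain ⟨l, hl⟩ : ∃ l, l = Real.log (lg n) := ⟨_, rfl⟩
  obtain ⟨p, hp⟩ : ∃ p : ℕ, p = 30000 := ⟨_, rfl⟩
  rw [← hl] at h3' hj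
  rw [← hp]
  have hp' : (p : ℝ) ≤ l / 2 := by rw [hp]; push_cast; linarith
  rw [← Real.exp_log (show 0 < lg n from lt_of_lt_of_le (by norm_num) h1), ← hl, ← Real.exp_nat_mul,
    ← Real.exp_log (show (0 : ℝ) < 2 by norm_num), ← Real.exp_nat_mul, Real.exp_le_exp]
  have hl4 : l * l ≤ l ^ 4 := (sq l).symm.le.trans (pow_le_pow_right₀ (by linarith) (by norm_num))
  have := Real.log_two_gt_d9
  nlinarith

/-- A constant times a smaller power. -/
lemma pow_absorb {L c : ℝ} (hL : (10 : ℝ) ^ 6 ≤ L) (hc : c ≤ (10 : ℝ) ^ 6) {p q : ℕ} (h : p < q) :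
    c * L ^ p ≤ L ^ q := by
  have hL1 : 1 ≤ L := le_trans (by norm_num) hL
  calc c * L ^ p ≤ L * L ^ p := mul_le_mul_of_nonneg_right (hc.trans hL) (by positivity)
    _ = L ^ (p + 1) := by ring
    _ ≤ L ^ q := pow_le_pow_right₀ hL1 h

/-- A constant times a power over a larger power. -/
lemma div_absorb {L c : ℝ} (hL : (10 : ℝ) ^ 6 ≤ L) (hc : c ≤ (10 : ℝ) ^ 6) {p q r : ℕ}
    (h : p + r < q) : c * L ^ p / L ^ q ≤ 1 / L ^ r := by
  have hL0 : 0 < L := lt_of_lt_of_le (by norm_num) hL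
  rw [div_le_div_iff₀ (by positivity) (by positivity), one_mul, mul_assoc, ← pow_add]
  exact pow_absorb hL hc h

lemma amp_le_pow {L : ℝ} (hL : 0 < L) {s : ℕ → ℝ} {c p : ℕ}
    (h : 5 / 2 * ∑ i ∈ range c, s i ≤ p * Real.log L) : amp s c ≤ L ^ p := by
  refine (Real.exp_le_exp.2 h).trans (le_of_eq ?_)
  rw [Real.exp_nat_mul, Real.exp_log hL]

/-- The numerical size of the forcing. -/
lemma dv_num {L E Md φ : ℝ} (hL : (10 : ℝ) ^ 6 ≤ L) (hE : 0 ≤ E) (hMd : Md ≤ 2 * L ^ 2000)
    (hφ : φ ^ 2 ≤ 3 * L ^ 60 / L ^ 2000) :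
    432 / 100 * Md * (101 / 100 * φ) * (E * φ * (1 / L ^ 800)) ≤
      28 * L ^ 60 * E * (1 / L ^ 800) := by
  have hL0 : 0 < L := lt_of_lt_of_le (by norm_num) hL
  generalize hp : L ^ 60 = p at hφ ⊢
  generalize hq : L ^ 2000 = q at hφ hMd
  generalize hr : L ^ 800 = r
  have hp0 : 0 < p := hp ▸ pow_pos hL0 _
  have hq0 : 0 < q := hq ▸ pow_pos hL0 _
  have hr0 : 0 < r := hr ▸ pow_pos hL0 _
  have h : Md * φ ^ 2 ≤ 6 * p := by
    refine (mul_le_mul hMd hφ (sq_nonneg _) (by positivity)).trans (le_of_eq ?_)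
    field_simp
    norm_num
  have h2 := mul_le_mul_of_nonneg_right h (show 0 ≤ E * (1 / r) by positivity)
  have h3 : 0 ≤ p * (E * (1 / r)) := by positivity
  linarith

/-- The numerical size of the summed stage. -/
lemma late_num {L E Md δ R a Dv A : ℝ} {k : ℕ} (hL : (10 : ℝ) ^ 6 ≤ L) (hE : 0 ≤ E)
    (hMd0 : 0 ≤ Md) (hMd : Md ≤ 2 * L ^ 2000) (hδ0 : 0 ≤ δ) (hδ : δ ≤ 1 / L ^ 25000)
    (hR0 : 0 ≤ R) (hR : R ≤ 4 * (1 / L ^ 1940)) (ha0 : 0 ≤ a) (ha : a ≤ 1 / L ^ 9000)
    (hDv0 : 0 ≤ Dv) (hDv : Dv ≤ 28 * L ^ 60 * E * (1 / L ^ 800))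
    (hk : L ^ 30000 ≤ 2 * (2 : ℝ) ^ k) (hA0 : 0 ≤ A) (hA : A ≤ L ^ 400) :
    (Md * E / 2 ^ k + 2 * (Md * E * a + 11 / 10 *
      (Md * 3 * (Md * E * (2 * (2 * (Md * δ)))) +
        Md * (2 * (R + a) + 2 * (2 * (Md * δ))) * Dv))) * A ≤ E / L ^ 270 := by
  have hL0 : 0 < L := lt_of_lt_of_le (by norm_num) hL
  have hL1 : 1 ≤ L := le_trans (by norm_num) hL
  obtain ⟨u, hu⟩ : ∃ u, u = 1 / L ^ 700 := ⟨_, rfl⟩
  have hu0 : 0 ≤ u := hu.symm ▸ (by positivity)
  have hMδ : Md * δ ≤ 2 * L ^ 2000 / L ^ 25000 :=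
    (mul_le_mul hMd hδ hδ0 (by positivity)).trans (le_of_eq (mul_one_div _ _))
  have s1 : Md / 2 ^ k ≤ u := by
    refine le_trans ?_ ((div_absorb hL (c := 4) (by norm_num)
      (show 2000 + 700 < 30000 by norm_num)).trans hu.ge)
    rewrite [div_le_div_iff₀ (by positivity) (by positivity)]
    refine (mul_le_mul hMd hk (by positivity) (by positivity)).trans (le_of_eq ?_)
    ring
  have s2 : Md * a ≤ u := by
    refine (mul_le_mul hMd ha ha0 (by positivity)).trans ?_
    rewrite [mul_one_div]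
    exact (div_absorb hL (by norm_num) (show 2000 + 700 < 9000 by norm_num)).trans hu.ge
  have s3 : Md * 3 * Md * (2 * (2 * (Md * δ))) ≤ u := by
    refine le_trans ?_ ((div_absorb hL (c := 96) (by norm_num)
      (show 2000 + 2000 + 2000 + 700 < 25000 by norm_num)).trans hu.ge)
    rewrite [pow_add, pow_add]
    generalize L ^ 2000 = q at hMd hMδ ⊢
    generalize L ^ 25000 = r at hMδ ⊢
    refine (mul_le_mul (mul_le_mul (mul_le_mul_of_nonneg_right hMd (by norm_num : (0 : ℝ) ≤ 3)) hMd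
      hMd0 (by linarith)) (show 2 * (2 * (Md * δ)) ≤ 2 * (2 * (2 * q / r)) by linarith)
      (by positivity) (mul_nonneg (mul_nonneg (by linarith) (by norm_num)) (by linarith))).trans
      (le_of_eq ?_)
    ring
  have hd : Md * δ ≤ 1 / L ^ 1940 := hMδ.trans (div_absorb hL (by norm_num) (by norm_num))
  have ha' : a ≤ 1 / L ^ 1940 :=
    ha.trans (one_div_le_one_div_of_le (pow_pos hL0 _) (pow_le_pow_right₀ hL1 (by norm_num)))
  have hB : L ^ 2000 = L ^ 60 * L ^ 1940 := by rewrite [← pow_add]; exact congrArg _ (by norm_num)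
  have h120 : L ^ 120 = L ^ 60 * L ^ 60 := by rewrite [← pow_add]; exact congrArg _ (by norm_num)
  have h520 : L ^ 520 = L ^ 120 * L ^ 400 := by rewrite [← pow_add]; exact congrArg _ (by norm_num)
  have hu1 : u ≤ L ^ 120 / L ^ 800 := by
    rewrite [hu, div_le_div_iff₀ (pow_pos hL0 _) (pow_pos hL0 _), one_mul, ← pow_add]
    exact pow_le_pow_right₀ hL1 (by norm_num)
  refine le_trans ?_ ((mul_le_mul_of_nonneg_left (div_absorb hL (c := 2300) (by norm_num)
    (show 520 + 270 < 800 by norm_num)) hE).trans (le_of_eq (mul_one_div _ _)))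
  rewrite [h520]
  rewrite [h120] at hu1 ⊢
  rewrite [hB] at hMd
  generalize hp : L ^ 60 = p at hu1 hDv hMd ⊢
  generalize hq : L ^ 1940 = q at hR hd ha' hMd
  generalize hr : L ^ 800 = r at hu1 hDv ⊢
  generalize L ^ 400 = W at hA ⊢
  have hp0 : 0 < p := hp ▸ pow_pos hL0 _
  have hq0 : 0 < q := hq ▸ pow_pos hL0 _
  have hr0 : 0 < r := hr ▸ pow_pos hL0 _
  have t4 : Md * (2 * (R + a) + 2 * (2 * (Md * δ))) ≤ 28 * p := by
    refine (mul_le_mul hMd (show 2 * (R + a) + 2 * (2 * (Md * δ)) ≤ 14 * (1 / q) by linarith)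
      (by positivity) (by positivity)).trans (le_of_eq ?_)
    field_simp
    norm_num
  have t5 := mul_le_mul t4 hDv hDv0 (by positivity)
  have t1 := mul_le_mul_of_nonneg_left (s1.trans hu1) hE
  have t2 := mul_le_mul_of_nonneg_left (s2.trans hu1) hE
  have t3 := mul_le_mul_of_nonneg_left (s3.trans hu1) hE
  have h0 : 0 ≤ E * (p * p / r) := by positivity
  have e : E * (2300 * (p * p * W) / r) = E * (2300 * (p * p / r)) * W := by ring
  rewrite [e]
  refine mul_le_mul ?_ hA hA0 (by positivity)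
  rewrite [mul_div_right_comm]
  have e2 : 28 * p * (28 * p * E * (1 / r)) = 784 * (E * (p * p / r)) := by ring
  linarith

/-- The numerical size of the final error. -/
lemma final_num {L E Md δ y x : ℝ} (hL : (10 : ℝ) ^ 6 ≤ L) (hE : 0 ≤ E) (hMd0 : 0 ≤ Md)
    (hMd : Md ≤ 2 * L ^ 2000) (hδ0 : 0 ≤ δ) (hδ : δ ≤ 1 / L ^ 25000) (hx0 : 0 < x)
    (hx : 1 / L ^ 1001 ≤ x) (hy : y ≤ L ^ 31 * x) :
    11 / 10 * (Md * E * (2 * (1 / L ^ 9000) + 2 * (2 * (Md * δ))) +
        101 / 100 * y * (2 * (E / L ^ 270) + Md * E * (2 * (2 * (Md * δ))))) +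
      E * (Md * δ) + E * x * (1 / L ^ 800) ≤ E * x / L := by
  have hL0 : 0 < L := lt_of_lt_of_le (by norm_num) hL
  have hL1 : 1 ≤ L := le_trans (by norm_num) hL
  have hMδ : Md * δ ≤ 2 * L ^ 2000 / L ^ 25000 :=
    (mul_le_mul hMd hδ hδ0 (by positivity)).trans (le_of_eq (mul_one_div _ _))
  obtain ⟨v, hv⟩ : ∃ v, v = 1 / L ^ 2 := ⟨_, rfl⟩
  have hv0 : 0 ≤ v := hv.symm ▸ (by positivity)
  have small : ∀ {c : ℝ} {p q : ℕ}, c ≤ (10 : ℝ) ^ 6 → p + (1001 + 2) < q →
      c * L ^ p / L ^ q ≤ x * v := fun {c p q} hc h => by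
    refine (div_absorb hL hc h).trans ?_
    rewrite [hv, pow_add, ← one_div_mul_one_div]
    exact mul_le_mul_of_nonneg_right hx (by positivity)
  have a1 : Md * (1 / L ^ 9000) ≤ x * v := by
    refine (mul_le_mul_of_nonneg_right hMd (by positivity)).trans ?_
    rewrite [mul_one_div]
    exact small (by norm_num) (by norm_num)
  have a2 : Md * δ ≤ x * v := hMδ.trans (small (by norm_num) (by norm_num))
  have a3 : Md * (Md * δ) ≤ x * v := by
    refine le_trans ?_ (small (c := 4) (p := 2000 + 2000) (q := 25000) (by norm_num) (by norm_num))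
    rewrite [pow_add]
    refine (mul_le_mul hMd hMδ (by positivity) (by positivity)).trans (le_of_eq ?_)
    generalize L ^ 2000 = q
    ring
  have a4 : y / L ^ 270 ≤ x * v := by
    refine (div_le_div_of_nonneg_right hy (by positivity)).trans ?_
    rewrite [mul_comm (L ^ 31) x, mul_div_assoc, ← one_mul (L ^ 31)]
    exact mul_le_mul_of_nonneg_left
      ((div_absorb hL (by norm_num) (show 31 + 2 < 270 by norm_num)).trans hv.ge) hx0.le
  have a5 : y * (Md * (Md * δ)) ≤ x * v := by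
    refine le_trans ?_ (mul_le_mul_of_nonneg_left ((div_absorb hL (c := 4) (by norm_num)
      (show 31 + (2000 + 2000) + 2 < 25000 by norm_num)).trans hv.ge) hx0.le)
    refine (mul_le_mul hy ((mul_le_mul hMd hMδ (by positivity) (by positivity))) (by positivity)
      (by positivity)).trans (le_of_eq ?_)
    rewrite [pow_add, pow_add]
    generalize L ^ 31 = p
    generalize L ^ 2000 = q
    ring
  have a6 : 1 / L ^ 800 ≤ v := hv ▸
    one_div_le_one_div_of_le (by positivity) (pow_le_pow_right₀ hL1 (by norm_num))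
  have hv1 : 30 * v ≤ 1 / L := by
    rewrite [hv, mul_one_div, div_le_div_iff₀ (by positivity) hL0, one_mul]
    nlinarith
  have b1 := mul_le_mul_of_nonneg_left a1 hE
  have b2 := mul_le_mul_of_nonneg_left a2 hE
  have b3 := mul_le_mul_of_nonneg_left a3 hE
  have b4 := mul_le_mul_of_nonneg_left a4 hE
  have b5 := mul_le_mul_of_nonneg_left a5 hE
  have b6 := mul_le_mul_of_nonneg_left a6 (mul_nonneg hE hx0.le)
  have b7 := mul_le_mul_of_nonneg_left hv1 (mul_nonneg hE hx0.le)
  have h0 : 0 ≤ E * (x * v) := by positivity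
  have e : y * (E / L ^ 270) = E * (y / L ^ 270) := by ring
  rewrite [div_eq_mul_one_div (E * x)]
  linarith

section

variable (hb : Large n) (hS : StageFacts G) (hG : AtStage G) (hF : FlowOK G)

include hb in
lemma one_le_lg : 1 ≤ lg n := le_trans (by norm_num) hb.lg_big

include hb in
lemma mHi_big : (10 : ℝ) ^ 6 ≤ mHi n :=
  hb.lg_big.trans (le_self_pow₀ (one_le_lg hb) (by norm_num))

include hS hb in
lemma mS_bounds : 99 / 100 * mHi n ≤ mS G ∧ mS G ≤ 101 / 100 * mHi n := by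
  have h := abs_le.1 hS.mS_close
  have hn : 1 / (n : ℝ) ≤ 1 / 100 := by gcongr; exact hS.n_large
  have hM : 0 < mHi n := lt_of_lt_of_le (by norm_num) (mHi_big hb)
  have h1 : mS G / mHi n ≤ 101 / 100 := by linarith
  have h2 : 99 / 100 ≤ mS G / mHi n := by linarith
  rw [div_le_iff₀ hM] at h1
  rw [le_div_iff₀ hM] at h2
  exact ⟨h2, h1⟩

include hS in
lemma card_pos' : 0 < G.card := by
  have := hS.room; omega

include hS hb hG in
lemma deg_le : ∀ g, ((Labels.kids G ∅ g).card : ℝ) ≤ 101 / 100 * mS G := by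
  intro g
  have hM := mS_bounds hb hS
  have hm0 : 0 < mS G := by linarith [hS.mS_big]
  by_cases hg : g ∈ G
  · have hlo : mLo n ≤ mS G := by
      have h1 : 2 * lg n ^ 60 ≤ lg n ^ 2000 := pow_absorb hb.lg_big (by norm_num) (by norm_num)
      change 2 * mLo n ≤ mHi n at h1
      have : 0 ≤ mLo n := pow_nonneg (lg_nonneg n) _
      linarith
    have h := hG.good g hg 0 (by have := card_pos' hS; omega) (by simpa [mS] using hlo)
    simp only [Z, prop, dv, hg, if_true, Nat.cast_zero, mul_zero, sub_zero] at h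
    change |cd G g / mS G - 1| ≤ Bd n (mS G) at h
    have hB : Bd n (mS G) ≤ 1 / 100 := by
      rw [Bd, div_le_iff₀ (Real.sqrt_pos.2 hm0)]
      have h2 : (100 * lg n ^ 5) ^ 2 ≤ mS G := by
        have h3 : 20000 * lg n ^ 10 ≤ mHi n := pow_absorb hb.lg_big (by norm_num) (by norm_num)
        rw [mul_pow, ← pow_mul]; norm_num; linarith
      have := Real.abs_le_sqrt h2
      linarith [le_abs_self (100 * lg n ^ 5)]
    have h' := (abs_le.1 h).2
    have h4 : cd G g / mS G ≤ 101 / 100 := by linarith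
    rw [div_le_iff₀ hm0] at h4
    rw [← kids_root]
    exact h4
  · have : Labels.kids G ∅ g = ∅ := eq_empty_of_forall_notMem fun T hT =>
      hg (edgesOf_subset (mem_kids hT).1 (mem_kids hT).2)
    simp [this]; positivity

include hS hb in
lemma delta_le : 3 * (2 * mHi n + 1) ^ 2 / G.card ≤ 1 / lg n ^ 25000 := by
  have hM := mHi_big hb
  have hn : (0 : ℝ) < n := by linarith [hS.n_large]
  have hN : (n : ℝ) ≤ (n : ℝ) ^ (3 / 2 : ℝ) := by
    simpa using Real.rpow_le_rpow_of_exponent_le (by linarith [hS.n_large] : (1 : ℝ) ≤ n)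
      (show (1 : ℝ) ≤ 3 / 2 by norm_num)
  have hE : lg n ^ 30000 / 4 ≤ (G.card : ℝ) := by linarith [hS.card_lo, hb.le_n]
  have h1 : 3 * (2 * mHi n + 1) ^ 2 ≤ 27 * mHi n ^ 2 := by nlinarith
  calc 3 * (2 * mHi n + 1) ^ 2 / G.card ≤ 27 * mHi n ^ 2 / (lg n ^ 30000 / 4) := by
        exact div_le_div₀ (mul_nonneg (by norm_num) (sq_nonneg _)) h1
          (div_pos (pow_pos (lt_of_lt_of_le one_pos (one_le_lg hb)) _) four_pos) hE
    _ = 108 * lg n ^ 4000 / lg n ^ 30000 := by
        rewrite [show mHi n ^ 2 = lg n ^ 4000 from (pow_mul _ _ _).symm, div_div_eq_mul_div]; ring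
    _ ≤ _ := div_absorb hb.lg_big (by norm_num) (by norm_num)

include hS in
lemma w_le : ∀ i < nGrid n G.card + 1, wGrid n G.card i ≤ 3 * (2 * mHi n + 1) ^ 2 / G.card := by
  intro i hi
  rw [wGrid]
  split_ifs with h1 h2
  · exact hS.hst_small i h1.le
  · exact h2 ▸ hS.last
  · omega

include hS hb hF in
lemma ctx : Ctx G (wGrid n G.card) (nGrid n G.card + 1) (Iw G) where
  nn := wGrid_nonneg n (card_pos' hS)
  sum := sum_wGrid_le_one n (card_pos' hS) _
  zero := fun _ _ => rfl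
  succ := fun _ _ _ => rfl
  small := by
    have hM := mHi_big hb
    have hsm : mHi n ^ (-(1 / 2) : ℝ) ≤ 1 / 1000 := by
      rw [Real.rpow_neg (by positivity), ← Real.sqrt_eq_rpow, one_div]
      refine inv_anti₀ (by norm_num) ?_
      rw [show (1000 : ℝ) = Real.sqrt (10 ^ 6) by
        rw [show ((10 : ℝ) ^ 6) = 1000 ^ 2 by norm_num, Real.sqrt_sq (by norm_num)]]
      exact Real.sqrt_le_sqrt hM
    have hold : ∀ c ≤ nGrid n G.card, ∀ t ∈ triangles G, ∀ f ∈ edgesOf t,
        0 ≤ Iw G c t f ∧ Iw G c t f ≤ 1 / 1000 := fun c hc t ht f hf => by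
      rw [Iw_eq c hc]
      exact ⟨(hF.small c hc t ht f hf).1, (hF.small c hc t ht f hf).2.trans hsm⟩
    intro c hc t ht f hf
    rcases Nat.lt_or_ge c (nGrid n G.card + 1) with h | h
    · have := hold c (by omega) t ht f hf
      constructor <;> linarith
    · obtain rfl : c = nGrid n G.card + 1 := by omega
      have h0 := hold _ le_rfl t ht f hf
      have hq : ∀ g, 0 ≤ qOf G (Iw G (nGrid n G.card)) t g ∧
          qOf G (Iw G (nGrid n G.card)) t g ≤ 1 := fun g => by
        rw [qOf_eq]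
        have key : ∀ T ∈ Labels.kids G t g,
            0 ≤ Iw G (nGrid n G.card) T g ∧ Iw G (nGrid n G.card) T g ≤ 1 / 1000 := fun T hT =>
          hold _ le_rfl T (mem_kids hT).1 g (mem_kids hT).2
        exact ⟨prod_nonneg fun T hT => by linarith [key T hT],
          Finset.prod_le_one (fun T hT => by linarith [key T hT]) fun T hT => by linarith [key T hT]⟩
      have hr : 0 ≤ rate G (Iw G (nGrid n G.card)) t f ∧
          rate G (Iw G (nGrid n G.card)) t f ≤ 1 :=
        ⟨prod_nonneg fun g _ => (hq g).1,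
          Finset.prod_le_one (fun g _ => (hq g).1) fun g _ => (hq g).2⟩
      have hw0 := wGrid_nonneg n (card_pos' hS) (nGrid n G.card)
      have hw1 : wGrid n G.card (nGrid n G.card) ≤ 1 / 1000 := by
        refine ((w_le hS _ (Nat.lt_succ_self _)).trans (delta_le hb hS)).trans ?_
        exact one_div_le_one_div_of_le (by norm_num)
          ((le_trans (by norm_num) hb.lg_big).trans (le_self_pow₀ (one_le_lg hb) (by norm_num)))
      show 0 ≤ Iw G _ t f + _ * _ ∧ Iw G _ t f + _ * _ ≤ 1 / 30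
      have := mul_le_of_le_one_right hw0 hr.2
      exact ⟨add_nonneg h0.1 (mul_nonneg hw0 hr.1), by linarith⟩

/-- The target codegree after `k` steps. -/
noncomputable def mk (G : Gr n) (k : ℕ) : ℝ := mI n ((G.card : ℝ) - 3 * k)

/-- The last cell of the pointwise range. -/
noncomputable def cut (G : Gr n) : ℕ :=
  Nat.findGreatest (fun k => mLo n ≤ mk G k) (nGrid n G.card)

include hS in
lemma mk_eq (k : ℕ) : mk G k = mS G * phi G.card k ^ 2 := mI_target n (card_pos' hS)

include hS in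
lemma mk_anti {i k : ℕ} (h : i ≤ k) (hk : 3 * k < G.card) : mk G k ≤ mk G i := by
  rw [mk_eq hS, mk_eq hS]
  have := hS.mS_big
  exact mul_le_mul_of_nonneg_left (pow_le_pow_left₀ (phi_pos hk).le (phi_anti h) 2) (by linarith)

include hS in
lemma stp_small {k : ℕ} (hk : k ≤ nGrid n G.card) : 0 ≤ stp G.card k ∧ stp G.card k ≤ 3 / 7 := by
  have := hS.room
  refine ⟨(stp_pos (by omega)).le, ?_⟩
  have h2 : ((3 * (k + 1) + 7 : ℕ) : ℝ) ≤ G.card := by exact_mod_cast (by omega)
  push_cast at h2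
  rw [stp, div_le_div_iff₀ (by linarith) (by norm_num)]
  linarith

include hS in
lemma stp_tiny (hn : (10 : ℝ) ^ 5 ≤ n) {k : ℕ} (hk : k < nGrid n G.card) :
    stp G.card k ≤ 1 / 1000 := by
  have hN : (n : ℝ) ≤ (n : ℝ) ^ (3 / 2 : ℝ) := by
    simpa using Real.rpow_le_rpow_of_exponent_le (by linarith : (1 : ℝ) ≤ n)
      (show (1 : ℝ) ≤ 3 / 2 by norm_num)
  have hp := hS.pred_lo
  rw [pred, card_mul_phi (card_pos' hS)] at hp
  have hk' : ((k + 1 : ℕ) : ℝ) ≤ nGrid n G.card := by exact_mod_cast hk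
  push_cast at hk'
  rw [stp, div_le_iff₀ (by linarith)]
  linarith

include hb in
lemma n_big : (10 : ℝ) ^ 5 ≤ n :=
  le_trans ((le_trans (by norm_num) hb.lg_big).trans (le_self_pow₀ (one_le_lg hb) (by norm_num)))
    hb.le_n

include hS hb in
lemma cut_spec : cut G < nGrid n G.card ∧ mLo n ≤ mk G (cut G) ∧ mk G (cut G) ≤ 21 / 10 * mLo n := by
  have hE := card_pos' hS
  have hM := mS_bounds hb hS
  have hroom := hS.room
  have hlo : 2 ≤ mLo n :=
    (le_trans (by norm_num) hb.lg_big).trans (le_self_pow₀ (one_le_lg hb) (by norm_num))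
  have h1 : 2 * lg n ^ 60 ≤ lg n ^ 2000 := pow_absorb hb.lg_big (by norm_num) (by norm_num)
  change 2 * mLo n ≤ mHi n at h1
  have h0 : mLo n ≤ mk G 0 := by
    have : mk G 0 = mS G := by simp [mk, mS]
    linarith
  have hsq : ∀ k ≤ nGrid n G.card, mk G k ≤ 21 / 10 * mk G (k + 1) := by
    intro k hk
    have hs := stp_small hS hk
    rw [mk_eq hS, mk_eq hS, ← phi_succ_mul (E := G.card) (k := k) (by omega), mul_pow]
    have : (1 + stp G.card k) ^ 2 ≤ 21 / 10 := by nlinarith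
    have := mul_le_mul_of_nonneg_left this
      (show 0 ≤ mS G * phi G.card (k + 1) ^ 2 by nlinarith [hS.mS_big, sq_nonneg (phi G.card (k + 1))])
    linarith
  have hN : mk G (nGrid n G.card + 1) < 1 / 2 := not_le.1 fun h => by
    have := le_nGrid_of_target (n := n) (k := nGrid n G.card + 1) (E := G.card) (by omega) h
    omega
  have hspec : mLo n ≤ mk G (cut G) :=
    Nat.findGreatest_spec (P := fun k => mLo n ≤ mk G k) (Nat.zero_le _) h0
  have hle : cut G ≤ nGrid n G.card := Nat.findGreatest_le _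
  have hlt : cut G < nGrid n G.card := lt_of_le_of_ne hle fun h => by
    rw [h] at hspec
    linarith [hsq _ le_rfl]
  refine ⟨hlt, hspec, ?_⟩
  have hnot : ¬ mLo n ≤ mk G (cut G + 1) :=
    Nat.findGreatest_is_greatest (Nat.lt_succ_self _) hlt
  linarith [hsq _ hle, not_le.1 hnot]

include hS hb hF in
lemma u_le {c : ℕ} (hc : c ≤ cut G) {g : Sym2 (Fin n)} (hg : g ∈ G) :
    uOf G (Iw G c) g ≤ 101 / 100 * phi G.card c := by
  obtain ⟨hK, hlo, -⟩ := cut_spec hb hS
  have hroom := hS.room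
  have h := hF.sup c (by omega) (hlo.trans (mk_anti hS hc (by omega))) g hg
  rw [← Iw_eq c (by omega)] at h
  have hp := phi_pos (E := G.card) (k := c) (by omega)
  have h5 : (100 : ℝ) ≤ lg n ^ 5 :=
    le_trans (by norm_num) (hb.lg_big.trans (le_self_pow₀ (one_le_lg hb) (by norm_num)))
  have : phi G.card c / lg n ^ 5 ≤ phi G.card c / 100 :=
    div_le_div_of_nonneg_left hp.le (by norm_num) h5
  linarith [(abs_le.1 h).2]

include hS hb hF in
lemma rate_le {c : ℕ} (hc : c ≤ cut G) {T : Finset (Fin n)} (hT : T ∈ triangles G)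
    {f : Sym2 (Fin n)} (hf : f ∈ edgesOf T) :
    rate G (Iw G c) T f ≤ 111 / 100 * phi G.card c ^ 2 := by
  obtain ⟨hK, -, -⟩ := cut_spec hb hS
  have hctx := ctx hb hS hF
  have hc' : c ≤ nGrid n G.card + 1 := by omega
  refine (rate_le_uOf hctx hc' hT hf).trans ?_
  refine (mul_le_mul_of_nonneg_left (Finset.prod_le_prod (fun g _ => (uOf_mem hctx hc' g).1)
    fun g hg => u_le hb hS hF hc (edgesOf_subset hT (mem_of_mem_erase hg))) (by norm_num)).trans ?_
  rw [prod_const, card_others hT hf]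
  nlinarith [sq_nonneg (phi G.card c)]

include hS hb in
lemma weight_le {c : ℕ} (hc : c < nGrid n G.card) :
    wGrid n G.card c * (mS G * phi G.card c ^ 2) ≤ 1001 / 1000 * stp G.card c := by
  have hroom := hS.room
  have hs := stp_small hS hc.le
  have ht := stp_tiny hS (n_big hb) hc
  have hp := phi_pos (E := G.card) (k := c) (by omega)
  rw [wGrid, if_pos hc, hst_eq n (by omega)]
  change (_ / (mS G * _)) * _ ≤ _
  have := hS.mS_big
  rw [div_mul_cancel₀ _ (by positivity)]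
  nlinarith

include hS hb hG hF in
lemma early : ∀ j, rad n / 2 ≤ j → ∀ T ∈ triangles G, ∀ f ∈ edgesOf T, ∀ i ≤ cut G,
    A G (wGrid n G.card) (Iw G) j T f i ≤ 1 / lg n ^ 9000 := by
  have hL := hb.lg_big
  have hL1 := one_le_lg hb
  obtain ⟨hK, hlo, -⟩ := cut_spec hb hS
  have hroom := hS.room
  have hctx := ctx hb hS hF
  have hm := mS_bounds hb hS
  have hM := mHi_big hb
  obtain ⟨δ, hδ⟩ : ∃ δ, δ = 3 * (2 * mHi n + 1) ^ 2 / (G.card : ℝ) := ⟨_, rfl⟩
  have hδ0 : 0 ≤ δ := hδ ▸ by positivity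
  have hδ1 : δ ≤ 1 / lg n ^ 25000 := hδ ▸ delta_le hb hS
  have hδ2 : δ ≤ 1 / 2 := hδ1.trans (one_div_le_one_div_of_le (by norm_num)
    ((le_trans (by norm_num) hL).trans (le_self_pow₀ hL1 (by norm_num))))
  have hMd : 0 ≤ 101 / 100 * mS G := by linarith
  have hx : ∑ i ∈ range (cut G), wGrid n G.card i ≤ 1 / 30 := by
    rewrite [sum_wGrid n (card_pos' hS) hK.le, xt]
    have h2 : (phi G.card (cut G))⁻¹ ^ 2 ≤ mS G / mLo n := by
      have hp := phi_pos (E := G.card) (k := cut G) (by omega)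
      rw [mk_eq hS] at hlo
      rw [inv_pow, le_div_iff₀ (by linarith [show (1 : ℝ) ≤ mLo n from one_le_pow₀ hL1]),
        inv_mul_le_iff₀ (by positivity)]
      linarith
    have h3 : (100 : ℝ) ≤ mLo n :=
      le_trans (by norm_num) (hL.trans (le_self_pow₀ hL1 (by norm_num)))
    have h4 : mS G / mLo n ≤ mS G / 100 :=
      div_le_div_of_nonneg_left (by linarith) (by norm_num) h3
    change (_ - 1) / (2 * mS G) ≤ _
    rw [div_le_iff₀ (by linarith)]
    linarith
  obtain ⟨s, hs⟩ : ∃ s : ℕ → ℝ, s = fun c =>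
    wGrid n G.card c * (111 / 100 * phi G.card c ^ 2) * (44 / 10 * (101 / 100 * mS G)) := ⟨_, rfl⟩
  have hs1 : ∀ c < cut G, s c ≤ 495 / 100 * stp G.card c := fun c hc => by
    have := weight_le hb hS (c := c) (by omega)
    have h0 := stp_small hS (k := c) (by omega)
    rw [hs]; dsimp only
    linarith [h0.1]
  have hsum : ∀ i ≤ cut G, ∑ c ∈ range i, s c ≤ 495 / 100 * (1001 * Real.log (lg n)) := fun i hi => by
    refine (sum_le_sum fun c hc => hs1 c ((mem_range.1 hc).trans_le hi)).trans ?_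
    rw [← mul_sum]
    exact mul_le_mul_of_nonneg_left (hS.tau_le i (by omega)) (by norm_num)
  have hA := stageA hctx (m := cut G) (Md := 101 / 100 * mS G) (δ := δ)
    (R := fun c => 111 / 100 * phi G.card c ^ 2) (by omega) hMd hδ0 (deg_le hb hS hG)
    (hδ ▸ w_le hS) hδ2 hx
    (fun c hc T hT f hf => rate_le hb hS hF hc.le hT hf) (fun c _ => by positivity)
    (fun c hc => by
      have := hs1 c hc
      have h0 := stp_tiny hS (n_big hb) (k := c) (by omega)
      rw [hs] at this; dsimp only at this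
      linarith)
  intro j hj T hT f hf i hi
  refine (hA j T hT f hf i hi).trans ?_
  rw [← sum_mul]
  have hls : ∀ i, ∑ c ∈ range i, wGrid n G.card c * (111 / 100 * phi G.card c ^ 2) *
      (44 / 10 * (101 / 100 * mS G)) = ∑ c ∈ range i, s c := fun i => by rw [hs]
  rw [hls, ← hs]
  have hlog := Real.log_le_sub_one_of_pos (show 0 < lg n by linarith)
  have hlog0 : 0 ≤ Real.log (lg n) := Real.log_nonneg hL1
  have hamp : amp s i ≤ lg n ^ 12400 := amp_le_pow (by linarith) (by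
    have := hsum i hi
    push_cast
    linarith)
  have hj2 : 1 / (2 : ℝ) ^ j ≤ 1 / lg n ^ 30000 :=
    one_div_le_one_div_of_le (by positivity)
      (hb.le_two.trans (pow_le_pow_right₀ (by norm_num) hj))
  have hFb : (0 + (∑ c ∈ range (cut G), s c) * (2 * (101 / 100 * mS G * δ))) ≤
      10404 * lg n ^ 2001 / lg n ^ 25000 := by
    have h1 : ∑ c ∈ range (cut G), s c ≤ 5000 * lg n := by linarith [hsum _ le_rfl]
    have h2 : 2 * (101 / 100 * mS G * δ) ≤ 20808 / 10000 * lg n ^ 2000 / lg n ^ 25000 := by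
      have : 101 / 100 * mS G * δ ≤ (10404 / 10000 * mHi n) * (1 / lg n ^ 25000) :=
        mul_le_mul (by linarith) hδ1 hδ0 (by positivity)
      rw [mHi, mul_one_div] at this
      rw [mul_div_assoc] at this ⊢
      linarith
    rw [zero_add]
    refine (mul_le_mul h1 h2 (by positivity) (by linarith)).trans (le_of_eq ?_)
    rw [pow_succ]; ring
  have hFc : 10404 * lg n ^ 2001 / lg n ^ 25000 ≤ 1 / lg n ^ 22000 :=
    div_absorb hL (by norm_num) (by norm_num)
  have h30 : 1 / lg n ^ 30000 ≤ 1 / lg n ^ 22000 :=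
    one_div_le_one_div_of_le (by positivity) (pow_le_pow_right₀ hL1 (by norm_num))
  refine (mul_le_mul (b := 3 * (1 / lg n ^ 22000)) (by linarith) hamp (Real.exp_pos _).le
    (by positivity)).trans ?_
  rw [mul_one_div, div_mul_eq_mul_div]
  exact div_absorb hL (by norm_num) (by norm_num)

include hS hb in
lemma ratio : phi G.card (cut G) ≤ lg n ^ 31 * phi G.card (nGrid n G.card) ∧
    ∑ c ∈ Ico (cut G) (nGrid n G.card), stp G.card c ≤ 32 * Real.log (lg n) ∧
    1 / lg n ^ 1001 ≤ phi G.card (nGrid n G.card) := by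
  obtain ⟨hK, -, hhi⟩ := cut_spec hb hS
  have hroom := hS.room
  have hm := mS_bounds hb hS
  have hL := hb.lg_big
  have hL1 := one_le_lg hb
  have hp := phi_pos (E := G.card) (k := nGrid n G.card) (by omega)
  have hpK := phi_pos (E := G.card) (k := cut G) (by omega)
  have hN : 1 / 3 ≤ mk G (nGrid n G.card) := hS.target_lb _ le_rfl
  have h6 : 7 * lg n ^ 60 ≤ (lg n ^ 31) ^ 2 := by
    rw [← pow_mul]; exact pow_absorb hL (by norm_num) (by norm_num)
  change 7 * mLo n ≤ _ at h6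
  have hlo : 0 ≤ mLo n := pow_nonneg (lg_nonneg n) _
  have hratio : phi G.card (cut G) ≤ lg n ^ 31 * phi G.card (nGrid n G.card) := by
    refine (pow_le_pow_iff_left₀ hpK.le (by positivity) two_ne_zero).1 ?_
    rw [mul_pow]
    rw [mk_eq hS] at hhi hN
    have hm0 : 0 < mS G := by linarith [hS.mS_big]
    refine le_of_mul_le_mul_left ?_ hm0
    have h2 := mul_le_mul_of_nonneg_left hN (show 0 ≤ (lg n ^ 31) ^ 2 by positivity)
    linarith
  refine ⟨hratio, ?_, ?_⟩
  · have hpos : ∀ i ∈ Ico (cut G) (nGrid n G.card), 0 ≤ stp G.card i ∧ stp G.card i ≤ 1 / 1000 :=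
      fun i hi => ⟨(stp_small hS (mem_Ico.1 hi).2.le).1,
        stp_tiny hS (n_big hb) (mem_Ico.1 hi).2⟩
    have key : ∀ i ∈ Ico (cut G) (nGrid n G.card),
        1000 / 1001 * stp G.card i ≤ Real.log (1 + stp G.card i) := fun i hi => by
      obtain ⟨a, b⟩ := hpos i hi
      refine le_trans ?_ (Real.one_sub_inv_le_log_of_pos (by linarith))
      rw [show 1 - (1 + stp G.card i)⁻¹ = stp G.card i / (1 + stp G.card i) by field_simp; ring,
        le_div_iff₀ (by linarith)]
      nlinarith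
    have h1 := sum_le_sum key
    rw [← mul_sum, ← Real.log_prod fun i hi => (show 1 + stp G.card i ≠ 0 by
      linarith [(hpos i hi).1])] at h1
    have h2 : ∏ i ∈ Ico (cut G) (nGrid n G.card), (1 + stp G.card i) =
        phi G.card (cut G) / phi G.card (nGrid n G.card) := by
      rw [eq_div_iff hp.ne']
      clear hN hp h6 hratio key h1 hpos
      have hh : ∀ m, cut G ≤ m → m ≤ nGrid n G.card →
          (∏ i ∈ Ico (cut G) m, (1 + stp G.card i)) * phi G.card m = phi G.card (cut G) := by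
        intro m h1
        induction m, h1 using Nat.le_induction with
        | base => simp
        | succ m h1 ih =>
          intro h2
          rw [prod_Ico_succ_top h1, ← ih (by omega), ← phi_succ_mul (E := G.card) (k := m) (by omega)]
          ring
      exact hh _ hK.le le_rfl
    rw [h2] at h1
    have h3 : Real.log (phi G.card (cut G) / phi G.card (nGrid n G.card)) ≤
        31 * Real.log (lg n) := by
      refine (Real.log_le_log (div_pos hpK hp) ((div_le_iff₀ hp).2 hratio)).trans (le_of_eq ?_)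
      rw [Real.log_pow]; norm_num
    linarith [Real.log_nonneg hL1]
  · have h := hS.phi_lb _ le_rfl
    refine (pow_le_pow_iff_left₀ (by positivity) hp.le two_ne_zero).1 ?_
    rw [one_div, inv_pow, inv_le_iff_one_le_mul₀ (by positivity), mul_comm]
    refine h.trans (mul_le_mul_of_nonneg_right ?_ (sq_nonneg _))
    have h3 : 4 * lg n ^ 2000 ≤ (lg n ^ 1001) ^ 2 := by
      rw [← pow_mul]; exact pow_absorb hL (by norm_num) (by norm_num)
    change 4 * mHi n ≤ _ at h3
    linarith [mHi_big hb]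

include hS hb hG hF in
lemma late (k : ℕ) (hk : rad n / 2 ≤ k + 1) : ∀ i ≤ nGrid n G.card + 1,
    S G (wGrid n G.card) (Iw G) (rad n / 2 + k) i ≤ G.card / lg n ^ 270 := by
  obtain ⟨hK, hlo, hhi⟩ := cut_spec hb hS
  obtain ⟨-, htau, -⟩ := ratio hb hS
  have hL := hb.lg_big
  have hL1 := one_le_lg hb
  have hL0 : 0 < lg n := by linarith
  have hroom := hS.room
  have hctx := ctx hb hS hF
  have hm := mS_bounds hb hS
  have hM := mHi_big hb
  have hm0 : 0 < mS G := by linarith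
  obtain ⟨E, hE⟩ : ∃ E : ℝ, E = G.card := ⟨_, rfl⟩
  have hE0 : 0 ≤ E := hE ▸ Nat.cast_nonneg _
  obtain ⟨Md, hMd⟩ : ∃ Md, Md = 101 / 100 * mS G := ⟨_, rfl⟩
  have hMd0 : 0 ≤ Md := by linarith
  have hMd1 : Md ≤ 2 * lg n ^ 2000 := by change Md ≤ 2 * mHi n; linarith
  obtain ⟨δ, hδ⟩ : ∃ δ, δ = 3 * (2 * mHi n + 1) ^ 2 / (G.card : ℝ) := ⟨_, rfl⟩
  have hδ0 : 0 ≤ δ := hδ ▸ by positivity
  have hδ1 : δ ≤ 1 / lg n ^ 25000 := hδ ▸ delta_le hb hS
  have hδ2 : δ ≤ 1 / 2 := hδ1.trans (one_div_le_one_div_of_le (by norm_num)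
    ((le_trans (by norm_num) hL).trans (le_self_pow₀ hL1 (by norm_num))))
  have hpK := phi_pos (E := G.card) (k := cut G) (by omega)
  have hphi2 : phi G.card (cut G) ^ 2 ≤ 3 * lg n ^ 60 / lg n ^ 2000 := by
    rw [mk_eq hS] at hhi
    change mS G * _ ≤ 21 / 10 * lg n ^ 60 at hhi
    rw [le_div_iff₀ (by positivity)]
    change phi G.card (cut G) ^ 2 * mHi n ≤ _
    nlinarith [sq_nonneg (phi G.card (cut G))]
  obtain ⟨R, hR⟩ : ∃ R, R = 111 / 100 * phi G.card (cut G) ^ 2 := ⟨_, rfl⟩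
  have hR0 : 0 ≤ R := hR ▸ by positivity
  have hR1 : R ≤ 4 * (1 / lg n ^ 1940) := by
    have : 3 * lg n ^ 60 / lg n ^ 2000 = 3 * (1 / lg n ^ 1940) := by
      rw [show lg n ^ 2000 = lg n ^ 1940 * lg n ^ 60 by rw [← pow_add]]
      field_simp
    have h0 : 0 ≤ 1 / lg n ^ 1940 := by positivity
    linarith
  obtain ⟨a, ha⟩ : ∃ a, a = 1 / lg n ^ 9000 := ⟨_, rfl⟩
  have ha0 : 0 ≤ a := ha ▸ by positivity
  have ha1 : a ≤ 1 / lg n ^ 1940 :=
    ha.le.trans (one_div_le_one_div_of_le (pow_pos hL0 _) (pow_le_pow_right₀ hL1 (by norm_num)))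
  have hx : ∑ i ∈ range (cut G), wGrid n G.card i + (R + a) ≤ 1 / 30 := by
    have h1 : 1 / lg n ^ 1940 ≤ 1 / 1000 := one_div_le_one_div_of_le (by norm_num)
      ((le_trans (by norm_num) hL).trans (le_self_pow₀ hL1 (by norm_num)))
    rewrite [sum_wGrid n (card_pos' hS) hK.le, xt]
    have h2 : (phi G.card (cut G))⁻¹ ^ 2 ≤ mS G / mLo n := by
      rw [mk_eq hS] at hlo
      rw [inv_pow, le_div_iff₀ (show (0 : ℝ) < mLo n from pow_pos hL0 _),
        inv_mul_le_iff₀ (by positivity)]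
      linarith
    have h3 : (100 : ℝ) ≤ mLo n :=
      le_trans (by norm_num) (hL.trans (le_self_pow₀ hL1 (by norm_num)))
    have h4 : mS G / mLo n ≤ mS G / 100 :=
      div_le_div_of_nonneg_left hm0.le (by norm_num) h3
    have h5 : ((phi G.card (cut G))⁻¹ ^ 2 - 1) / (2 * mS G) ≤ 1 / 100 := by
      rw [div_le_iff₀ (by linarith)]; linarith
    change ((phi G.card (cut G))⁻¹ ^ 2 - 1) / (2 * mS G) + _ ≤ _
    linarith
  have hIwmean : ∀ c, c ≤ nGrid n G.card →
      ∑ x ∈ G, |uOf G (Iw G c) x - phi G.card c| ≤ G.card * phi G.card c * (1 / lg n ^ 800) := by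
    intro c hc
    rw [Iw_eq c hc]
    refine (hF.mean c hc).trans (le_of_eq ?_)
    rw [mHi, ← Real.rpow_natCast _ 2000, ← Real.rpow_mul hL0.le,
      show ((2000 : ℕ) : ℝ) * (-(2 / 5) : ℝ) = -((800 : ℕ) : ℝ) by norm_num,
      Real.rpow_neg hL0.le, Real.rpow_natCast, one_div]
  obtain ⟨Dv, hDv⟩ : ∃ Dv, Dv = 432 / 100 * Md * (101 / 100 * phi G.card (cut G)) *
    (G.card * phi G.card (cut G) * (1 / lg n ^ 800)) := ⟨_, rfl⟩
  have hDv0 : 0 ≤ Dv := hDv ▸ by positivity
  obtain ⟨s, hs⟩ : ∃ s : ℕ → ℝ, s = fun c => wGrid n G.card (cut G + c) *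
    (22 / 10 * (216 / 100 * Md * phi G.card (cut G + c) ^ 2)) := ⟨_, rfl⟩
  have hlast : wGrid n G.card (nGrid n G.card) *
      (22 / 10 * (216 / 100 * Md * phi G.card (nGrid n G.card) ^ 2)) ≤ 1 / 20 := by
    have h1 : phi G.card (nGrid n G.card) ^ 2 ≤ 1 :=
      pow_le_one₀ (phi_pos (by omega)).le (phi_le_one _ _)
    have h2 : 22 / 10 * (216 / 100 * Md * phi G.card (nGrid n G.card) ^ 2) ≤ 10 * lg n ^ 2000 := by
      nlinarith
    have h3 := mul_le_mul ((w_le hS _ (Nat.lt_succ_self _)).trans (delta_le hb hS)) h2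
      (by positivity) (by positivity)
    refine h3.trans ?_
    rw [one_div_mul_eq_div]
    refine (div_absorb hL (by norm_num) (show 2000 + 100 < 25000 by norm_num)).trans ?_
    exact one_div_le_one_div_of_le (by norm_num)
      ((le_trans (by norm_num) hL).trans (le_self_pow₀ hL1 (by norm_num)))
  have hs1 : ∀ c, cut G + c < nGrid n G.card → s c ≤ 495 / 100 * stp G.card (cut G + c) := by
    intro c hc
    have h1 := weight_le hb hS hc
    have h2 := (stp_small hS hc.le).1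
    rw [hs, hMd]; dsimp only
    linarith
  have hB := stageB hctx (j₀ := rad n / 2) (K := cut G) (Md := Md) (δ := δ) (R := R) (a := a)
    (Dv := Dv) (q := fun c => 216 / 100 * Md * phi G.card c ^ 2)
    (dev := fun c => devK G Md (101 / 100 * phi G.card (cut G))
      fun y => |uOf G (Iw G c) y - phi G.card c|)
    (by omega) hMd0 hδ0 (hMd ▸ deg_le hb hS hG) (hδ ▸ w_le hS) hδ2 hR0 ha0
    (ha ▸ early hb hS hG hF)
    (fun T hT f hf => hR ▸ rate_le hb hS hF le_rfl hT hf) hx
    (fun c h1 h2 g hg => co_le hctx (by omega) (hMd ▸ deg_le hb hS hG) (phi_pos (by omega)).le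
      ((phi_anti h1).trans (by linarith)) (fun x hx' => (uOf_antitone hctx h1 (by omega) x).trans
        (u_le hb hS hF le_rfl hx')) hg)
    (fun c h1 h2 => by
      have hp2 : phi G.card c ^ 2 ≤ 1 := pow_le_one₀ (phi_pos (by omega)).le (phi_le_one _ _)
      refine ⟨by positivity, by nlinarith, ?_⟩
      rcases Nat.lt_or_ge c (nGrid n G.card) with h | h
      · have := hs1 (c - cut G) (by omega)
        rw [hs, Nat.add_sub_cancel' h1] at this
        dsimp only at this
        rw [Nat.add_sub_cancel' h1] at this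
        linarith [stp_tiny hS (n_big hb) h]
      · obtain rfl : c = nGrid n G.card := by omega
        exact hlast)
    (fun c h1 h2 => ⟨fun g _ => devK_nonneg hMd0 (by positivity) (fun _ => abs_nonneg _) g, by
      rw [hDv]
      refine (sum_devK_le (by positivity) (hMd ▸ deg_le hb hS hG) fun _ => abs_nonneg _).trans ?_
      refine mul_le_mul_of_nonneg_left ((hIwmean c (by omega)).trans ?_) (by positivity)
      exact mul_le_mul_of_nonneg_right
        (mul_le_mul_of_nonneg_left (phi_anti h1) (Nat.cast_nonneg _)) (by positivity)⟩)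
    hDv0 k
  intro i hi
  refine (hB i hi).trans ?_
  rw [← hs, ← hE]
  have hamp : amp s (nGrid n G.card + 1 - cut G) ≤ lg n ^ 400 := amp_le_pow hL0 (by
    rw [show nGrid n G.card + 1 - cut G = (nGrid n G.card - cut G) + 1 by omega, sum_range_succ]
    have h1 : ∑ c ∈ range (nGrid n G.card - cut G), s c ≤
        495 / 100 * ∑ c ∈ Ico (cut G) (nGrid n G.card), stp G.card c := by
      rw [sum_Ico_eq_sum_range, mul_sum]
      exact sum_le_sum fun c hc => hs1 c (by have := mem_range.1 hc; omega)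
    have h2 : s (nGrid n G.card - cut G) ≤ 1 / 20 := by
      rw [hs]; dsimp only; rw [Nat.add_sub_cancel' hK.le]; exact hlast
    have h3 : 1 ≤ Real.log (lg n) := by
      rw [Real.le_log_iff_exp_le hL0]; linarith [Real.exp_one_lt_d9]
    push_cast
    linarith)
  have hDv1 : Dv ≤ 28 * lg n ^ 60 * E * (1 / lg n ^ 800) := by
    rewrite [hDv, ← hE]
    exact dv_num hL hE0 hMd1 hphi2
  have hk2 : lg n ^ 30000 ≤ 2 * (2 : ℝ) ^ k :=
    hb.le_two.trans ((pow_le_pow_right₀ (by norm_num) hk).trans (le_of_eq (pow_succ' 2 k)))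
  exact late_num hL hE0 hMd0 hMd1 hδ0 hδ1 hR0 hR1 ha0 (ha.le) hDv0 hDv1 hk2
    (Real.exp_pos _).le hamp

include hS hb hG hF in
lemma main (j : ℕ) (hj : j = rad n ∨ j = rad n + 1) :
    |∑ f ∈ G, itVal G j f - pred G| ≤ pred G / lg n := by
  obtain ⟨hK, hlo, hhi⟩ := cut_spec hb hS
  obtain ⟨hratio, -, hphi⟩ := ratio hb hS
  have hL := hb.lg_big
  have hL1 := one_le_lg hb
  have hL0 : 0 < lg n := by linarith
  have hroom := hS.room
  have hctx := ctx hb hS hF
  have hm := mS_bounds hb hS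
  have hM := mHi_big hb
  have hlo0 : 0 < mLo n := pow_pos hL0 _
  have hrad : 1 ≤ rad n / 2 := by
    by_contra h
    have h2 := hb.le_two
    rewrite [show rad n / 2 = 0 by omega, pow_zero] at h2
    have h3 : lg n ≤ lg n ^ 30000 := le_self_pow₀ hL1 (by norm_num)
    linarith
  have heven : rad n = 2 * (rad n / 2) := (Nat.mul_div_cancel' (even_iff_two_dvd.1 (even_rad n))).symm
  obtain ⟨J, rfl⟩ : ∃ J, j = J + 1 := ⟨j - 1, by omega⟩
  obtain ⟨k, rfl⟩ : ∃ k, J = rad n / 2 + k := ⟨J - rad n / 2, by omega⟩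
  obtain ⟨Md, hMd⟩ : ∃ Md, Md = 101 / 100 * mS G := ⟨_, rfl⟩
  have hMd0 : 0 ≤ Md := by linarith
  have hMd1 : Md ≤ 2 * lg n ^ 2000 := by change Md ≤ 2 * mHi n; linarith
  have hdeg := deg_le hb hS hG
  rewrite [← hMd] at hdeg
  obtain ⟨δ, hδ⟩ : ∃ δ, δ = 3 * (2 * mHi n + 1) ^ 2 / (G.card : ℝ) := ⟨_, rfl⟩
  have hδ0 : 0 ≤ δ := (div_nonneg (mul_nonneg (by norm_num) (sq_nonneg _)) (Nat.cast_nonneg _)).trans hδ.ge
  have hδ1 : δ ≤ 1 / lg n ^ 25000 := hδ ▸ delta_le hb hS
  have hδ2 : δ ≤ 1 / 2 := hδ1.trans (one_div_le_one_div_of_le (by norm_num)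
    ((le_trans (by norm_num) hL).trans (le_self_pow₀ hL1 (by norm_num))))
  have hp := phi_pos (E := G.card) (k := nGrid n G.card) (by omega)
  have hpK := phi_pos (E := G.card) (k := cut G) (by omega)
  have hR : 111 / 100 * phi G.card (cut G) ^ 2 ≤ 1 / 100 := by
    rewrite [mk_eq hS] at hhi
    have h1 : 100000 * lg n ^ 60 ≤ lg n ^ 2000 := pow_absorb hL (by norm_num) (by norm_num)
    change 100000 * mLo n ≤ mHi n at h1
    nlinarith [sq_nonneg (phi G.card (cut G))]
  have ha0 : 0 ≤ 1 / lg n ^ 9000 := div_nonneg zero_le_one (pow_pos hL0 _).le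
  have hxK : ∑ i ∈ range (cut G), wGrid n G.card i ≤ 1 / 100 := by
    rewrite [sum_wGrid n (card_pos' hS) hK.le, xt]
    change ((phi G.card (cut G))⁻¹ ^ 2 - 1) / (2 * mS G) ≤ _
    rewrite [mk_eq hS] at hlo
    have h2 : (phi G.card (cut G))⁻¹ ^ 2 ≤ mS G / mLo n := by
      rewrite [inv_pow, le_div_iff₀ hlo0, inv_mul_le_iff₀ (by positivity)]
      linarith
    have h3 : (100 : ℝ) ≤ mLo n :=
      le_trans (by norm_num) (hL.trans (le_self_pow₀ hL1 (by norm_num)))
    have h4 : mS G / mLo n ≤ mS G / 100 :=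
      div_le_div_of_nonneg_left (by linarith) (by norm_num) h3
    rewrite [div_le_iff₀ (by linarith)]
    linarith
  have ha1 : 1 / lg n ^ 9000 ≤ 1 / 100 := one_div_le_one_div_of_le (by norm_num)
    ((le_trans (by norm_num) hL).trans (le_self_pow₀ hL1 (by norm_num)))
  have hroot := root_bound hctx (j := rad n / 2 + k) (Md := Md) (δ := δ)
    (U := 101 / 100 * phi G.card (cut G)) (by omega : cut G ≤ nGrid n G.card + 1) hMd0 hδ0 hdeg
    (hδ ▸ w_le hS) hδ2 ha0 (early hb hS hG hF _ (Nat.le_add_right _ _))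
    (fun T hT f hf => rate_le hb hS hF le_rfl hT hf) (by linarith)
    (fun g hg => u_le hb hS hF le_rfl hg) (by positivity)
    (late hb hS hG hF k (by omega))
  have hlast : ∑ g ∈ G, |uOf G (Iw G (nGrid n G.card + 1)) g - uOf G (Iw G (nGrid n G.card)) g| ≤
      G.card * (Md * δ) := by
    refine (sum_le_card_nsmul _ _ (Md * δ) fun g _ => ?_).trans (le_of_eq (nsmul_eq_mul _ _))
    rewrite [uOf_eq, uOf_eq]
    refine (abs_prod_sub_prod _ _ _ (fun T hT => ?_) fun T hT => ?_).trans ?_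
    · have := hctx.small _ le_rfl T (mem_kids hT).1 g (mem_kids hT).2
      constructor <;> linarith
    · have := hctx.small _ (Nat.le_succ _) T (mem_kids hT).1 g (mem_kids hT).2
      constructor <;> linarith
    refine (sum_le_card_nsmul _ _ δ fun T _ => ?_).trans ?_
    · have := I_le_succ hctx (Nat.lt_succ_self _) T g
      have := (w_le hS _ (Nat.lt_succ_self (nGrid n G.card))).trans hδ.ge
      rewrite [abs_le]; constructor <;> linarith
    · rewrite [nsmul_eq_mul]
      exact mul_le_mul_of_nonneg_right (hdeg g) hδ0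
  have hmean : ∑ g ∈ G, |uOf G (Iw G (nGrid n G.card)) g - phi G.card (nGrid n G.card)| ≤
      G.card * phi G.card (nGrid n G.card) * (1 / lg n ^ 800) := by
    rewrite [Iw_eq _ le_rfl]
    refine (hF.mean _ le_rfl).trans (le_of_eq ?_)
    rw [mHi, ← Real.rpow_natCast _ 2000, ← Real.rpow_mul hL0.le,
      show ((2000 : ℕ) : ℝ) * (-(2 / 5) : ℝ) = -((800 : ℕ) : ℝ) by norm_num,
      Real.rpow_neg hL0.le, Real.rpow_natCast, one_div]
  have htri : |∑ f ∈ G, itVal G (rad n / 2 + k + 1) f - pred G| ≤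
      ∑ g ∈ G, |Labels.val G (wGrid n G.card) (rad n / 2 + k + 1) ∅ g (nGrid n G.card + 1) -
        uOf G (Iw G (nGrid n G.card + 1)) g| +
      ∑ g ∈ G, |uOf G (Iw G (nGrid n G.card + 1)) g - uOf G (Iw G (nGrid n G.card)) g| +
      ∑ g ∈ G, |uOf G (Iw G (nGrid n G.card)) g - phi G.card (nGrid n G.card)| := by
    have e : pred G = ∑ _g ∈ G, phi G.card (nGrid n G.card) := by
      rewrite [sum_const, nsmul_eq_mul]; rfl
    rewrite [e, ← sum_sub_distrib, ← sum_add_distrib, ← sum_add_distrib]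
    refine (abs_sum_le_sum_abs _ _).trans (sum_le_sum fun g _ => ?_)
    exact (abs_sub_le _ (uOf G (Iw G (nGrid n G.card)) g) _).trans
      (add_le_add (abs_sub_le _ _ _) le_rfl)
  refine htri.trans ((add_le_add (add_le_add hroot hlast) hmean).trans ?_)
  exact final_num hL (Nat.cast_nonneg _) hMd0 hMd1 hδ0 hδ1 hp hphi hratio

end

end Vale.Agent.P046.Full.Iter

namespace Vale.Agent.P046.Full

open Filter

/-- Module 5: the depth recursion agrees with the cavity system at the stopping stage. -/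
theorem iterStep : IterStep := by
  filter_upwards [Iter.eventually_large, eventually_stageFacts] with n hb hS G hG hF j hj
  exact Iter.main hb (hS G hG) hG hF j hj

end Vale.Agent.P046.Full
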