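import Vale.Agent.P046.Full.LabelDefs
import Vale.Agent.P046.Full.Grid

/-!
The alternating cell boundaries of the label recursion only matter by the mesh: on any edge
set the two-sided iterate is within `(4 D) ^ j * D * δ` of the one that reads children at the
start of their parent cell.
-/

namespace Vale.Agent.P046.Full.Labels

open Finset
open scoped Classical

variable {n : ℕ}

/-- The iterate reading children at the start of the parent cell. -/
noncomputable def val0 (G : Finset (Sym2 (Fin n))) (w : ℕ → ℝ) :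
    ℕ → Finset (Fin n) → Sym2 (Fin n) → ℕ → ℝ
  | 0, _, _, _ => 1
  | k + 1, P, f, c => ∏ T ∈ kids G P f,
      (1 - ∑ i ∈ range c, w i * ∏ h ∈ (edgesOf T).erase f, val0 G w k T h i)

/-- The difference of two products in the unit interval is at most the sum of the differences. -/
lemma abs_prod_sub_prod_le_sum {α : Type*} [DecidableEq α] {s : Finset α} {a b : α → ℝ}
    (ha : ∀ i ∈ s, a i ∈ Set.Icc 0 1) (hb : ∀ i ∈ s, b i ∈ Set.Icc 0 1) :
    |∏ i ∈ s, a i - ∏ i ∈ s, b i| ≤ ∑ i ∈ s, |a i - b i| := by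
  induction s using Finset.induction_on with
  | empty => simp
  | insert x t hx ih =>
    have ih' := ih (fun i hi => ha i (mem_insert_of_mem hi)) fun i hi => hb i (mem_insert_of_mem hi)
    obtain ⟨h0, h1⟩ := ha x (mem_insert_self _ _)
    have hp0 : 0 ≤ ∏ i ∈ t, b i := prod_nonneg fun i hi => (hb i (mem_insert_of_mem hi)).1
    have hp1 : ∏ i ∈ t, b i ≤ 1 := prod_le_one (fun i hi => (hb i (mem_insert_of_mem hi)).1)
      fun i hi => (hb i (mem_insert_of_mem hi)).2
    rw [prod_insert hx, prod_insert hx, sum_insert hx]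
    calc _ = |a x * (∏ i ∈ t, a i - ∏ i ∈ t, b i) + (a x - b x) * ∏ i ∈ t, b i| := by ring_nf
      _ ≤ |a x * (∏ i ∈ t, a i - ∏ i ∈ t, b i)| + |(a x - b x) * ∏ i ∈ t, b i| := abs_add_le _ _
      _ ≤ _ := by
        rw [abs_mul, abs_mul, abs_of_nonneg h0, abs_of_nonneg hp0]
        nlinarith [abs_nonneg (a x - b x), abs_nonneg (∏ i ∈ t, a i - ∏ i ∈ t, b i)]

lemma card_erase_edgesOf {T : Finset (Fin n)} (hT : T.card = 3) {f : Sym2 (Fin n)}
    (hf : f ∈ edgesOf T) : ((edgesOf T).erase f).card = 2 := by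
  rw [card_erase_of_mem hf]
  have h : (edgesOf T).card = 3 := by
    obtain ⟨a, b, c, hab, hac, hbc, rfl⟩ := card_eq_three.1 hT
    have h : edgesOf ({a, b, c} : Finset (Fin n)) = {s(a, b), s(a, c), s(b, c)} := by
      ext e
      induction e using Sym2.ind with
      | _ x y =>
        simp only [edgesOf, mem_filter, mem_sym2_iff, Sym2.mem_iff, Sym2.mk_isDiag_iff,
          mem_insert, mem_singleton, Sym2.eq_iff, forall_eq_or_imp, forall_eq]
        constructor
        · rintro ⟨⟨hx | hx | hx, hy | hy | hy⟩, hne⟩ <;> simp_all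
        · rintro ((⟨rfl, rfl⟩ | ⟨rfl, rfl⟩) | (⟨rfl, rfl⟩ | ⟨rfl, rfl⟩) | (⟨rfl, rfl⟩ | ⟨rfl, rfl⟩))
            <;> simp_all [Ne.symm]
    rw [h]
    refine card_eq_three.2 ⟨_, _, _, ?_, ?_, ?_, rfl⟩ <;> simp [hab, hac, hbc, hab.symm]
  omega

variable (G : Finset (Sym2 (Fin n))) {w : ℕ → ℝ} {L : ℕ}

lemma nxt_le_of_lt {k i c : ℕ} (hi : i < c) (hc : c ≤ L) : nxt k i ≤ L := by
  unfold nxt; split_ifs <;> omega

/-- A weighted sum of numbers in the unit interval lies in the unit interval. -/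
lemma sum_mul_mem_Icc (hw : ∀ i, 0 ≤ w i) (hw1 : ∑ i ∈ range L, w i ≤ 1) {c : ℕ} (hc : c ≤ L)
    {g : ℕ → ℝ} (hg : ∀ i < c, g i ∈ Set.Icc (0 : ℝ) 1) :
    ∑ i ∈ range c, w i * g i ∈ Set.Icc (0 : ℝ) 1 := by
  refine ⟨sum_nonneg fun i hi => mul_nonneg (hw i) (hg i (mem_range.1 hi)).1, ?_⟩
  refine le_trans (sum_le_sum fun i hi => mul_le_of_le_one_right (hw i) (hg i (mem_range.1 hi)).2) ?_
  exact (sum_le_sum_of_subset_of_nonneg (range_mono hc) fun i _ _ => hw i).trans hw1

lemma val_mem_Icc (hw : ∀ i, 0 ≤ w i) (hw1 : ∑ i ∈ range L, w i ≤ 1) : ∀ (k : ℕ)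
    (P : Finset (Fin n)) (f : Sym2 (Fin n)) (c : ℕ), c ≤ L → val G w k P f c ∈ Set.Icc (0 : ℝ) 1
  | 0, _, _, _, _ => by simp [val]
  | k + 1, P, f, c, hc => by
    have h : ∀ T ∈ kids G P f,
        ∑ i ∈ range c, w i * ∏ h ∈ (edgesOf T).erase f, val G w k T h (nxt k i) ∈
          Set.Icc (0 : ℝ) 1 := fun T _ => sum_mul_mem_Icc hw hw1 hc fun i hi =>
      ⟨prod_nonneg fun h _ => (val_mem_Icc hw hw1 k T h _ (nxt_le_of_lt hi hc)).1,
        prod_le_one (fun h _ => (val_mem_Icc hw hw1 k T h _ (nxt_le_of_lt hi hc)).1)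
          fun h _ => (val_mem_Icc hw hw1 k T h _ (nxt_le_of_lt hi hc)).2⟩
    rw [val]
    exact ⟨prod_nonneg fun T hT => by linarith [(h T hT).2],
      prod_le_one (fun T hT => by linarith [(h T hT).2]) fun T hT => by linarith [(h T hT).1]⟩

lemma val0_mem_Icc (hw : ∀ i, 0 ≤ w i) (hw1 : ∑ i ∈ range L, w i ≤ 1) : ∀ (k : ℕ)
    (P : Finset (Fin n)) (f : Sym2 (Fin n)) (c : ℕ), c ≤ L → val0 G w k P f c ∈ Set.Icc (0 : ℝ) 1
  | 0, _, _, _, _ => by simp [val0]
  | k + 1, P, f, c, hc => by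
    have h : ∀ T ∈ kids G P f,
        ∑ i ∈ range c, w i * ∏ h ∈ (edgesOf T).erase f, val0 G w k T h i ∈ Set.Icc (0 : ℝ) 1 :=
      fun T _ => sum_mul_mem_Icc hw hw1 hc fun i hi =>
        ⟨prod_nonneg fun h _ => (val0_mem_Icc hw hw1 k T h _ (hi.le.trans hc)).1,
          prod_le_one (fun h _ => (val0_mem_Icc hw hw1 k T h _ (hi.le.trans hc)).1)
            fun h _ => (val0_mem_Icc hw hw1 k T h _ (hi.le.trans hc)).2⟩
    rw [val0]
    exact ⟨prod_nonneg fun T hT => by linarith [(h T hT).2],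
      prod_le_one (fun T hT => by linarith [(h T hT).2]) fun T hT => by linarith [(h T hT).1]⟩

/-- One cell changes an iterate by at most the codegree times the weight of the cell. -/
lemma abs_val_succ_sub_le (hw : ∀ i, 0 ≤ w i) (hw1 : ∑ i ∈ range L, w i ≤ 1) {D : ℝ}
    (hD : ∀ P f, ((kids G P f).card : ℝ) ≤ D) (k : ℕ) (P : Finset (Fin n)) (f : Sym2 (Fin n))
    {i : ℕ} (hi : i < L) : |val G w k P f (i + 1) - val G w k P f i| ≤ D * w i := by
  have hD0 : 0 ≤ D := le_trans (Nat.cast_nonneg _) (hD P f)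
  cases k with
  | zero => simpa [val] using mul_nonneg hD0 (hw i)
  | succ k =>
    have hp : ∀ T h j, j < L → val G w k T h (nxt k j) ∈ Set.Icc (0 : ℝ) 1 := fun T h j hj =>
      val_mem_Icc G hw hw1 k T h _ (nxt_le_of_lt hj le_rfl)
    have hq : ∀ T j, j < L →
        ∏ h ∈ (edgesOf T).erase f, val G w k T h (nxt k j) ∈ Set.Icc (0 : ℝ) 1 := fun T j hj =>
      ⟨prod_nonneg fun h _ => (hp T h j hj).1,
        prod_le_one (fun h _ => (hp T h j hj).1) fun h _ => (hp T h j hj).2⟩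
    have hs : ∀ c, c ≤ L → ∀ T, (1 - ∑ j ∈ range c, w j *
        ∏ h ∈ (edgesOf T).erase f, val G w k T h (nxt k j)) ∈ Set.Icc (0 : ℝ) 1 := fun c hc T => by
      obtain ⟨h0, h1⟩ := sum_mul_mem_Icc hw hw1 hc fun j hj => hq T j (hj.trans_le hc)
      constructor <;> linarith
    rw [val, val]
    refine (abs_prod_sub_prod_le_sum (fun T _ => hs _ hi T) fun T _ => hs _ hi.le T).trans ?_
    refine (sum_le_card_nsmul _ _ (w i) fun T _ => ?_).trans ?_
    · rw [sum_range_succ]
      obtain ⟨h0, h1⟩ := hq T i hi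
      rw [show ∀ s x : ℝ, 1 - (s + x) - (1 - s) = -x from fun s x => by ring, abs_neg,
        abs_of_nonneg (mul_nonneg (hw i) h0)]
      exact mul_le_of_le_one_right (hw i) h1
    · rw [nsmul_eq_mul]
      exact mul_le_mul_of_nonneg_right (hD P f) (hw i)

/-- **Bridge.** The two-sided iterate against the one-sided one. -/
theorem abs_val_sub_val0_le (hw : ∀ i, 0 ≤ w i) (hw1 : ∑ i ∈ range L, w i ≤ 1) {D δ : ℝ}
    (hD1 : 1 ≤ D) (hD : ∀ P f, ((kids G P f).card : ℝ) ≤ D) (hδ0 : 0 ≤ δ)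
    (hδ : ∀ i < L, w i ≤ δ) : ∀ (k : ℕ) (P : Finset (Fin n)) (f : Sym2 (Fin n)) (c : ℕ), c ≤ L →
      |val G w k P f c - val0 G w k P f c| ≤ (4 * D) ^ k * (D * δ)
  | 0, P, f, c, _ => by
    simp only [val, val0, sub_self, abs_zero, pow_zero, one_mul]
    exact mul_nonneg (by linarith) hδ0
  | k + 1, P, f, c, hc => by
    set e : ℝ := (4 * D) ^ k * (D * δ)
    have hD0 : 0 ≤ D := by linarith
    have he : D * δ ≤ e := le_mul_of_one_le_left (mul_nonneg hD0 hδ0)
      (one_le_pow₀ (by linarith))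
    have hchild : ∀ (T : Finset (Fin n)) (h : Sym2 (Fin n)) i, i < c →
        |val G w k T h (nxt k i) - val0 G w k T h i| ≤ 2 * e := by
      intro T h i hi
      have hiL : i < L := hi.trans_le hc
      have h1 := abs_val_sub_val0_le hw hw1 hD1 hD hδ0 hδ k T h i hiL.le
      have h2 : |val G w k T h (nxt k i) - val G w k T h i| ≤ D * δ := by
        rcases Nat.even_or_odd k with hk | hk
        · simp [nxt, hk, mul_nonneg hD0 hδ0]
        · simp only [nxt, Nat.not_even_iff_odd.2 hk, if_false]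
          exact (abs_val_succ_sub_le G hw hw1 hD k T h hiL).trans
            (mul_le_mul_of_nonneg_left (hδ i hiL) hD0)
      have := abs_sub_le (val G w k T h (nxt k i)) (val G w k T h i) (val0 G w k T h i)
      linarith
    have hv : ∀ (T : Finset (Fin n)) h i, i < c → val G w k T h (nxt k i) ∈ Set.Icc (0 : ℝ) 1 :=
      fun T h i hi => val_mem_Icc G hw hw1 k T h _ (nxt_le_of_lt hi hc)
    have hv0 : ∀ (T : Finset (Fin n)) h i, i < c → val0 G w k T h i ∈ Set.Icc (0 : ℝ) 1 :=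
      fun T h i hi => val0_mem_Icc G hw hw1 k T h _ (hi.le.trans hc)
    have hf : ∀ T ∈ kids G P f,
        |(1 - ∑ i ∈ range c, w i * ∏ h ∈ (edgesOf T).erase f, val G w k T h (nxt k i)) -
          (1 - ∑ i ∈ range c, w i * ∏ h ∈ (edgesOf T).erase f, val0 G w k T h i)| ≤ 4 * e := by
      intro T hT
      rw [show ∀ a b : ℝ, (1 - a) - (1 - b) = b - a from fun a b => by ring,
        ← sum_sub_distrib]
      have hcard : ((edgesOf T).erase f).card = 2 := by
        obtain ⟨h1, h2, -⟩ := mem_filter.1 hT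
        exact card_erase_edgesOf (mem_triangles.1 h1).1 h2
      refine (abs_sum_le_sum_abs _ _).trans
        ((sum_le_sum (g := fun i => w i * (4 * e)) fun i hi => ?_).trans ?_)
      · rw [← mul_sub, abs_mul, abs_of_nonneg (hw i), abs_sub_comm]
        refine mul_le_mul_of_nonneg_left ((abs_prod_sub_prod_le_sum
          (fun h _ => hv T h i (mem_range.1 hi)) fun h _ => hv0 T h i (mem_range.1 hi)).trans
          ((sum_le_card_nsmul _ _ (2 * e) fun h _ => hchild T h i (mem_range.1 hi)).trans ?_))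
          (hw i)
        rw [hcard, nsmul_eq_mul]
        norm_num
        linarith
      · rw [← sum_mul]
        refine mul_le_of_le_one_left (by positivity)
          ((sum_le_sum_of_subset_of_nonneg (range_mono hc) fun i _ _ => hw i).trans hw1)
    have hI : ∀ (g : Finset (Fin n) → ℕ → ℝ), (∀ T, ∀ i < c, g T i ∈ Set.Icc (0 : ℝ) 1) → ∀ T,
        1 - ∑ i ∈ range c, w i * g T i ∈ Set.Icc (0 : ℝ) 1 := fun g hg T => by
      obtain ⟨h0, h1⟩ := sum_mul_mem_Icc hw hw1 hc (hg T)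
      constructor <;> linarith
    rw [val, val0]
    refine (abs_prod_sub_prod_le_sum (fun T _ => hI _ (fun T i hi => ⟨prod_nonneg fun h _ =>
      (hv T h i hi).1, prod_le_one (fun h _ => (hv T h i hi).1) fun h _ => (hv T h i hi).2⟩) T)
      fun T _ => hI _ (fun T i hi => ⟨prod_nonneg fun h _ => (hv0 T h i hi).1,
        prod_le_one (fun h _ => (hv0 T h i hi).1) fun h _ => (hv0 T h i hi).2⟩) T).trans ?_
    refine (sum_le_card_nsmul _ _ (4 * e) hf).trans ?_
    rw [nsmul_eq_mul, pow_succ, show (4 * D) ^ k * (4 * D) * (D * δ) = D * (4 * e) by ring]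
    exact mul_le_mul_of_nonneg_right (hD P f) (by positivity)

end Vale.Agent.P046.Full.Labels

namespace Vale.Agent.P046.Full

open Finset Filter
open scoped Classical

/-- At the stopping stage every edge is in at most `3 * mHi` triangles. -/
lemma kids_card_le {n : ℕ} {G : Gr n} (hG : AtStage G) (hs : StageFacts G)
    (hM : mLo n * 2 ≤ mHi n) (hM0 : 0 < mHi n) (hB : Bd n (mS G) ≤ 1 / 2)
    (P : Finset (Fin n)) (f : Sym2 (Fin n)) :
    ((Labels.kids G P f).card : ℝ) ≤ 3 * mHi n := by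
  rcases (Labels.kids G P f).eq_empty_or_nonempty with h | ⟨T, hT⟩
  · rw [h, card_empty, Nat.cast_zero]; positivity
  obtain ⟨hT1, hT2, -⟩ := mem_filter.1 hT
  have hf : f ∈ G := (mem_triangles.1 hT1).2 hT2
  have hn1 : 1 / (n : ℝ) ≤ 1 / 100 := one_div_le_one_div_of_le (by norm_num) hs.n_large
  obtain ⟨c1, c2⟩ := abs_le.1 (hs.mS_close.trans hn1)
  rw [le_sub_iff_add_le, le_div_iff₀ hM0] at c1
  rw [sub_le_iff_le_add, div_le_iff₀ hM0] at c2
  have hgood := hG.good f hf 0 (by simpa using card_pos.2 ⟨f, hf⟩)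
    (by
      rw [Nat.cast_zero, mul_zero, sub_zero, show mI n (G.card : ℝ) = mS G from rfl]
      linarith)
  rw [Z, prop, dv, if_pos hf, Nat.cast_zero, mul_zero, sub_zero] at hgood
  have h2 := (abs_le.1 (hgood.trans hB)).2
  have hm : 0 < mS G := by linarith [hs.mS_big]
  rw [sub_le_iff_le_add, div_le_iff₀ hm] at h2
  refine le_trans ?_ (show cd G f ≤ 3 * mHi n by linarith)
  rw [cd, Nat.cast_le]
  exact card_le_card fun U hU => mem_filter.2 ⟨(mem_filter.1 hU).1, (mem_filter.1 hU).2.1⟩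

/-- The depth iterates at the stopping stage against the one-sided recursion, at both ends. -/
theorem eventually_itVal_bridge : ∀ᶠ n : ℕ in atTop, ∀ G : Gr n, AtStage G →
    ∀ j, j ≤ rad n + 1 → ∀ f,
      |itVal G j f -
          Labels.val0 G (wGrid n G.card) j ∅ f (nGrid n G.card + 1)| ≤ (n : ℝ) ^ (-(1 : ℝ)) ∧
      |Labels.val0 G (wGrid n G.card) j ∅ f (nGrid n G.card + 1) -
          Labels.val0 G (wGrid n G.card) j ∅ f (nGrid n G.card)| ≤ 3 * (n : ℝ) ^ (-(1 : ℝ)) := by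
  filter_upwards [eventually_stageFacts, eventually_le_mHi 1,
    eventually_mul_lg_pow_le_pow 2 (show 60 < 2000 by norm_num),
    eventually_mul_lg_pow_le_pow 8 (show 10 < 2000 by norm_num),
    eventually_mHi_pow_rad_le 12 1 (show (0 : ℝ) < 1 / 8 by norm_num),
    eventually_mHi_pow_le 972 3 (show (0 : ℝ) < 1 / 8 by norm_num)]
    with n hfacts hM1 hMlo hML hrad hM3 G hG j hj f
  have hs := hfacts G hG
  have hlg : (1 : ℝ) ≤ lg n := le_trans (by norm_num) hs.lg_large
  have hn : (0 : ℝ) < n := lt_of_lt_of_le (by norm_num) hs.n_large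
  have hM0 : 0 < mHi n := by linarith
  have hB : Bd n (mS G) ≤ 1 / 2 := by
    have hn1 : 1 / (n : ℝ) ≤ 1 / 100 := one_div_le_one_div_of_le (by norm_num) hs.n_large
    obtain ⟨c1, -⟩ := abs_le.1 (hs.mS_close.trans hn1)
    rw [le_sub_iff_add_le, le_div_iff₀ hM0] at c1
    change 8 * lg n ^ 10 ≤ mHi n at hML
    have h4 : (2 * lg n ^ 5) ^ 2 ≤ mS G := by
      rw [show (2 * lg n ^ 5) ^ 2 = 4 * lg n ^ 10 by ring]; linarith
    have := Real.le_sqrt_of_sq_le h4
    rw [Bd, div_le_iff₀ (Real.sqrt_pos.2 (by linarith [hs.mS_big]))]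
    linarith
  set D : ℝ := 3 * mHi n with hDdef
  set δ : ℝ := 3 * (2 * mHi n + 1) ^ 2 / G.card with hδdef
  set L := nGrid n G.card + 1 with hL
  have hE : 0 < G.card := by have := hs.room; omega
  have hD1 : 1 ≤ D := by rw [hDdef]; linarith
  have hkids := kids_card_le hG hs (by change 2 * lg n ^ 60 ≤ mHi n at hMlo; rw [mLo]; linarith)
    hM0 hB
  have hw := wGrid_nonneg n hE
  have hw1 := sum_wGrid_le_one n hE L
  have hδ : ∀ i < L, wGrid n G.card i ≤ δ := fun i hi => by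
    unfold wGrid
    split_ifs with h1 h2
    · exact hs.hst_small i h1.le
    · rw [h2]; exact hs.last
    · positivity
  have hδ0 : 0 ≤ δ := by positivity
  have hb := Labels.abs_val_sub_val0_le G hw hw1 hD1 hkids hδ0 hδ j ∅ f
  have hb1 := hb L le_rfl
  have hb2 := hb (nGrid n G.card) (Nat.le_succ _)
  have hlast := (Labels.abs_val_succ_sub_le G hw hw1 hkids j ∅ f
    (i := nGrid n G.card) (Nat.lt_succ_self _)).trans
      (mul_le_mul_of_nonneg_left (hδ _ (Nat.lt_succ_self _)) (by linarith))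
  have he : (4 * D) ^ j * (D * δ) ≤ (n : ℝ) ^ (-(1 : ℝ)) := by
    have h4 : (4 * D) ^ j ≤ (12 * mHi n) ^ (1 * rad n + 1) := by
      rw [show 4 * D = 12 * mHi n by rw [hDdef]; ring]
      exact pow_le_pow_right₀ (by linarith) (by omega)
    have h9 : D * (3 * (2 * mHi n + 1) ^ 2) ≤ (n : ℝ) ^ (1 / 8 : ℝ) / 4 := by
      have : (2 * mHi n + 1) ^ 2 ≤ (3 * mHi n) ^ 2 := pow_le_pow_left₀ (by linarith) (by linarith) 2
      rw [hDdef]
      nlinarith [mul_le_mul_of_nonneg_left this hM0.le]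
    have hcard : (n : ℝ) ^ (5 / 4 : ℝ) / 4 ≤ G.card := le_trans (div_le_div_of_nonneg_right
      (Real.rpow_le_rpow_of_exponent_le (by linarith [hs.n_large]) (by norm_num)) (by norm_num))
      hs.card_lo
    calc (4 * D) ^ j * (D * δ)
        ≤ (n : ℝ) ^ (1 / 8 : ℝ) * ((n : ℝ) ^ (1 / 8 : ℝ) / 4 / ((n : ℝ) ^ (5 / 4 : ℝ) / 4)) := by
          rw [hδdef, ← mul_div_assoc]
          gcongr
          exact h4.trans hrad
      _ = (n : ℝ) ^ (-(1 : ℝ)) := by
          rw [div_div_div_cancel_right₀ (by norm_num), ← mul_div_assoc, ← Real.rpow_add hn,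
            ← Real.rpow_sub hn]
          norm_num
  have h1 : D * δ ≤ (n : ℝ) ^ (-(1 : ℝ)) :=
    (le_mul_of_one_le_left (by positivity) (one_le_pow₀ (by linarith))).trans he
  refine ⟨hb1.trans he, ?_⟩
  have := abs_sub_le (Labels.val0 G (wGrid n G.card) j ∅ f L)
    (Labels.val G (wGrid n G.card) j ∅ f L)
    (Labels.val0 G (wGrid n G.card) j ∅ f (nGrid n G.card))
  have := abs_sub_le (Labels.val G (wGrid n G.card) j ∅ f L)
    (Labels.val G (wGrid n G.card) j ∅ f (nGrid n G.card))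
    (Labels.val0 G (wGrid n G.card) j ∅ f (nGrid n G.card))
  rw [abs_sub_comm] at hb1
  linarith

end Vale.Agent.P046.Full
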