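import Vale.Agent.P046.Full.LabelDefs

/-!
Random triangle removal from a fixed edge set as greedy packing by independent weighted labels,
up to the probability that two labels tie.
-/

namespace Vale.Agent.P046.Full.Labels

open Finset
open scoped Classical

variable {n : ℕ}

lemma wt_nonneg_of {ι κ : Type*} [Fintype ι] {w : κ → ℝ} (h : ∀ i, 0 ≤ w i) (x : ι → κ) :
    0 ≤ wt w x :=
  prod_nonneg fun i _ => h (x i)

lemma sum_wt_one {ι κ : Type*} [Fintype ι] [DecidableEq ι] [Fintype κ] {w : κ → ℝ}
    (h : ∑ i, w i = 1) : ∑ x : ι → κ, wt w x = 1 := by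
  unfold wt
  rw [← Fintype.prod_sum fun (_ : ι) (j : κ) => w j, prod_congr rfl fun _ _ => h, prod_const_one]

lemma wt_comp_perm {ι κ : Type*} [Fintype ι] (w : κ → ℝ) (σ : Equiv.Perm ι) (x : ι → κ) :
    wt w (x ∘ σ) = wt w x :=
  Equiv.prod_comp σ fun i => w (x i)

/-- Two given labels tie with probability at most `δ`. -/
lemma sum_wt_eq_le {ι κ : Type*} [Fintype ι] [DecidableEq ι] [Fintype κ] {w : κ → ℝ}
    (h0 : ∀ i, 0 ≤ w i) (h : ∑ i, w i = 1) {δ : ℝ} (hδ : ∀ i, w i ≤ δ) {a b : ι} (hab : a ≠ b) :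
    ∑ x : ι → κ, (if x a = x b then wt w x else 0) ≤ δ := by
  have hd : ∀ x : ι → κ, (if x a = x b then wt w x else 0) =
      ∑ c, ∏ i, if (i = a ∨ i = b) ∧ x i ≠ c then 0 else w (x i) := by
    intro x
    rw [sum_eq_single (x a)]
    · by_cases hx : x a = x b
      · rw [if_pos hx, wt]
        refine prod_congr rfl fun i _ => (if_neg ?_).symm
        rintro ⟨rfl | rfl, hne⟩
        · exact hne rfl
        · exact hne hx.symm
      · rw [if_neg hx]
        symm
        exact prod_eq_zero (mem_univ b) (if_pos ⟨Or.inr rfl, fun h => hx h.symm⟩)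
    · intro c _ hc
      exact prod_eq_zero (mem_univ a) (if_pos ⟨Or.inl rfl, fun h => hc h.symm⟩)
    · simp
  rw [sum_congr rfl fun x _ => hd x, sum_comm]
  calc ∑ c, ∑ x : ι → κ, ∏ i, (if (i = a ∨ i = b) ∧ x i ≠ c then 0 else w (x i))
      = ∑ c, w c * w c := by
        refine sum_congr rfl fun c _ => ?_
        rw [← Fintype.prod_sum fun i j => if (i = a ∨ i = b) ∧ j ≠ c then 0 else w j,
          ← mul_prod_erase univ _ (mem_univ a),
          ← mul_prod_erase (univ.erase a) _ (show b ∈ univ.erase a by simp [hab.symm])]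
        have e1 : ∀ i, i = a ∨ i = b →
            (∑ j, if (i = a ∨ i = b) ∧ j ≠ c then 0 else w j) = w c := by
          intro i hi
          simp [hi]
        rw [e1 a (Or.inl rfl), e1 b (Or.inr rfl),
          prod_eq_one fun i hi => by
            simp only [mem_erase] at hi
            simp [hi.1, hi.2.1, h], mul_one]
    _ ≤ ∑ c, δ * w c := sum_le_sum fun c _ => mul_le_mul_of_nonneg_right (hδ c) (h0 c)
    _ = δ := by rw [← mul_sum, h, mul_one]

/-- Some two labels tie with probability at most `N^2 δ`. -/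
lemma sum_wt_not_injective_le {ι κ : Type*} [Fintype ι] [DecidableEq ι] [Fintype κ] {w : κ → ℝ}
    (h0 : ∀ i, 0 ≤ w i) (h : ∑ i, w i = 1) {δ : ℝ} (hδ : ∀ i, w i ≤ δ) (hδ0 : 0 ≤ δ) :
    ∑ x : ι → κ, (if Function.Injective x then 0 else wt w x) ≤
      (Fintype.card ι : ℝ) ^ 2 * δ := by
  calc _ ≤ ∑ x : ι → κ, ∑ p ∈ univ.filter (fun p : ι × ι => p.1 ≠ p.2),
        if x p.1 = x p.2 then wt w x else 0 := by
        refine sum_le_sum fun x _ => ?_
        have hnn : ∀ p : ι × ι, 0 ≤ if x p.1 = x p.2 then wt w x else 0 := fun p => by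
          split_ifs
          exacts [wt_nonneg_of h0 x, le_rfl]
        split_ifs with hx
        · exact sum_nonneg fun p _ => hnn p
        · simp only [Function.Injective, not_forall] at hx
          obtain ⟨a, b, hab, hne⟩ := hx
          refine le_trans (le_of_eq ?_) (single_le_sum (fun p _ => hnn p)
            (show (a, b) ∈ univ.filter (fun p : ι × ι => p.1 ≠ p.2) by simp [hne]))
          simp [hab]
    _ ≤ ((univ.filter fun p : ι × ι => p.1 ≠ p.2).card : ℝ) * δ := by
        rw [sum_comm, ← nsmul_eq_mul]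
        exact sum_le_card_nsmul _ _ _ fun p hp => sum_wt_eq_le h0 h hδ (mem_filter.1 hp).2
    _ ≤ _ := by
        refine mul_le_mul_of_nonneg_right ?_ hδ0
        refine (Nat.cast_le.2 ((card_filter_le _ _).trans (le_of_eq ?_))).trans_eq (Nat.cast_pow _ 2)
        rw [card_univ, Fintype.card_prod, sq]

/-- Trying all vertex sets in a random order is random triangle removal. -/
lemma shuffle_eq_Ev_of (G : Finset (Sym2 (Fin n))) (Y : Sys (Sym2 (Fin n)))
    (v : Fin Y.N ≃ Finset (Fin n))
    (hv : ∀ i, Y.ed i = if v i ∈ triangles G then edgesOf (v i) else ∅)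
    (φ : Finset (Sym2 (Fin n)) → ℝ) :
    ∀ (S : Finset (Fin Y.N)) (H : Finset (Sym2 (Fin n))), H ⊆ G →
      (∀ i, v i ∈ triangles H → i ∈ S) → Y.shuffle φ S H = Ev φ H := by
  intro S
  induction S using Finset.strongInduction with
  | _ S ih =>
    intro H hHG hS
    rcases S.eq_empty_or_nonempty with rfl | hne
    · rw [Sys.shuffle, if_pos rfl, Ev_of_empty]
      rw [eq_empty_iff_forall_notMem]
      intro T hT
      exact notMem_empty _ (hS (v.symm T) (by rwa [Equiv.apply_symm_apply]))
    rw [Sys.shuffle, if_neg hne.ne_empty, sum_attach S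
      fun i => Y.shuffle φ (S.erase i) (Y.step H i)]
    have hstep : ∀ i ∈ S, Y.shuffle φ (S.erase i) (Y.step H i) =
        if v i ∈ triangles H then Ev φ (H \ edgesOf (v i)) else Ev φ H := by
      intro i hi
      by_cases h : v i ∈ triangles H
      · have hG : v i ∈ triangles G :=
          mem_triangles.2 ⟨(mem_triangles.1 h).1, (mem_triangles.1 h).2.trans hHG⟩
        have hed : Y.ed i = edgesOf (v i) := by rw [hv, if_pos hG]
        have hh : ∀ j, v j ∈ triangles (H \ edgesOf (v i)) → j ∈ S.erase i := by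
          intro j hj
          obtain ⟨hj3, hjs⟩ := mem_triangles.1 hj
          obtain ⟨hjH, hjd⟩ := subset_sdiff.1 hjs
          refine mem_erase.2 ⟨?_, hS j (mem_triangles.2 ⟨hj3, hjH⟩)⟩
          rintro rfl
          obtain ⟨g, hg⟩ := edgesOf_nonempty hj3
          exact Finset.disjoint_left.1 hjd hg hg
        rw [if_pos h, Sys.step, hed, if_pos (mem_triangles.1 h).2]
        rw [show (fun a b : Sym2 (Fin n) => Classical.propDecidable (a = b)) =
            (fun a b => a.instDecidableEq b) from Subsingleton.elim _ _]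
        exact ih _ (erase_ssubset hi) _ (sdiff_subset.trans hHG) hh
      · have hst : Y.step H i = H := by
          by_cases hG : v i ∈ triangles G
          · have hed : Y.ed i = edgesOf (v i) := by rw [hv, if_pos hG]
            rw [Sys.step, hed, if_neg fun hh => h (mem_triangles.2 ⟨(mem_triangles.1 hG).1, hh⟩)]
          · have hed : Y.ed i = ∅ := by rw [hv, if_neg hG]
            rw [Sys.step, hed]; simp
        rw [if_neg h, hst]
        refine ih _ (erase_ssubset hi) _ hHG fun j hj => mem_erase.2 ⟨?_, hS j hj⟩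
        rintro rfl
        exact h hj
    rw [sum_congr rfl hstep, sum_ite, sum_const]
    have hmap : (S.filter fun i => v i ∈ triangles H).map v.toEmbedding = triangles H := by
      ext T
      simp only [mem_map_equiv, mem_filter, Equiv.apply_symm_apply, and_iff_right_iff_imp]
      exact fun hT => hS _ (by rwa [Equiv.apply_symm_apply])
    have hsum : ∑ i ∈ S.filter (fun i => v i ∈ triangles H), Ev φ (H \ edgesOf (v i)) =
        ∑ T ∈ triangles H, Ev φ (H \ edgesOf T) := by
      conv_rhs => rw [← hmap, sum_map]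
      rfl
    have hcard : (S.filter fun i => v i ∈ triangles H).card = (triangles H).card := by
      conv_rhs => rw [← hmap, card_map]
    have hc : ((S.filter fun i => v i ∈ triangles H).card : ℝ) * Ev φ H =
        ∑ T ∈ triangles H, Ev φ (H \ edgesOf T) := by
      rw [hcard]
      by_cases ht : triangles H = ∅
      · simp [ht]
      · rw [Ev_of_nonempty ht, mul_div_cancel₀ _ (by simp [ht])]
    have hsplit : ((S.filter fun i => v i ∈ triangles H).card : ℝ) +
        (S.filter fun i => ¬ v i ∈ triangles H).card = S.card := by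
      exact_mod_cast S.card_filter_add_card_filter_not _
    have hpos : (S.card : ℝ) ≠ 0 := by simp [hne.ne_empty]
    rw [hsum, ← hc, nsmul_eq_mul, ← add_mul, hsplit]
    field_simp

/-- Averaging over weighted labels is within `2 B N^2 δ` of the shuffled greedy value. -/
lemma abs_shuffle_sub_wt {V : Type} (Y : Sys V) {G : Finset V} (hG : ∀ T, Y.ed T ⊆ G)
    {p : Fin Y.M → ℝ} (h0 : ∀ i, 0 ≤ p i) (h1 : ∑ i, p i = 1) {δ : ℝ} (hδ : ∀ i, p i ≤ δ)
    {φ : Finset V → ℝ} {B : ℝ} (hφ : ∀ H, |φ H| ≤ B) (hS : |Y.shuffle φ univ G| ≤ B) :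
    |Y.shuffle φ univ G - ∑ x : Y.Labels, wt p x * φ (G \ Y.gone Y.full x (Y.M * Y.N))| ≤
      2 * B * ((Y.N : ℝ) ^ 2 * δ) := by
  have hB : 0 ≤ B := (abs_nonneg _).trans hS
  have hδ0 : 0 ≤ δ := (h0 ⟨0, Y.hM⟩).trans (hδ _)
  have key := Y.sum_greedy φ univ G (fun x => if Function.Injective x then wt p x else 0)
    (fun x hx => if_neg hx)
    (fun x T _ U _ => by
      simp only [Function.Injective.of_comp_iff' x (Equiv.bijective (Equiv.swap T U))]
      split_ifs
      exacts [wt_comp_perm p _ x, rfl])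
  simp only [Y.greedy_eq_gone hG] at key
  have htot : ∑ x : Y.Labels, wt p x = 1 := sum_wt_one h1
  have hbad : ∑ x : Y.Labels, (if Function.Injective x then 0 else wt p x) ≤
      (Y.N : ℝ) ^ 2 * δ := by
    have := sum_wt_not_injective_le (ι := Fin Y.N) h0 h1 hδ hδ0
    rw [Fintype.card_fin] at this
    convert this
  obtain ⟨a, ha⟩ : ∃ a, a = Y.shuffle φ univ G := ⟨_, rfl⟩
  rw [← ha] at key hS ⊢
  have k2 : ∑ x : Y.Labels, (if Function.Injective x then wt p x else 0) *
      (a - φ (G \ Y.gone Y.full x (Y.M * Y.N))) = 0 := by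
    simp only [mul_sub, sum_sub_distrib, key, ← sum_mul, sub_self]
  have e : a - ∑ x : Y.Labels, wt p x * φ (G \ Y.gone Y.full x (Y.M * Y.N)) =
      ∑ x : Y.Labels, (if Function.Injective x then 0 else wt p x) *
        (a - φ (G \ Y.gone Y.full x (Y.M * Y.N))) := by
    calc _ = ∑ x : Y.Labels, wt p x * (a - φ (G \ Y.gone Y.full x (Y.M * Y.N))) := by
          simp only [mul_sub, sum_sub_distrib, ← sum_mul, htot, one_mul]
      _ = ∑ x : Y.Labels, wt p x * (a - φ (G \ Y.gone Y.full x (Y.M * Y.N))) -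
          ∑ x : Y.Labels, (if Function.Injective x then wt p x else 0) *
            (a - φ (G \ Y.gone Y.full x (Y.M * Y.N))) := by rw [k2, sub_zero]
      _ = _ := by
          rw [← sum_sub_distrib]
          refine sum_congr rfl fun x _ => ?_
          split_ifs <;> ring
  rw [e]
  refine (abs_sum_le_sum_abs _ _).trans ?_
  refine (sum_le_sum fun x _ => ?_).trans
    (show ∑ x : Y.Labels, 2 * B * (if Function.Injective x then 0 else wt p x) ≤ _ by
      rw [← mul_sum]; exact mul_le_mul_of_nonneg_left hbad (by positivity))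
  rw [abs_mul]
  split_ifs
  · simp
  · rw [abs_of_nonneg (wt_nonneg_of h0 x), mul_comm (wt p x)]
    refine mul_le_mul_of_nonneg_right ?_ (wt_nonneg_of h0 x)
    exact (abs_sub _ _).trans (by linarith [hφ (G \ Y.gone Y.full x (Y.M * Y.N))])

/-- The process is the weighted label greedy up to the tie probability. -/
theorem abs_Ev_sub_wt (G : Finset (Sym2 (Fin n))) {M : ℕ} (hM : 0 < M) {p : Fin M → ℝ}
    (h0 : ∀ i, 0 ≤ p i) (h1 : ∑ i, p i = 1) {δ : ℝ} (hδ : ∀ i, p i ≤ δ)
    {φ : Finset (Sym2 (Fin n)) → ℝ} {B : ℝ} (hφ : ∀ H, |φ H| ≤ B) :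
    |Ev φ G - ∑ x : (sysOn G M hM).Labels, wt p x * φ (G \ (sysOn G M hM).gone
        (sysOn G M hM).full x ((sysOn G M hM).M * (sysOn G M hM).N))| ≤
      2 * B * (((sysOn G M hM).N : ℝ) ^ 2 * δ) := by
  have hs := shuffle_eq_Ev_of G (sysOn G M hM) (idx n) (fun _ => rfl) φ univ G subset_rfl
    fun i _ => mem_univ i
  have h := abs_shuffle_sub_wt (sysOn G M hM) (G := G)
    (fun i => by
      show (if idx n i ∈ triangles G then edgesOf (idx n i) else ∅) ⊆ G
      split_ifs with hi
      exacts [(mem_triangles.1 hi).2, empty_subset G])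
    (p := p) h0 h1 hδ hφ (hs ▸ abs_Ev_le hφ G)
  rw [hs] at h
  convert h using 3
  refine sum_congr rfl fun x _ => ?_
  unfold wt
  rw [show (fun a b : Sym2 (Fin n) => Classical.propDecidable (a = b)) =
      (fun a b => a.instDecidableEq b) from Subsingleton.elim _ _]

end Vale.Agent.P046.Full.Labels
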