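import Vale.Agent.P046.Full.LabelDefs

/-!
The alternating recursion sandwiches the greedy process for every labelling, whatever the
tie-break inside a cell; fine labels push forward to independent cells.
-/

namespace Vale.Agent.P046.Full.Labels

open Finset
open scoped Classical

/-- Some edge of a tried triangle is gone once it has been tried. -/
lemma blocked {V : Type} (Y : Sys V) (x : Y.Labels) (i : Fin Y.N) {f : V} (hf : f ∈ Y.ed i)
    {s : ℕ} (hs : Y.slotOf x i < s) (hp : f ∉ Y.gone Y.full x s) :
    ∃ h ∈ Y.ed i, h ≠ f ∧ h ∈ Y.gone Y.full x (Y.slotOf x i) := by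
  have hd : ¬ Disjoint (Y.ed i) (Y.gone Y.full x (Y.slotOf x i)) := by
    intro hd
    have he : Y.eds (Y.slotOf x i) = Y.ed i := by rw [Sys.eds, Y.tr_slotOf]
    refine hp (Y.gone_mono _ x hs ?_)
    rw [Y.gone_full_succ, if_pos ⟨Y.hit_slotOf x i, he ▸ hd⟩, he]
    exact mem_union_right _ hf
  rw [Finset.not_disjoint_iff] at hd
  obtain ⟨h, h1, h2⟩ := hd
  refine ⟨h, h1, ?_, h2⟩
  rintro rfl
  exact hp (Y.gone_mono _ x hs.le h2)

/-- An edge that is gone was removed by a triangle all of whose edges were present. -/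
lemma removed {V : Type} (Y : Sys V) (x : Y.Labels) {f : V} :
    ∀ {s : ℕ}, f ∈ Y.gone Y.full x s → ∃ i, Y.slotOf x i < s ∧ f ∈ Y.ed i ∧
      Disjoint (Y.ed i) (Y.gone Y.full x (Y.slotOf x i))
  | 0, h => by simp [Sys.gone_zero] at h
  | s + 1, h => by
    rw [Y.gone_full_succ] at h
    split_ifs at h with hc
    · rcases mem_union.1 h with h | h
      · obtain ⟨i, h1, h2⟩ := removed Y x h
        exact ⟨i, by omega, h2⟩
      · refine ⟨Y.tr s, ?_⟩
        rw [Y.slotOf_of_hit hc.1]
        exact ⟨Nat.lt_succ_self s, h, hc.2⟩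
    · obtain ⟨i, h1, h2⟩ := removed Y x h
      exact ⟨i, by omega, h2⟩

variable {n : ℕ} {G : Finset (Sym2 (Fin n))}

/-- The cell of every vertex set under fine labels with `K` sublabels in each cell. -/
noncomputable def cellOf (K : ℕ) {M : ℕ} {hM : 0 < M} (x : (sysOn G M hM).Labels)
    (T : Finset (Fin n)) : ℕ :=
  (x ((idx n).symm T) : ℕ) / K

variable {M K : ℕ} {hM : 0 < M}

lemma cell_bounds (hK : 0 < K) (x : (sysOn G M hM).Labels) (i : Fin (sysOn G M hM).N) (c : ℕ) :
    (cellOf K x (idx n i) < c ↔ (sysOn G M hM).slotOf x i < c * K * (sysOn G M hM).N) ∧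
      cellOf K x (idx n i) * K * (sysOn G M hM).N ≤ (sysOn G M hM).slotOf x i ∧
      (sysOn G M hM).slotOf x i < (cellOf K x (idx n i) + 1) * K * (sysOn G M hM).N := by
  have hi : (i : ℕ) < (sysOn G M hM).N := i.2
  have hy : cellOf K x (idx n i) = (x i : ℕ) / K := by
    simp only [cellOf]
    congr 3
    exact (idx n).symm_apply_apply i
  have hdiv : ∀ a : ℕ, (x i : ℕ) < a * K ↔
      (sysOn G M hM).slotOf x i < a * K * (sysOn G M hM).N := by
    intro a
    simp only [Sys.slotOf]
    constructor
    · intro h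
      have := Nat.mul_le_mul_right (sysOn G M hM).N h
      rw [Nat.succ_mul] at this
      omega
    · intro h
      by_contra h'
      have := Nat.mul_le_mul_right (sysOn G M hM).N (Nat.le_of_not_lt h')
      omega
  rw [hy]
  refine ⟨(Nat.div_lt_iff_lt_mul hK).trans (hdiv c), ?_, (hdiv _).1 ?_⟩
  · by_contra h
    have h1 := (hdiv _).2 (Nat.lt_of_not_le h)
    have := Nat.div_mul_le_self (x i : ℕ) K
    omega
  · exact (Nat.div_lt_iff_lt_mul hK).1 (Nat.lt_succ_self _)

/-- The two-sided sandwich at every cell boundary. -/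
theorem sandwich (hK : 0 < K) (x : (sysOn G M hM).Labels) : ∀ (k : ℕ) (P : Finset (Fin n))
    (f : Sym2 (Fin n)) (c s : ℕ),
    (Even k → c * K * (sysOn G M hM).N ≤ s → f ∉ (sysOn G M hM).gone (sysOn G M hM).full x s →
        Pres G (cellOf K x) k P f c) ∧
      (Odd k → s ≤ c * K * (sysOn G M hM).N →
        (∀ i, idx n i = P → f ∈ (sysOn G M hM).ed i → s ≤ (sysOn G M hM).slotOf x i) →
        Pres G (cellOf K x) k P f c → f ∉ (sysOn G M hM).gone (sysOn G M hM).full x s) := by
  intro k
  induction k with
  | zero =>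
    intro P f c s
    exact ⟨fun _ _ _ => by simp [Pres], fun h => absurd h (by simp)⟩
  | succ k ih =>
    intro P f c s
    refine ⟨fun hk hcs hp => ?_, fun hk hsc hP hpres hmem => ?_⟩
    · have hk' : ¬ Even k := fun h => Nat.even_add_one.1 hk h
      simp only [Pres]
      intro T hT hx
      obtain ⟨hTG, hfT, -⟩ := by simpa [kids] using hT
      have hTi : idx n ((idx n).symm T) = T := Equiv.apply_symm_apply _ _
      have hed : (sysOn G M hM).ed ((idx n).symm T) = edgesOf T := by simp [sysOn, hTG]
      have hb := cell_bounds hK x ((idx n).symm T) c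
      rw [hTi] at hb
      obtain ⟨h, h1, h2, h3⟩ := blocked (sysOn G M hM) x _ (f := f) (hed ▸ hfT)
        ((hb.1.1 hx).trans_le hcs) hp
      rw [hed] at h1
      refine ⟨h, mem_erase.2 ⟨h2, h1⟩, fun hh => ?_⟩
      refine (ih T h (cellOf K x T + 1) _).2 (Nat.not_even_iff_odd.1 hk') hb.2.2.le ?_ ?_ h3
      · intro i hi _
        rw [← hi, Equiv.symm_apply_apply]
      · simpa [nxt, hk'] using hh
    · have hk' : Even k := by
        rcases Nat.even_or_odd k with h | h
        · exact h
        · exact absurd hk (Nat.not_odd_iff_even.2 h.add_one)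
      obtain ⟨i, hi, hfi, hd⟩ := removed (sysOn G M hM) x hmem
      have hTG : idx n i ∈ triangles G := by
        by_contra h
        simp [sysOn, h] at hfi
      have hed : (sysOn G M hM).ed i = edgesOf (idx n i) := by simp [sysOn, hTG]
      have hne : idx n i ≠ P := fun h => by have := hP i h hfi; omega
      simp only [Pres] at hpres
      have hb := cell_bounds hK x i c
      obtain ⟨h, h1, h2⟩ := hpres (idx n i) (by simp [kids, hTG, hne, ← hed, hfi])
        (hb.1.2 (hi.trans_le hsc))
      refine h2 ?_
      simp only [nxt, hk', if_true]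
      refine (ih _ h _ _).1 hk' hb.2.1 (Finset.disjoint_left.1 hd ?_)
      rw [hed]
      exact (mem_erase.1 h1).2

/-- At the end: present edges satisfy every even iterate, and an odd iterate suffices. -/
theorem sandwich_end {L : ℕ} (hK : 0 < K) (hMK : M = L * K) (x : (sysOn G M hM).Labels) (k : ℕ)
    (f : Sym2 (Fin n)) :
    let H := (sysOn G M hM).gone (sysOn G M hM).full x (M * (sysOn G M hM).N)
    (Even k → f ∉ H → Pres G (cellOf K x) k ∅ f L) ∧
      (Odd k → Pres G (cellOf K x) k ∅ f L → f ∉ H) := by
  intro H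
  subst hMK
  refine ⟨fun hk => (sandwich hK x k ∅ f L _).1 hk le_rfl,
    fun hk => (sandwich hK x k ∅ f L _).2 hk le_rfl ?_⟩
  intro i hi hf
  simp [sysOn, hi, mem_triangles] at hf

/-- Independent labels pushed forward by a map have independent pushed-forward weights. -/
lemma wt_map {ι α β : Type*} [Fintype ι] [DecidableEq ι] [Fintype α] [Fintype β] (g : α → β) (p : α → ℝ)
    (F : (ι → β) → ℝ) :
    ∑ y : ι → α, wt p y * F (g ∘ y) =
      ∑ z : ι → β, wt (fun b => ∑ a with g a = b, p a) z * F z := by
  rw [← Finset.sum_fiberwise univ (fun y : ι → α => g ∘ y)]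
  refine sum_congr rfl fun z _ => ?_
  have h : (univ.filter fun y : ι → α => g ∘ y = z) =
      Fintype.piFinset fun i => univ.filter fun a => g a = z i := by
    ext y; simp [funext_iff]
  rw [wt, Finset.prod_univ_sum, ← h, sum_mul]
  refine sum_congr rfl fun y hy => ?_
  rw [(mem_filter.1 hy).2]
  rfl

/-- Fine labels induce the cell weights. -/
lemma sum_fiber_divNat {L : ℕ} (hK : 0 < K) (w : ℕ → ℝ) (c : Fin L) :
    ∑ a : Fin (L * K) with a.divNat = c, w a.divNat / K = w c := by
  rw [sum_congr rfl fun a ha => by rw [(mem_filter.1 ha).2], sum_const, nsmul_eq_mul]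
  have h : (univ.filter fun a : Fin (L * K) => a.divNat = c).card = K := by
    rw [← Fintype.card_subtype]
    conv_rhs => rw [← Fintype.card_fin K]
    exact Fintype.card_congr
      { toFun := fun a => a.1.modNat
        invFun := fun r => ⟨finProdFinEquiv (c, r),
          congrArg Prod.fst (finProdFinEquiv.symm_apply_apply (c, r))⟩
        left_inv := fun a => Subtype.ext <| by
          conv_rhs => rw [← finProdFinEquiv.apply_symm_apply a.1]
          simp [finProdFinEquiv_symm_apply, a.2]
        right_inv := fun r =>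
          congrArg Prod.snd (finProdFinEquiv.symm_apply_apply (c, r)) }
  rw [h]
  field_simp

/-- The expectation of a function of the cells under fine labels. -/
theorem avg_cells {L : ℕ} (hK : 0 < K) (hM : 0 < L * K) (w : ℕ → ℝ)
    (F : (Finset (Fin n) → ℕ) → ℝ) :
    ∑ x : (sysOn G (L * K) hM).Labels, wt (fun a : Fin (L * K) => w a.divNat / K) x *
        F (cellOf K x) =
      ∑ z : Finset (Fin n) → Fin L, wt (fun c : Fin L => w c) z * F (fun T => (z T : ℕ)) := by
  have e : ∀ x : Fin (Fintype.card (Finset (Fin n))) → Fin (L * K),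
      wt (fun a : Fin (L * K) => w a.divNat / K) x =
        wt (fun a : Fin (L * K) => w a.divNat / K) (x ∘ (idx n).symm) := fun x =>
    ((idx n).symm.prod_comp fun i => w (x i).divNat / K).symm
  calc _ = ∑ y : Finset (Fin n) → Fin (L * K), wt (fun a : Fin (L * K) => w a.divNat / K) y *
        (fun z : Finset (Fin n) → Fin L => F fun T => (z T : ℕ)) (Fin.divNat ∘ y) := by
        refine Fintype.sum_equiv (Equiv.arrowCongr (idx n) (Equiv.refl _)) _ _ fun x => ?_
        show _ = wt (fun a : Fin (L * K) => w a.divNat / K) (x ∘ (idx n).symm) *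
          F fun T => ((x ((idx n).symm T)).divNat : ℕ)
        rw [← e x]
        rfl
    _ = _ := by
        have h := wt_map (ι := Finset (Fin n)) (fun a : Fin (L * K) => a.divNat)
          (fun a : Fin (L * K) => w a.divNat / K)
          (fun z : Finset (Fin n) → Fin L => F fun T => (z T : ℕ))
        refine h.trans (sum_congr rfl fun z _ => ?_)
        congr 2
        funext b
        convert sum_fiber_divNat hK w b

end Vale.Agent.P046.Full.Labels
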