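import Vale.Agent.P046.Full.LabelDefs

/-!
P046 module 6, tree product: on a hypertree ball the probability of `Pres` is `val`, and
disjoint balls are independent.
-/

namespace Vale.Agent.P046.Full.Labels

open Finset
open scoped Classical

section Indep

variable {ι κ : Type*} [Fintype ι] [Fintype κ] [DecidableEq ι] [DecidableEq κ] {w : κ → ℝ}

omit [DecidableEq κ] in
lemma sum_wt (hw : ∑ a, w a = 1) : ∑ x : ι → κ, wt w x = 1 := by
  simp only [wt]
  rw [← Fintype.prod_sum (f := fun (_ : ι) a => w a)]
  simp [hw]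

lemma sum_wt_const (hw : ∑ a, w a = 1) (c : ℝ) : ∑ x : ι → κ, wt w x * c = c := by
  rw [← Finset.sum_mul, sum_wt hw, one_mul]

/-- One label has law `w`. -/
lemma sum_wt_eq (hw : ∑ a, w a = 1) (t : ι) (a : κ) :
    ∑ x : ι → κ, wt w x * (if x t = a then (1 : ℝ) else 0) = w a := by
  have h : ∀ x : ι → κ, wt w x * (if x t = a then (1 : ℝ) else 0) =
      ∏ i, w (x i) * (if i = t then (if x i = a then (1 : ℝ) else 0) else 1) := fun x => by
    rw [wt, Finset.prod_mul_distrib, Finset.prod_ite_eq']
    simp
  rw [Finset.sum_congr rfl fun x _ => h x,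
    ← Fintype.prod_sum (f := fun i b => w b * (if i = t then (if b = a then (1 : ℝ) else 0) else 1)),
    Finset.prod_eq_single t (fun i _ hi => by simp [hi, hw]) (by simp)]
  simp

/-- Functions of disjoint sets of labels are independent. -/
theorem sum_wt_mul (hw : ∑ a, w a = 1) {F H : (ι → κ) → ℝ} {S T : Finset ι}
    (hF : DependsOn F (S : Set ι)) (hH : DependsOn H (T : Set ι)) (h : Disjoint S T) :
    ∑ x, wt w x * (F x * H x) = (∑ x, wt w x * F x) * ∑ x, wt w x * H x := by
  let mix : (ι → κ) × (ι → κ) → (ι → κ) × (ι → κ) :=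
    fun p => (fun i => if i ∈ S then p.1 i else p.2 i, fun i => if i ∈ S then p.2 i else p.1 i)
  have hmix : Function.Involutive mix := fun p => by
    ext i <;> simp only [mix] <;> split_ifs <;> rfl
  have hkey : ∀ p, wt w p.1 * F p.1 * (wt w p.2 * H p.2) =
      wt w (mix p).1 * (F (mix p).1 * H (mix p).1) * wt w (mix p).2 := fun p => by
    have h1 : F (mix p).1 = F p.1 := hF fun i hi => if_pos (Finset.mem_coe.1 hi)
    have h2 : H (mix p).1 = H p.2 :=
      hH fun i hi => if_neg (Finset.disjoint_right.1 h (Finset.mem_coe.1 hi))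
    have h3 : wt w (mix p).1 * wt w (mix p).2 = wt w p.1 * wt w p.2 := by
      simp only [wt, mix, ← Finset.prod_mul_distrib]
      refine Finset.prod_congr rfl fun i _ => ?_
      split_ifs <;> ring
    calc _ = (wt w p.1 * wt w p.2) * (F p.1 * H p.2) := by ring
      _ = _ := by rw [← h3, h1, h2]; ring
  rw [Finset.sum_mul_sum, ← Fintype.sum_prod_type', Finset.sum_congr rfl fun p _ => hkey p,
    hmix.bijective.sum_comp (fun p => wt w p.1 * (F p.1 * H p.1) * wt w p.2),
    Fintype.sum_prod_type]
  exact Finset.sum_congr rfl fun x _ => by dsimp only; rw [← Finset.mul_sum, sum_wt hw, mul_one]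

/-- Functions of pairwise disjoint sets of labels are independent. -/
theorem sum_wt_prod (hw : ∑ a, w a = 1) {γ : Type*} (s : Finset γ) (F : γ → (ι → κ) → ℝ)
    (S : γ → Finset ι) (hF : ∀ a ∈ s, DependsOn (F a) (S a : Set ι))
    (hS : (s : Set γ).PairwiseDisjoint S) :
    ∑ x, wt w x * ∏ a ∈ s, F a x = ∏ a ∈ s, ∑ x, wt w x * F a x := by
  induction s using Finset.induction_on with
  | empty => simpa using sum_wt hw
  | insert a s ha ih =>
    simp only [Finset.prod_insert ha]
    rw [← ih (fun b hb => hF b (Finset.mem_insert_of_mem hb)) (hS.subset (by simp)),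
      sum_wt_mul hw (hF a (Finset.mem_insert_self a s)) (T := s.biUnion S)]
    · intro x y hxy
      refine Finset.prod_congr rfl fun b hb => hF b (Finset.mem_insert_of_mem hb) fun i hi =>
        hxy i ?_
      exact Finset.mem_coe.2 (Finset.mem_biUnion.2 ⟨b, hb, Finset.mem_coe.1 hi⟩)
    · refine (Finset.disjoint_biUnion_right _ _ _).2 fun b hb => ?_
      exact hS (by simp) (by simp [hb]) (fun hab => ha (hab ▸ hb))

end Indep

variable {n L : ℕ}

/-- The indicator of `Pres` for a coarse labelling. -/
noncomputable def presI (G : Finset (Sym2 (Fin n))) (k : ℕ) (P : Finset (Fin n)) (f : Sym2 (Fin n))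
    (c : ℕ) (x : Finset (Fin n) → Fin L) : ℝ :=
  if Pres G (fun T => x T) k P f c then 1 else 0

/-- What is below one triangle. -/
noncomputable def branch (G : Finset (Sym2 (Fin n))) (k : ℕ) (f : Sym2 (Fin n))
    (T : Finset (Fin n)) : Finset (Finset (Fin n)) :=
  insert T (((edgesOf T).erase f).biUnion fun h => dep G k T h)

variable (G : Finset (Sym2 (Fin n)))

lemma presI_dependsOn (k : ℕ) : ∀ (P : Finset (Fin n)) (f : Sym2 (Fin n)) (c : ℕ),
    DependsOn (presI G k P f c : (Finset (Fin n) → Fin L) → ℝ)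
      (dep G k P f : Set (Finset (Fin n))) := by
  induction k with
  | zero => intro P f c x y _; simp [presI, Pres]
  | succ k ih =>
    intro P f c x y hxy
    refine if_congr (forall₂_congr fun T hT => ?_) rfl rfl
    have hT' : x T = y T := hxy T (Finset.mem_coe.2 (Finset.mem_biUnion.2
      ⟨T, hT, Finset.mem_insert_self _ _⟩))
    simp only [hT']
    refine imp_congr_right fun _ => exists_congr fun h => and_congr_right fun hh => ?_
    have e := ih T h (nxt k (y T)) (x := x) (y := y) fun i hi => hxy i (Finset.mem_coe.2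
      (Finset.mem_biUnion.2 ⟨T, hT, Finset.mem_insert_of_mem (Finset.mem_biUnion.2
        ⟨h, hh, Finset.mem_coe.1 hi⟩)⟩))
    simp only [presI] at e
    by_cases hx : Pres G (fun T => (x T : ℕ)) k T h (nxt k (y T)) <;>
      by_cases hy : Pres G (fun T => (y T : ℕ)) k T h (nxt k (y T)) <;> simp_all

/-- The indicator that `T` removes `f` before cell `c`. -/
noncomputable def hitI (k : ℕ) (f : Sym2 (Fin n)) (c : ℕ) (T : Finset (Fin n))
    (x : Finset (Fin n) → Fin L) : ℝ :=
  if (x T : ℕ) < c then ∏ h ∈ (edgesOf T).erase f, presI G k T h (nxt k (x T)) x else 0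

lemma hitI_dependsOn (k : ℕ) (f : Sym2 (Fin n)) (c : ℕ) (T : Finset (Fin n)) :
    DependsOn (hitI G k f c T : (Finset (Fin n) → Fin L) → ℝ)
      (branch G k f T : Set (Finset (Fin n))) := by
  intro x y hxy
  have hT : x T = y T := hxy T (Finset.mem_coe.2 (Finset.mem_insert_self _ _))
  unfold hitI
  rw [hT]
  refine if_congr Iff.rfl (Finset.prod_congr rfl fun h hh => ?_) rfl
  exact presI_dependsOn G k T h _ fun i hi => hxy i (Finset.mem_coe.2
    (Finset.mem_insert_of_mem (Finset.mem_biUnion.2 ⟨h, hh, Finset.mem_coe.1 hi⟩)))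

lemma presI_succ (k : ℕ) (P : Finset (Fin n)) (f : Sym2 (Fin n)) (c : ℕ)
    (x : Finset (Fin n) → Fin L) :
    presI G (k + 1) P f c x = ∏ T ∈ kids G P f, (1 - hitI G k f c T x) := by
  unfold presI hitI
  by_cases h : Pres G (fun T => x T) (k + 1) P f c
  · rw [if_pos h, Finset.prod_eq_one]
    intro T hT
    by_cases hl : (x T : ℕ) < c
    · obtain ⟨e, he, hep⟩ := h T hT hl
      rw [if_pos hl, Finset.prod_eq_zero he (if_neg hep), sub_zero]
    · rw [if_neg hl, sub_zero]
  · rw [if_neg h]
    simp only [Pres, not_forall, not_exists, not_and, not_not] at h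
    obtain ⟨T, hT, hl, hall⟩ := h
    refine (Finset.prod_eq_zero hT ?_).symm
    rw [if_pos hl, Finset.prod_eq_one fun e he => by simp [presI, hall e he], sub_self]

lemma nxt_le {k i : ℕ} (hi : i < L) : nxt k i ≤ L := by
  unfold nxt; split <;> omega

variable (w : ℕ → ℝ)

/-- **Tree product.** On a hypertree ball the probability of `Pres` is `val`. -/
theorem sum_presI (hw : ∑ i ∈ range L, w i = 1) (k : ℕ) :
    ∀ (P : Finset (Fin n)) (f : Sym2 (Fin n)) (c : ℕ), c ≤ L → Tree G k P f →
      ∑ x : Finset (Fin n) → Fin L, wt (fun i : Fin L => w i) x * presI G k P f c x =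
        val G w k P f c := by
  have hw' : ∑ i : Fin L, w i = 1 := by rw [Fin.sum_univ_eq_sum_range]; exact hw
  induction k with
  | zero => intro P f c _ _; simpa [presI, Pres, val] using sum_wt (ι := Finset (Fin n)) hw'
  | succ k ih =>
    intro P f c hc hT
    obtain ⟨hkid, hdis⟩ := hT
    simp only [presI_succ]
    rw [sum_wt_prod hw' _ _ (branch G k f)
      (fun T _ x y hxy => by simp only [hitI_dependsOn G k f c T hxy])
      (fun T hT T' hT' hne => hdis T hT T' hT' hne), val]
    refine Finset.prod_congr rfl fun T hT => ?_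
    simp only [mul_sub, mul_one, Finset.sum_sub_distrib, sum_wt hw']
    congr 1
    have h2 : ∀ x : Finset (Fin n) → Fin L, hitI G k f c T x =
        ∑ i : Fin L, (if x T = i then (1 : ℝ) else 0) *
          (if (i : ℕ) < c then ∏ h ∈ (edgesOf T).erase f, presI G k T h (nxt k i) x else 0) := by
      intro x
      rw [Finset.sum_eq_single (x T) (fun i _ hi => by simp [Ne.symm hi]) (by simp)]
      simp [hitI]
    simp only [h2, Finset.mul_sum]
    rw [Finset.sum_comm]
    have h3 : ∀ i : Fin L, ∑ x : Finset (Fin n) → Fin L, wt (fun i : Fin L => w i) x *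
        ((if x T = i then (1 : ℝ) else 0) *
          (if (i : ℕ) < c then ∏ h ∈ (edgesOf T).erase f, presI G k T h (nxt k i) x else 0)) =
        if (i : ℕ) < c then w i * ∏ h ∈ (edgesOf T).erase f, val G w k T h (nxt k i) else 0 := by
      intro i
      by_cases hi : (i : ℕ) < c
      · simp only [if_pos hi]
        rw [sum_wt_mul hw' (S := {T}) (T := ((edgesOf T).erase f).biUnion fun h => dep G k T h),
          sum_wt_eq hw', sum_wt_prod hw' _ _ (fun h => dep G k T h)
            (fun h _ => presI_dependsOn G k T h _)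
            (fun h hh h' hh' hne => (hkid T hT h hh).2.2 h' hh' (Ne.symm hne)),
          Finset.prod_congr rfl fun h hh => ih T h _ (nxt_le i.2) (hkid T hT h hh).1]
        · intro x y hxy
          simp only [hxy T (by simp)]
        · intro x y hxy
          exact Finset.prod_congr rfl fun h hh => presI_dependsOn G k T h _ fun j hj =>
            hxy j (Finset.mem_coe.2 (Finset.mem_biUnion.2 ⟨h, hh, Finset.mem_coe.1 hj⟩))
        · rw [Finset.disjoint_singleton_left, Finset.mem_biUnion]
          exact fun ⟨h, hh, hm⟩ => (hkid T hT h hh).2.1 hm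
      · simp [if_neg hi]
    rw [Finset.sum_congr rfl fun i _ => h3 i]
    rw [Fin.sum_univ_eq_sum_range
      (fun i => if i < c then w i * ∏ h ∈ (edgesOf T).erase f, val G w k T h (nxt k i) else 0),
      ← Finset.sum_filter]
    refine Finset.sum_congr ?_ fun _ _ => rfl
    ext i
    simp only [Finset.mem_filter, Finset.mem_range]
    omega

/-- The tree product in the unfolded form. -/
theorem sum_wt_pres (hw : ∑ i ∈ range L, w i = 1) {k c : ℕ} (hc : c ≤ L) {P : Finset (Fin n)}
    {f : Sym2 (Fin n)} (hT : Tree G k P f) :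
    ∑ x : Finset (Fin n) → Fin L, wt (fun i : Fin L => w i) x *
        (if Pres G (fun T => x T) k P f c then (1 : ℝ) else 0) = val G w k P f c :=
  sum_presI G w hw k P f c hc hT

/-- **Disjoint balls.** For two roots with disjoint dependence the probability multiplies. -/
theorem sum_wt_pres_pair (hw : ∑ i ∈ range L, w i = 1) {k c c' : ℕ} (hc : c ≤ L) (hc' : c' ≤ L)
    {P P' : Finset (Fin n)} {f g : Sym2 (Fin n)} (hT : Tree G k P f) (hT' : Tree G k P' g)
    (hd : Disjoint (dep G k P f) (dep G k P' g)) :
    ∑ x : Finset (Fin n) → Fin L, wt (fun i : Fin L => w i) x *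
        (if Pres G (fun T => x T) k P f c ∧ Pres G (fun T => x T) k P' g c' then (1 : ℝ) else 0) =
      val G w k P f c * val G w k P' g c' := by
  have hw' : ∑ i : Fin L, w i = 1 := by rw [Fin.sum_univ_eq_sum_range]; exact hw
  rw [← sum_presI G w hw k P f c hc hT, ← sum_presI G w hw k P' g c' hc' hT',
    ← sum_wt_mul hw' (presI_dependsOn G k P f c) (presI_dependsOn G k P' g c') hd]
  refine Finset.sum_congr rfl fun x _ => ?_
  by_cases h1 : Pres G (fun T => (x T : ℕ)) k P f c <;>
    by_cases h2 : Pres G (fun T => (x T : ℕ)) k P' g c' <;> simp [presI, h1, h2]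

end Vale.Agent.P046.Full.Labels
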