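import Vale.Agent.P046.Full.LabelSandwich
import Vale.Agent.P046.Full.LabelOrder
import Vale.Agent.P046.Full.LabelTree
import Vale.Agent.P046.Prob

/-!
The chance that an edge of `G` survives random triangle removal lies between the alternating
values on its hypertree ball.
-/

namespace Vale.Agent.P046.Full.Labels

open Finset
open scoped Classical

variable {n : ℕ} {G : Finset (Sym2 (Fin n))} {w : ℕ → ℝ} {L : ℕ}

/-- A bounded event inside the sandwich has at most the probability of the cell event. -/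
lemma Ev_le_cells (hw : ∀ i, 0 ≤ w i) (hw1 : ∑ i ∈ range L, w i = 1)
    {φ : Finset (Sym2 (Fin n)) → ℝ} {B : ℝ} (hφ : ∀ H, |φ H| ≤ B)
    (F : (Finset (Fin n) → ℕ) → ℝ)
    (h : ∀ (K : ℕ) (_ : 0 < K) (hM : 0 < L * K) (x : (sysOn G (L * K) hM).Labels),
      φ (G \ (sysOn G (L * K) hM).gone (sysOn G (L * K) hM).full x
        (L * K * (sysOn G (L * K) hM).N)) ≤ F (cellOf K x)) :
    Ev φ G ≤ ∑ z : Finset (Fin n) → Fin L, wt (fun c : Fin L => w c) z *
      F (fun T => (z T : ℕ)) := by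
  have hB : 0 ≤ B := (abs_nonneg _).trans (hφ G)
  have hL : 0 < L := by
    rcases Nat.eq_zero_or_pos L with rfl | h
    · simp at hw1
    · exact h
  refine le_of_forall_pos_le_add fun ε hε => ?_
  set N : ℝ := (Fintype.card (Finset (Fin n)) : ℝ) ^ 2
  obtain ⟨K₀, hK₀⟩ := exists_nat_gt (2 * B * N / ε)
  set K := K₀ + 1
  have hK : 0 < K := Nat.succ_pos _
  have hKr : (0 : ℝ) < K := by exact_mod_cast hK
  have hM : 0 < L * K := Nat.mul_pos hL hK
  have hp : ∀ a : Fin (L * K), 0 ≤ w a.divNat / K := fun a => div_nonneg (hw _) hKr.le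
  have hp1 : ∑ a : Fin (L * K), w a.divNat / K = 1 := by
    rw [← Finset.sum_fiberwise univ fun a : Fin (L * K) => a.divNat]
    refine Eq.trans (sum_congr rfl fun c _ => ?_) (hw1 ▸ Fin.sum_univ_eq_sum_range w L)
    convert sum_fiber_divNat hK w c
  have hδ : ∀ a : Fin (L * K), w a.divNat / K ≤ 1 / K := fun a =>
    div_le_div_of_nonneg_right (hw1 ▸ single_le_sum (fun i _ => hw i)
      (mem_range.2 a.divNat.isLt)) hKr.le
  have hEv := (abs_le.1 (abs_Ev_sub_wt G hM hp hp1 hδ hφ)).2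
  have havg := avg_cells (G := G) hK hM w F
  have hle : ∑ x : (sysOn G (L * K) hM).Labels,
      wt (fun a : Fin (L * K) => w a.divNat / K) x * φ (G \ (sysOn G (L * K) hM).gone
        (sysOn G (L * K) hM).full x ((sysOn G (L * K) hM).M * (sysOn G (L * K) hM).N)) ≤
      ∑ x : (sysOn G (L * K) hM).Labels,
        wt (fun a : Fin (L * K) => w a.divNat / K) x * F (cellOf K x) :=
    sum_le_sum fun x _ => mul_le_mul_of_nonneg_left (h K hK hM x) (prod_nonneg fun i _ => hp _)
  have herr : 2 * B * (N * (1 / K)) ≤ ε := by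
    rw [div_lt_iff₀ hε] at hK₀
    rw [← mul_assoc, mul_one_div, div_le_iff₀ hKr]
    have : (K₀ : ℝ) ≤ K := by simp [K]
    nlinarith
  have hN : ((sysOn G (L * K) hM).N : ℝ) ^ 2 = N := rfl
  rw [hN] at hEv
  linarith [hEv, hle, havg, herr]

/-- An even iterate bounds the survival probability from above. -/
theorem Ev_mem_le (hw : ∀ i, 0 ≤ w i) (hw1 : ∑ i ∈ range L, w i = 1) {k : ℕ} (hk : Even k)
    {f : Sym2 (Fin n)} (ht : Tree G k ∅ f) :
    Ev (fun H => if f ∈ H then (1 : ℝ) else 0) G ≤ val G w k ∅ f L := by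
  rw [← sum_wt_pres G w hw1 le_rfl ht]
  refine Ev_le_cells hw hw1 (B := 1) (fun H => ?_) (fun x => if Pres G x k ∅ f L then 1 else 0)
    fun K hK hM x => ?_
  · split_ifs <;> simp
  · split_ifs with h1 h2 <;> norm_num
    exact h2 ((sandwich_end hK rfl x k f).1 hk (mem_sdiff.1 h1).2)

/-- An odd iterate bounds the survival probability from below. -/
theorem val_le_Ev_mem (hw : ∀ i, 0 ≤ w i) (hw1 : ∑ i ∈ range L, w i = 1) {k : ℕ} (hk : Odd k)
    {f : Sym2 (Fin n)} (hf : f ∈ G) (ht : Tree G k ∅ f) :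
    val G w k ∅ f L ≤ Ev (fun H => if f ∈ H then (1 : ℝ) else 0) G := by
  have h := Ev_le_cells (G := G) hw hw1 (φ := fun H => -(if f ∈ H then (1 : ℝ) else 0)) (B := 1)
    (fun H => by split_ifs <;> simp) (fun x => -(if Pres G x k ∅ f L then 1 else 0))
    fun K hK hM x => by
      by_cases h2 : Pres G (cellOf K x) k ∅ f L
      · rw [if_pos h2, if_pos (mem_sdiff.2 ⟨hf, (sandwich_end hK rfl x k f).2 hk h2⟩)]
      · rw [if_neg h2]
        split_ifs <;> norm_num
  have hneg := Ev_const_mul (-1) (fun H => if f ∈ H then (1 : ℝ) else 0) G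
  simp only [neg_one_mul] at hneg
  simp only [mul_neg, sum_neg_distrib, sum_wt_pres G w hw1 le_rfl ht, hneg] at h
  linarith

/-- Two roots with disjoint balls survive together at most with the product of the bounds. -/
theorem Ev_pair_le (hw : ∀ i, 0 ≤ w i) (hw1 : ∑ i ∈ range L, w i = 1) {k : ℕ} (hk : Even k)
    {f g : Sym2 (Fin n)} (hf : Tree G k ∅ f) (hg : Tree G k ∅ g)
    (hd : Disjoint (dep G k ∅ f) (dep G k ∅ g)) :
    Ev (fun H => if f ∈ H ∧ g ∈ H then (1 : ℝ) else 0) G ≤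
      val G w k ∅ f L * val G w k ∅ g L := by
  rw [← sum_wt_pres_pair G w hw1 le_rfl le_rfl hf hg hd]
  refine Ev_le_cells hw hw1 (B := 1) (fun H => ?_)
    (fun x => if Pres G x k ∅ f L ∧ Pres G x k ∅ g L then 1 else 0) fun K hK hM x => ?_
  · split_ifs <;> simp
  · split_ifs with h1 h2 <;> norm_num
    exact h2 ⟨(sandwich_end hK rfl x k f).1 hk (mem_sdiff.1 h1.1).2,
      (sandwich_end hK rfl x k g).1 hk (mem_sdiff.1 h1.2).2⟩

end Vale.Agent.P046.Full.Labels
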