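import Vale.Agent.P046.Full.TrackDefs
import Vale.Agent.P046.Track.Comb

/-!
The linear half of tracking: the propagator as a polynomial of `nh`, the sizes of its
coefficients, its growth in `ℓ²`, and the sums of the grid steps.
-/

namespace Vale.Agent.P046.Full

open Finset
open Spectral (apply adj deg)
open scoped Classical

variable {n : ℕ}

/-- The propagator as a sum over powers. -/
theorem propPoly : PropPoly := by
  intro n G a k v
  induction k with
  | zero => intro f; simp [propA, cf]
  | succ k ih =>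
    intro f
    have top : ∀ k j, k < j → cf a k j = 0 := by
      intro k
      induction k with
      | zero => intro j hj; rw [cf, if_neg (by omega)]
      | succ k ih' =>
        intro j hj
        rw [cf, if_neg (by omega), ih' j (by omega), ih' (j - 1) (by omega)]
        ring
    rw [propA, funext ih]
    dsimp only
    rw [Spectral.apply_sum, sum_range_succ' _ (k + 1)]
    simp only [cf, Nat.add_sub_cancel, if_true, Nat.succ_ne_zero, if_false, sub_mul,
      sub_zero, mul_assoc, sum_sub_distrib, ← mul_sum, Function.iterate_succ_apply']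
    have h : ∑ j ∈ range (k + 1), cf a k j * ((apply (nh G))^[j] v) f =
        ∑ j ∈ range (k + 1), cf a k (j + 1) * ((apply (nh G))^[j + 1] v) f +
          cf a k 0 * ((apply (nh G))^[0] v) f := by
      rw [← sum_range_succ' (fun j => cf a k j * ((apply (nh G))^[j] v) f) (k + 1),
        sum_range_succ (fun j => cf a k j * ((apply (nh G))^[j] v) f) (k + 1),
        top k (k + 1) (by omega)]
      ring
    rw [h]
    simp only [Function.iterate_succ_apply']
    ring

lemma stp_sub (E l : ℕ) (h : 3 ≤ E) : stp (E - 3) l = stp E (l + 1) := by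
  unfold stp; push_cast [Nat.cast_sub h]; ring_nf

/-- `prop` splits off its first step. -/
theorem propSplit : PropSplit := by
  intro n G k v hE
  induction k with
  | zero => rfl
  | succ k ih =>
    funext f
    show prop G (k + 1) v f - stp G.card (k + 1) * apply (nh G) (prop G (k + 1) v) f = _
    rw [ih, ← stp_sub _ _ hE]; rfl

lemma abs_cf_le {a : ℕ → ℝ} (k : ℕ) (ha : ∀ l < k, 0 ≤ a l) :
    ∀ j, |cf a k j| ≤ tot a k ^ j / (j.factorial : ℝ) := by
  induction k with
  | zero => intro j; cases j <;> simp [cf, tot]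
  | succ k ih =>
    intro j
    have ih' := ih fun l hl => ha l (by omega)
    have h0 : 0 ≤ tot a k := sum_nonneg fun l hl => ha l (by rw [mem_range] at hl; omega)
    have hk : 0 ≤ a k := ha k (by omega)
    have ht : tot a (k + 1) = tot a k + a k := sum_range_succ _ _
    rw [ht]
    cases j with
    | zero => simpa [cf] using ih' 0
    | succ j =>
      rw [cf, if_neg (Nat.succ_ne_zero j), Nat.add_sub_cancel]
      refine (abs_sub _ _).trans ?_
      rw [abs_mul, abs_of_nonneg hk]
      refine (add_le_add (ih' (j + 1)) (mul_le_mul_of_nonneg_left (ih' j) hk)).trans ?_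
      generalize tot a k = x at h0 ⊢
      have hb : x ^ (j + 1) + ((j : ℝ) + 1) * a k * x ^ j ≤ (x + a k) ^ (j + 1) := by
        clear ih ih'
        induction j with
        | zero => simp
        | succ j ihj =>
          have h1 := mul_le_mul_of_nonneg_right ihj (show 0 ≤ x + a k by linarith)
          rw [← pow_succ] at h1
          refine le_trans ?_ h1
          have h2 : 0 ≤ ((j : ℝ) + 1) * a k * x ^ j * a k := by positivity
          push_cast
          ring_nf at h2 ⊢
          linarith
      rw [le_div_iff₀ (by positivity), Nat.factorial_succ, Nat.cast_mul]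
      refine le_trans (le_of_eq ?_) hb
      have : (j.factorial : ℝ) ≠ 0 := by positivity
      push_cast
      field_simp

lemma shift_moment_le {x : ℝ} (hx : 0 ≤ x) : ∀ i : ℕ, ∀ c : ℝ, 0 ≤ c → ∀ k : ℕ,
    ∑ j ∈ range k, ((j : ℝ) + c) ^ (i + 1) * (x ^ j / (j.factorial : ℝ)) ≤
      x * ∑ j ∈ range k, ((j : ℝ) + (c + 1)) ^ i * (x ^ j / (j.factorial : ℝ)) +
        c * ∑ j ∈ range k, ((j : ℝ) + c) ^ i * (x ^ j / (j.factorial : ℝ)) := by
  intro i c hc k
  have h1 : ∑ j ∈ range k, (j : ℝ) * (((j : ℝ) + c) ^ i * (x ^ j / (j.factorial : ℝ))) ≤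
      x * ∑ j ∈ range k, ((j : ℝ) + (c + 1)) ^ i * (x ^ j / (j.factorial : ℝ)) := by
    cases k with
    | zero => simp
    | succ k =>
      have e : ∑ j ∈ range (k + 1), (j : ℝ) * (((j : ℝ) + c) ^ i * (x ^ j / (j.factorial : ℝ))) =
          ∑ j ∈ range k, x * (((j : ℝ) + (c + 1)) ^ i * (x ^ j / (j.factorial : ℝ))) := by
        rw [sum_range_succ', Nat.cast_zero, zero_mul, add_zero]
        refine sum_congr rfl fun j _ => ?_
        rw [Nat.factorial_succ, Nat.cast_mul]
        have : (j.factorial : ℝ) ≠ 0 := by positivity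
        push_cast
        field_simp
        ring
      rw [e, ← mul_sum]
      refine mul_le_mul_of_nonneg_left ?_ hx
      exact sum_le_sum_of_subset_of_nonneg (range_subset_range.2 (Nat.le_succ k))
        fun j _ _ => by positivity
  calc _ = ∑ j ∈ range k, (j : ℝ) * (((j : ℝ) + c) ^ i * (x ^ j / (j.factorial : ℝ))) +
        c * ∑ j ∈ range k, ((j : ℝ) + c) ^ i * (x ^ j / (j.factorial : ℝ)) := by
        rw [mul_sum, ← sum_add_distrib]
        exact sum_congr rfl fun j _ => by ring
    _ ≤ _ := by linarith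

/-- The weighted sizes of the coefficients. -/
theorem cfBound : CfBound := by
  intro a k y ha hy i hi
  have ht : 0 ≤ tot a k := sum_nonneg fun l hl => ha l (mem_range.1 hl)
  set x := tot a k * y with hxdef
  have hx : 0 ≤ x := by positivity
  have he := (Real.exp_pos x).le
  have h0 : ∀ j ∈ range (k + 1), |cf a k j| * ((j : ℝ) + 1) ^ i * y ^ j ≤
      ((j : ℝ) + 1) ^ i * (x ^ j / (j.factorial : ℝ)) := by
    intro j _
    calc _ ≤ tot a k ^ j / (j.factorial : ℝ) * ((j : ℝ) + 1) ^ i * y ^ j := by
          gcongr; exact abs_cf_le k ha j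
      _ = _ := by rw [hxdef, mul_pow]; ring
  refine (sum_le_sum h0).trans ?_
  set R : ℕ → ℝ → ℝ :=
    fun i c => ∑ j ∈ range (k + 1), ((j : ℝ) + c) ^ i * (x ^ j / (j.factorial : ℝ))
  have r0 : ∀ c, R 0 c ≤ Real.exp x := by
    intro c
    simp only [R, pow_zero, one_mul]
    exact Real.sum_le_exp_of_nonneg hx _
  have step : ∀ i c, 0 ≤ c → R (i + 1) c ≤ x * R i (c + 1) + c * R i c :=
    fun i c hc => shift_moment_le hx i c hc _
  have r1 : ∀ c, 0 ≤ c → R 1 c ≤ (x + c) * Real.exp x := fun c hc => by
    nlinarith [step 0 c hc, mul_le_mul_of_nonneg_left (r0 (c + 1)) hx,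
      mul_le_mul_of_nonneg_left (r0 c) hc]
  have r2 : ∀ c, 0 ≤ c → R 2 c ≤ (x * (x + c + 1) + c * (x + c)) * Real.exp x := fun c hc => by
    nlinarith [step 1 c hc, mul_le_mul_of_nonneg_left (r1 (c + 1) (by linarith)) hx,
      mul_le_mul_of_nonneg_left (r1 c hc) hc]
  have r3 : R 3 1 ≤ (x ^ 3 + 6 * x ^ 2 + 7 * x + 1) * Real.exp x := by
    have h3 := step 2 1 zero_le_one
    norm_num at h3
    nlinarith [h3, mul_le_mul_of_nonneg_left (r2 2 (by norm_num)) hx, r2 1 zero_le_one]
  show R i 1 ≤ _
  have p1 := mul_nonneg hx he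
  have p2 := mul_nonneg (mul_nonneg hx hx) he
  have p3 := mul_nonneg (mul_nonneg (mul_nonneg hx hx) hx) he
  interval_cases i
  · have := r0 1; rw [pow_zero]; linarith
  · have := r1 1 zero_le_one; nlinarith
  · have := r2 1 zero_le_one; nlinarith
  · nlinarith

lemma edges_sub {G : Gr n} {t : Finset (Fin n)} (ht : t ∈ triangles G) : edgesOf t ⊆ G :=
  edgesOf_subset ht

lemma deg_eq_cd (G : Gr n) (f : Sym2 (Fin n)) :
    (deg (triangles G) edgesOf f : ℝ) = cd G f := by
  unfold deg cd
  congr 2

lemma deg_le {G : Gr n} {B : ℝ} (h : Bnd G B) (f : Sym2 (Fin n)) :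
    (deg (triangles G) edgesOf f : ℝ) ≤ (1 + B) * mS G := by
  have hm : 0 < mS G := lt_of_lt_of_le one_pos h.pos
  rw [deg_eq_cd]
  by_cases hf : f ∈ G
  · have hd := h.dev f hf
    rw [dv, if_pos hf] at hd
    have := (abs_le.1 hd).2
    rw [sub_le_iff_le_add, div_le_iff₀ hm] at this
    linarith
  · have h0 : cd G f = 0 := by
      simp only [cd, Nat.cast_eq_zero, card_eq_zero, filter_eq_empty_iff]
      exact fun t ht hft => hf (edges_sub ht hft)
    rw [h0]; exact mul_nonneg (by linarith [h.nonneg]) hm.le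

lemma nh_apply_eq (G : Gr n) (v : Sym2 (Fin n) → ℝ) (f : Sym2 (Fin n)) :
    apply (nh G) v f = apply (adj (triangles G) edgesOf) v f / mS G := by
  simp only [apply, nh, sum_div]
  exact sum_congr rfl fun g _ => by ring

lemma nh_symm (G : Gr n) (f g : Sym2 (Fin n)) : nh G f g = nh G g f := by
  unfold nh; rw [Spectral.adj_symm]

lemma nh_nonneg {G : Gr n} (hm : 0 < mS G) (f g : Sym2 (Fin n)) : 0 ≤ nh G f g :=
  div_nonneg (Spectral.adj_nonneg f g) hm.le

lemma card_edges {G : Gr n} {t : Finset (Fin n)} (ht : t ∈ triangles G) :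
    (edgesOf t).card = 3 :=
  card_edgesOf (card_of_mem_triangles ht)

lemma nh_row {G : Gr n} (f : Sym2 (Fin n)) : ∑ g, nh G f g = 2 * cd G f / mS G := by
  simp only [nh]
  rw [← sum_div, Spectral.row_sum (fun t ht => card_edges ht), deg_eq_cd]

lemma nh_row_le {G : Gr n} {B : ℝ} (h : Bnd G B) (f : Sym2 (Fin n)) :
    ∑ g, nh G f g ≤ 2 * (1 + B) := by
  have hm : 0 < mS G := lt_of_lt_of_le one_pos h.pos
  rw [nh_row, div_le_iff₀ hm, ← deg_eq_cd]
  linarith [deg_le h f]

lemma nh_low {G : Gr n} {B : ℝ} (h : Bnd G B) (v : Sym2 (Fin n) → ℝ) :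
    -(1 + B) * ∑ f, v f ^ 2 ≤ ∑ f, v f * apply (nh G) v f := by
  have hm : 0 < mS G := lt_of_lt_of_le one_pos h.pos
  simp only [nh_apply_eq, ← mul_div_assoc, ← sum_div]
  rw [le_div_iff₀ hm]
  calc -(1 + B) * (∑ f, v f ^ 2) * mS G = -((1 + B) * mS G) * ∑ f, v f ^ 2 := by ring
    _ ≤ _ := Spectral.quad_lower (fun f => deg_le h f) v

lemma nh_sq_le {G : Gr n} {B : ℝ} (h : Bnd G B) (w : Sym2 (Fin n) → ℝ) :
    ∑ f, apply (nh G) w f ^ 2 ≤ (2 * (1 + B)) ^ 2 * ∑ f, w f ^ 2 := by
  have h0 := fun f g => nh_nonneg (G := G) (lt_of_lt_of_le one_pos h.pos) f g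
  have hy : 0 ≤ 2 * (1 + B) := by linarith [h.nonneg]
  calc ∑ f, apply (nh G) w f ^ 2 ≤ ∑ f, 2 * (1 + B) * ∑ g, nh G f g * w g ^ 2 := by
        refine sum_le_sum fun f _ => ?_
        refine (sum_sq_le_sum_mul_sum_of_sq_le_mul (R := ℝ) univ (r := fun g => nh G f g * w g)
          (g := fun g => nh G f g * w g ^ 2) (f := fun g => nh G f g) (fun g _ => h0 f g)
          (fun g _ => mul_nonneg (h0 f g) (sq_nonneg _)) fun g _ => le_of_eq ?_).trans ?_
        · ring
        · exact mul_le_mul_of_nonneg_right (nh_row_le h f)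
            (sum_nonneg fun g _ => mul_nonneg (h0 f g) (sq_nonneg _))
    _ = 2 * (1 + B) * ∑ g, (∑ f, nh G f g) * w g ^ 2 := by
        rw [← mul_sum, sum_comm]; simp only [sum_mul]
    _ ≤ 2 * (1 + B) * ∑ g, 2 * (1 + B) * w g ^ 2 := by
        gcongr with g _
        rw [sum_congr rfl fun f _ => nh_symm G f g]; exact nh_row_le h g
    _ = _ := by rw [← mul_sum]; ring

/-- The growth of the square norm. -/
theorem propNorm : PropNorm := by
  intro n G B a k v h ha
  induction k with
  | zero => simp [propA]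
  | succ k ih =>
    obtain ⟨w, hw⟩ : ∃ w, w = propA G a k v := ⟨_, rfl⟩
    have hk := ha k (by omega)
    have h1 : ∑ f, propA G a (k + 1) v f ^ 2 ≤
        (1 + (2 * a k * (1 + B) + 9 * a k ^ 2)) * ∑ f, w f ^ 2 := by
      have e : ∑ f, propA G a (k + 1) v f ^ 2 = ∑ f, w f ^ 2 -
          2 * a k * ∑ f, w f * apply (nh G) w f + a k ^ 2 * ∑ f, apply (nh G) w f ^ 2 := by
        simp only [propA, ← hw, mul_sum, ← sum_sub_distrib, ← sum_add_distrib]
        exact sum_congr rfl fun f _ => by ring
      have h9 : (2 * (1 + B)) ^ 2 ≤ 9 := by nlinarith [h.le, h.nonneg]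
      have hW : 0 ≤ ∑ f, w f ^ 2 := sum_nonneg fun f _ => sq_nonneg _
      rw [e]
      nlinarith [mul_le_mul_of_nonneg_left (nh_low h w) (show 0 ≤ 2 * a k by linarith),
        mul_le_mul_of_nonneg_left ((nh_sq_le h w).trans (mul_le_mul_of_nonneg_right h9 hW))
          (sq_nonneg (a k))]
    refine h1.trans ?_
    rw [sum_range_succ, Real.exp_add, hw]
    have h2 := ih fun l hl => ha l (by omega)
    have h3 : 1 + (2 * a k * (1 + B) + 9 * a k ^ 2) ≤
        Real.exp (2 * a k * (1 + B) + 9 * a k ^ 2) := by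
      linarith [Real.add_one_le_exp (2 * a k * (1 + B) + 9 * a k ^ 2)]
    calc _ ≤ Real.exp (2 * a k * (1 + B) + 9 * a k ^ 2) *
          (Real.exp (∑ l ∈ range k, (2 * a l * (1 + B) + 9 * a l ^ 2)) * ∑ f, v f ^ 2) :=
        mul_le_mul h3 h2 (sum_nonneg fun f _ => sq_nonneg _) (Real.exp_pos _).le
      _ = _ := by ring

/-- The propagator is symmetric and commutes with `nh`. -/
theorem propSymm : PropSymm := by
  intro n G a k u v
  refine ⟨?_, ?_⟩
  · have h1 : ∀ w : Sym2 (Fin n) → ℝ, propA G a k w =
        Spectral.poly (nh G) (cf a k) (k + 1) w := fun w => funext fun f => propPoly G a k w f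
    rw [h1, h1]
    exact Spectral.poly_adjoint (nh_symm G) _ _ u v
  · have h1 : ∀ w : Sym2 (Fin n) → ℝ, propA G a k w =
        Spectral.poly (nh G) (cf a k) (k + 1) w := fun w => funext fun f => propPoly G a k w f
    rw [h1, h1]
    exact (Spectral.apply_poly _ _ v).symm

/-- The row at an edge. -/
theorem rowNorm : RowNorm := by
  intro n G B e h
  have hm : 0 < mS G := lt_of_lt_of_le one_pos h.pos
  have hlin : ∀ i j : Sym2 (Fin n), i ≠ j →
      ((triangles G).filter fun t => i ∈ edgesOf t ∧ j ∈ edgesOf t).card ≤ 1 := by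
    intro i j hij
    refine card_le_one.2 fun t ht t' ht' => ?_
    obtain ⟨h1, h2, h3⟩ := mem_filter.1 ht
    obtain ⟨h1', h2', h3'⟩ := mem_filter.1 ht'
    exact Track.eq_of_two_edges (card_of_mem_triangles h1) (card_of_mem_triangles h1') hij h2 h3
      h2' h3'
  have hi : ∀ g, ind ({e} : Gr n) g = if g = e then 1 else 0 := fun g => by simp [ind]
  simp only [nh_apply_eq, div_pow, ← sum_div, funext hi]
  rw [Spectral.adj_delta (fun t ht => card_edges ht) hlin, div_le_div_iff₀ (by positivity) hm]
  nlinarith [mul_le_mul_of_nonneg_right (deg_le h e) hm.le]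

lemma nh_apply_outside {G : Gr n} {f : Sym2 (Fin n)} (hf : f ∉ G) (w : Sym2 (Fin n) → ℝ) :
    apply (nh G) w f = 0 := by
  rw [nh_apply_eq]
  have h0 : ∀ g, adj (triangles G) edgesOf f g = 0 := by
    intro g
    unfold Spectral.adj
    split_ifs
    · rfl
    · rw [Nat.cast_eq_zero, card_eq_zero, filter_eq_empty_iff]
      exact fun t ht hft => hf (edges_sub ht hft.1)
  simp [apply, h0]

/-- The propagator of the constant vector. -/
theorem propOne : PropOne := by
  intro n G B a k f h hf ha
  have hm : 0 < mS G := lt_of_lt_of_le one_pos h.pos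
  have hone : ∀ g, |apply (nh G) (ind G) g - 2 * ind G g| ≤ 2 * B := by
    intro g
    by_cases hg : g ∈ G
    · have e1 : apply (nh G) (ind G) g = 2 * cd G g / mS G := by
        rw [← nh_row]
        refine sum_congr rfl fun g' _ => ?_
        by_cases hg' : g' ∈ G
        · simp [ind, hg']
        · have h0 := nh_apply_outside hg' (fun x => if x = g then (1 : ℝ) else 0)
          simp [apply] at h0
          simp [ind, hg', nh_symm G g g', h0]
      have hd := h.dev g hg
      rw [dv, if_pos hg] at hd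
      rw [e1, ind, if_pos hg, mul_one, show 2 * cd G g / mS G - 2 = 2 * (cd G g / mS G - 1) by ring,
        abs_mul, abs_two]
      linarith
    · rw [nh_apply_outside hg, ind, if_neg hg]; simp [h.nonneg]
  have hy : 0 ≤ 2 * (1 + B) := by linarith [h.nonneg]
  suffices ∀ g, |propA G a k (ind G) g - (∏ l ∈ range k, (1 - 2 * a l)) * ind G g| ≤
      2 * tot a k * B * Real.exp (tot a k * (2 * (1 + B))) by
    have := this f
    rwa [ind, if_pos hf, mul_one] at this
  clear hf f
  induction k with
  | zero => intro g; simp [propA, tot]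
  | succ k ih =>
    intro g
    have hk := ha k (by omega)
    have ihk := ih fun l hl => ha l (by omega)
    set P := ∏ l ∈ range k, (1 - 2 * a l)
    have hP : |P| ≤ 1 := by
      rw [abs_prod]
      exact prod_le_one (fun l _ => abs_nonneg _) fun l hl => by
        have := ha l (by rw [mem_range] at hl; omega); rw [abs_le]; constructor <;> linarith
    obtain ⟨w, hw⟩ : ∃ w, w = fun g => propA G a k (ind G) g - P * ind G g := ⟨_, rfl⟩
    have ew : ∀ g, propA G a k (ind G) g = w g + P * ind G g := fun g => by rw [hw]; ring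
    have ht0 : 0 ≤ tot a k :=
      sum_nonneg fun l hl => (ha l (by rw [mem_range] at hl; omega)).1
    set X := tot a k
    set err := 2 * X * B * Real.exp (X * (2 * (1 + B)))
    have herr : 0 ≤ err := by have := h.nonneg; positivity
    have hNw : |apply (nh G) w g| ≤ 2 * (1 + B) * err := by
      refine (abs_sum_le_sum_abs _ _).trans ?_
      calc ∑ g', |nh G g g' * w g'| ≤ ∑ g', nh G g g' * err := by
            refine sum_le_sum fun g' _ => ?_
            rw [abs_mul, abs_of_nonneg (nh_nonneg hm g g')]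
            exact mul_le_mul_of_nonneg_left (by rw [hw]; exact ihk g') (nh_nonneg hm g g')
        _ ≤ _ := by rw [← sum_mul]; exact mul_le_mul_of_nonneg_right (nh_row_le h g) herr
    have eN : apply (nh G) (propA G a k (ind G)) g =
        apply (nh G) w g + P * apply (nh G) (ind G) g := by
      rw [funext ew]
      simp only [apply, mul_add, sum_add_distrib, mul_sum]
      congr 1
      exact sum_congr rfl fun g' _ => by ring
    rw [prod_range_succ, propA]
    dsimp only
    rw [eN, ew,
      show w g + P * ind G g - a k * (apply (nh G) w g + P * apply (nh G) (ind G) g) -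
        P * (1 - 2 * a k) * ind G g =
        w g - a k * apply (nh G) w g - a k * P * (apply (nh G) (ind G) g - 2 * ind G g) by ring,
      show tot a (k + 1) = X + a k from sum_range_succ _ _]
    have hwg : |w g| ≤ err := by rw [hw]; exact ihk g
    have t1 : |a k * apply (nh G) w g| ≤ a k * (2 * (1 + B) * err) := by
      rw [abs_mul, abs_of_nonneg hk.1]; exact mul_le_mul_of_nonneg_left hNw hk.1
    have t2 : |a k * P * (apply (nh G) (ind G) g - 2 * ind G g)| ≤ a k * (2 * B) := by
      rw [abs_mul, abs_mul, abs_of_nonneg hk.1, mul_assoc]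
      refine mul_le_mul_of_nonneg_left ?_ hk.1
      calc |P| * |apply (nh G) (ind G) g - 2 * ind G g| ≤ 1 * (2 * B) :=
            mul_le_mul hP (hone g) (abs_nonneg _) zero_le_one
        _ = _ := one_mul _
    refine (abs_sub _ _).trans ((add_le_add (abs_sub _ _) le_rfl).trans ?_)
    refine (add_le_add (add_le_add hwg t1) t2).trans ?_
    have hq : (1 + a k * (2 * (1 + B))) * Real.exp (X * (2 * (1 + B))) ≤
        Real.exp ((X + a k) * (2 * (1 + B))) := by
      rw [add_mul X, Real.exp_add, mul_comm (Real.exp (X * _))]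
      refine mul_le_mul_of_nonneg_right ?_ (Real.exp_pos _).le
      linarith [Real.add_one_le_exp (a k * (2 * (1 + B)))]
    have he : 1 ≤ Real.exp ((X + a k) * (2 * (1 + B))) := by
      have := hk.1
      exact Real.one_le_exp (by positivity)
    have := mul_le_mul_of_nonneg_left hq (show 0 ≤ 2 * X * B by have := h.nonneg; positivity)
    nlinarith [mul_le_mul_of_nonneg_left he (show 0 ≤ 2 * a k * B by
      have := h.nonneg; have := hk.1; positivity)]

/-- The sums of the grid steps. -/
theorem stpTot : StpTot := by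
  intro E k hk
  have hE : (3 * k : ℝ) < E := by exact_mod_cast hk
  have hJ : (0 : ℝ) < (E : ℝ) - 3 * k := by linarith
  have hpos : ∀ l < k, (E : ℝ) - 3 * k ≤ (E : ℝ) - 3 * (l + 1) := by
    intro l hl
    have : ((l : ℝ) + 1) ≤ k := by exact_mod_cast hl
    linarith
  have key : ∀ j ≤ k,
      Real.log ((E : ℝ) / ((E : ℝ) - 3 * j)) ≤ tot (stp E) j ∧
        tot (stp E) j ≤ Real.log ((E : ℝ) / ((E : ℝ) - 3 * j)) + 3 / ((E : ℝ) - 3 * j) -
          3 / E := by
    intro j
    induction j with
    | zero =>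
      intro _
      have hE0 : (E : ℝ) ≠ 0 := by
        have : (0 : ℝ) ≤ 3 * k := by positivity
        linarith
      simp [tot, div_self hE0]
    | succ j ih =>
      intro hj
      obtain ⟨i1, i2⟩ := ih (by omega)
      have hy : 0 < (E : ℝ) - 3 * (j + 1) := lt_of_lt_of_le hJ (hpos j (by omega))
      have hE0 : (0 : ℝ) < E := by
        have : (0 : ℝ) ≤ 3 * (j + 1) := by positivity
        linarith
      have ht : tot (stp E) (j + 1) = tot (stp E) j + 3 / ((E : ℝ) - 3 * (j + 1)) :=
        sum_range_succ _ _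
      rw [ht]
      push_cast
      obtain ⟨y, hyd⟩ : ∃ y, y = (E : ℝ) - 3 * (j + 1) := ⟨_, rfl⟩
      have ex : (E : ℝ) - 3 * j = y + 3 := by rw [hyd]; ring
      rw [ex] at i1 i2
      rw [← hyd] at hy ⊢
      have hl : Real.log ((E : ℝ) / y) = Real.log ((E : ℝ) / (y + 3)) + Real.log ((y + 3) / y) := by
        rw [← Real.log_mul (by positivity) (by positivity)]
        congr 1
        field_simp
      have u1 : Real.log ((y + 3) / y) ≤ 3 / y := by
        refine (Real.log_le_sub_one_of_pos (by positivity)).trans (le_of_eq ?_)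
        field_simp; ring
      have u2 : 3 / (y + 3) ≤ Real.log ((y + 3) / y) := by
        refine le_trans (le_of_eq ?_) (Real.one_sub_inv_le_log_of_pos (by positivity))
        field_simp; ring
      constructor <;> linarith
  obtain ⟨h1, h2⟩ := key k le_rfl
  refine ⟨h1, ?_, ?_⟩
  · have : (0 : ℝ) ≤ 3 / E := by positivity
    linarith
  · rw [le_div_iff₀ hJ, tot, mul_sum, sum_mul]
    refine sum_le_sum fun l hl => ?_
    have hp := hpos l (mem_range.1 hl)
    have h0 : 0 ≤ stp E l := div_nonneg (by norm_num) (by linarith)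
    have h3 : stp E l * ((E : ℝ) - 3 * k) ≤ 3 := by
      unfold stp
      rw [div_mul_eq_mul_div, div_le_iff₀ (by linarith)]
      nlinarith
    nlinarith [mul_le_mul_of_nonneg_left h3 h0]

end Vale.Agent.P046.Full
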