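import Vale.Agent.P046.Full.Params
import Vale.Agent.P046.Full.Count
import Vale.Agent.P046.Full.Labels

/-!
Module 6, last step: from the label sandwich on hypertree balls to the first two moments of the
final count. Intersecting balls are rare because codegrees at the stage are polylogarithmic.
-/

namespace Vale.Agent.P046.Full

open Finset Filter Labels
open scoped Classical Topology

variable {n : ℕ}

/-- The edges within distance `k` of a triangle. -/
noncomputable def near (G : Gr n) (T : Finset (Fin n)) : ℕ → Finset (Sym2 (Fin n))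
  | 0 => edgesOf T
  | k + 1 => near G T k ∪ (near G T k).biUnion fun e =>
      ((triangles G).filter fun t => e ∈ edgesOf t).biUnion edgesOf

lemma edgesOf_subset_near (G : Gr n) (T : Finset (Fin n)) : ∀ k, edgesOf T ⊆ near G T k
  | 0 => subset_rfl
  | k + 1 => (edgesOf_subset_near G T k).trans subset_union_left

lemma mem_near_of_mem_dep (G : Gr n) :
    ∀ (k : ℕ) (P T : Finset (Fin n)) (g : Sym2 (Fin n)), T ∈ dep G k P g → g ∈ near G T k
  | 0, P, T, g, h => absurd h (by simp [dep])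
  | k + 1, P, T, g, h => by
    obtain ⟨T', hT', h'⟩ := mem_biUnion.1 h
    obtain ⟨hT1, hg, _⟩ := mem_filter.1 hT'
    rcases mem_insert.1 h' with rfl | h'
    · exact edgesOf_subset_near G T (k + 1) hg
    · obtain ⟨e, he, h''⟩ := mem_biUnion.1 h'
      exact mem_union_right _ (mem_biUnion.2 ⟨e, mem_near_of_mem_dep G k T' T e h'',
        mem_biUnion.2 ⟨T', mem_filter.2 ⟨hT1, (mem_erase.1 he).2⟩, hg⟩⟩)

lemma card_triangles_at_le {G : Gr n} {Y : ℕ}
    (hY : ∀ f ∈ G, #{t ∈ triangles G | f ∈ edgesOf t} ≤ Y) (f : Sym2 (Fin n)) :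
    #{t ∈ triangles G | f ∈ edgesOf t} ≤ Y := by
  rcases Finset.eq_empty_or_nonempty ({t ∈ triangles G | f ∈ edgesOf t}) with h | ⟨t, ht⟩
  · simp [h]
  · obtain ⟨h1, h2⟩ := mem_filter.1 ht
    exact hY f (edgesOf_subset h1 h2)

lemma card_near_le {G : Gr n} {Y : ℕ} (hY : ∀ f ∈ G, #{t ∈ triangles G | f ∈ edgesOf t} ≤ Y)
    {T : Finset (Fin n)} (hT : (edgesOf T).card ≤ 3) :
    ∀ k, (near G T k).card ≤ 3 * (3 * Y + 1) ^ k
  | 0 => by simpa [near] using hT
  | k + 1 => by
    refine (card_union_le _ _).trans ?_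
    refine (Nat.add_le_add_left (card_biUnion_le_card_mul _ _ (3 * Y) fun e _ => ?_) _).trans ?_
    · refine (card_biUnion_le_card_mul _ _ 3 fun t ht => ?_).trans ?_
      · exact (card_edgesOf (card_of_mem_triangles (mem_filter.1 ht).1)).le
      · rw [mul_comm 3 Y]; exact Nat.mul_le_mul_right 3 (card_triangles_at_le hY e)
    · calc (near G T k).card + (near G T k).card * (3 * Y)
          = (near G T k).card * (3 * Y + 1) := by ring
        _ ≤ 3 * (3 * Y + 1) ^ k * (3 * Y + 1) := Nat.mul_le_mul_right _ (card_near_le hY hT k)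
        _ = _ := by ring

lemma dep_subset_triangles (G : Gr n) :
    ∀ (k : ℕ) (P : Finset (Fin n)) (f : Sym2 (Fin n)), dep G k P f ⊆ triangles G
  | 0, P, f => by simp [dep]
  | k + 1, P, f => biUnion_subset.2 fun T hT => insert_subset (mem_filter.1 hT).1
      (biUnion_subset.2 fun e _ => dep_subset_triangles G k T e)

lemma card_dep_le {G : Gr n} {Y : ℕ} (hY : ∀ f ∈ G, #{t ∈ triangles G | f ∈ edgesOf t} ≤ Y) :
    ∀ (k : ℕ) (P : Finset (Fin n)) (f : Sym2 (Fin n)), (dep G k P f).card ≤ (3 * Y + 1) ^ k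
  | 0, P, f => by simp [dep]
  | k + 1, P, f => by
    have h1 : 1 ≤ (3 * Y + 1) ^ k := Nat.one_le_pow _ _ (by omega)
    refine (card_biUnion_le_card_mul _ _ (3 * (3 * Y + 1) ^ k) fun T hT => ?_).trans ?_
    · refine (card_insert_le _ _).trans ?_
      have h2 := card_biUnion_le_card_mul ((edgesOf T).erase f) (fun e => dep G k T e)
        ((3 * Y + 1) ^ k) fun e _ => card_dep_le hY k T e
      obtain ⟨hT1, hf, _⟩ := mem_filter.1 hT
      rw [card_erase_of_mem hf, card_edgesOf (card_of_mem_triangles hT1)] at h2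
      omega
    · have hk : (kids G P f).card ≤ Y :=
        (card_le_card fun t ht => mem_filter.2 ⟨(mem_filter.1 ht).1, (mem_filter.1 ht).2.1⟩).trans
          (card_triangles_at_le hY f)
      calc (kids G P f).card * (3 * (3 * Y + 1) ^ k)
          ≤ Y * (3 * (3 * Y + 1) ^ k) := Nat.mul_le_mul_right _ hk
        _ ≤ (3 * Y + 1) * (3 * Y + 1) ^ k := by
            rw [← mul_assoc]; exact Nat.mul_le_mul_right _ (by omega)
        _ = _ := by rw [pow_succ']

lemma card_clash_le {G : Gr n} {Y : ℕ} (hY : ∀ f ∈ G, #{t ∈ triangles G | f ∈ edgesOf t} ≤ Y)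
    (k : ℕ) (f : Sym2 (Fin n)) :
    #{g ∈ G | ¬ Disjoint (dep G k ∅ f) (dep G k ∅ g)} ≤ 3 * (3 * Y + 1) ^ (2 * k) := by
  refine (card_le_card (t := (dep G k ∅ f).biUnion fun T => near G T k) fun g hg => ?_).trans ?_
  · obtain ⟨T, h1, h2⟩ := Finset.not_disjoint_iff.1 (mem_filter.1 hg).2
    exact mem_biUnion.2 ⟨T, h1, mem_near_of_mem_dep G k ∅ T g h2⟩
  · refine (card_biUnion_le_card_mul _ _ (3 * (3 * Y + 1) ^ k) fun T hT => card_near_le hY
      (card_edgesOf (card_of_mem_triangles (dep_subset_triangles G k ∅ f hT))).le k).trans ?_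
    refine (Nat.mul_le_mul_right _ (card_dep_le hY k ∅ f)).trans (le_of_eq ?_)
    ring

lemma val_mem_Icc {G : Gr n} {w : ℕ → ℝ} (hw : ∀ i, 0 ≤ w i)
    (hsum : ∀ c, ∑ i ∈ range c, w i ≤ 1) :
    ∀ (k : ℕ) (P : Finset (Fin n)) (f : Sym2 (Fin n)) (c : ℕ),
      0 ≤ val G w k P f c ∧ val G w k P f c ≤ 1
  | 0, P, f, c => by simp [Labels.val]
  | k + 1, P, f, c => by
    have h : ∀ T ∈ kids G P f,
        0 ≤ 1 - ∑ i ∈ range c, w i * ∏ h ∈ (edgesOf T).erase f, val G w k T h (nxt k i) ∧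
          1 - ∑ i ∈ range c, w i * ∏ h ∈ (edgesOf T).erase f, val G w k T h (nxt k i) ≤ 1 := by
      intro T _
      have h1 : ∀ i, 0 ≤ ∏ h ∈ (edgesOf T).erase f, val G w k T h (nxt k i) ∧
          ∏ h ∈ (edgesOf T).erase f, val G w k T h (nxt k i) ≤ 1 := fun i =>
        ⟨prod_nonneg fun e _ => (val_mem_Icc hw hsum k T e _).1,
          prod_le_one (fun e _ => (val_mem_Icc hw hsum k T e _).1)
            fun e _ => (val_mem_Icc hw hsum k T e _).2⟩
      refine ⟨sub_nonneg.2 (le_trans (sum_le_sum fun i _ => ?_) (hsum c)), sub_le_self _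
        (sum_nonneg fun i _ => mul_nonneg (hw i) (h1 i).1)⟩
      exact mul_le_of_le_one_right (hw i) (h1 i).2
    exact ⟨prod_nonneg fun T hT => (h T hT).1,
      prod_le_one (fun T hT => (h T hT).1) fun T hT => (h T hT).2⟩

lemma wGrid_facts {E : ℕ} (hE : 0 < E) (hm : 0 < mI n E) :
    (∀ i, 0 ≤ wGrid n E i) ∧ (∑ i ∈ range (nGrid n E + 1), wGrid n E i = 1) ∧
      ∀ c, ∑ i ∈ range c, wGrid n E i ≤ 1 := by
  obtain ⟨N, hN⟩ : ∃ N, N = nGrid n E := ⟨_, rfl⟩
  have h0 : xt n E 0 = 0 := by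
    have : (E : ℝ) ≠ 0 := by exact_mod_cast hE.ne'
    simp [xt, phi, this]
  have hspec : 3 * N < E ∧ xt n E N ≤ 1 := by
    rw [hN]
    exact Nat.findGreatest_spec (P := fun k => 3 * k < E ∧ xt n E k ≤ 1) (Nat.zero_le _)
      ⟨by omega, by rw [h0]; exact zero_le_one⟩
  have hst0 : ∀ i, i < N → 0 ≤ hst n E i := by
    intro i hi
    have hEr : (0 : ℝ) < E := by exact_mod_cast hE
    have h3 : (3 : ℝ) * (i + 1) < E := by
      have : 3 * (i + 1) < E := by omega
      exact_mod_cast this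
    have hp : 0 < phi E (i + 1) := by
      rw [phi]; push_cast; exact div_pos (by linarith) hEr
    have hle : phi E (i + 1) ≤ phi E i :=
      div_le_div_of_nonneg_right (by push_cast; linarith) hEr.le
    have h2 := pow_le_pow_left₀ (inv_nonneg.2 (hp.le.trans hle)) (inv_anti₀ hp hle) 2
    rw [hst, xt, xt, ← sub_div]
    exact div_nonneg (by linarith) (by linarith)
  have hw : ∀ i, 0 ≤ wGrid n E i := by
    intro i
    rw [wGrid, ← hN]
    split_ifs with h1 h2
    · exact hst0 i h1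
    · rw [h2]; linarith [hspec.2]
    · rfl
  have hfull : ∑ i ∈ range (N + 1), wGrid n E i = 1 := by
    rw [sum_range_succ, sum_congr rfl fun i hi => (by
      rw [wGrid, ← hN, if_pos (mem_range.1 hi)]; rfl :
        wGrid n E i = xt n E (i + 1) - xt n E i)]
    rw [sum_range_sub (fun i => xt n E i), h0, wGrid, ← hN, if_neg (lt_irrefl _), if_pos rfl]
    ring
  refine ⟨hw, hN ▸ hfull, fun c => ?_⟩
  rcases le_total c (N + 1) with hc | hc
  · exact (sum_le_sum_of_subset_of_nonneg (range_mono hc) fun i _ _ => hw i).trans hfull.le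
  · rw [← sum_range_add_sum_Ico _ hc, hfull, sum_eq_zero fun i hi => ?_, add_zero]
    have := (mem_Ico.1 hi).1
    rw [wGrid, ← hN, if_neg (by omega), if_neg (by omega)]

lemma eventually_small_clash :
    ∀ᶠ n : ℕ in atTop, 3 * (25 * mHi n) ^ (2 * rad n) * lg n ^ 2 ≤ n := by
  have h1 : ∀ᶠ x : ℝ in atTop, 20000 * Real.log x ^ 5 + 4 ≤ x := by
    have h := (Real.isLittleO_pow_log_id_atTop (n := 5)).bound
      (show (0 : ℝ) < 1 / 40000 by norm_num)
    filter_upwards [h, eventually_ge_atTop (8 : ℝ)] with x hx h8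
    simp only [Real.norm_eq_abs, id_eq, abs_of_nonneg (show (0 : ℝ) ≤ x by linarith)] at hx
    linarith [le_abs_self (Real.log x ^ 5)]
  filter_upwards [tendsto_lg.eventually h1,
    (Real.tendsto_log_atTop.comp tendsto_lg).eventually_ge_atTop 1,
    tendsto_lg.eventually_ge_atTop 1, eventually_gt_atTop 0] with n hx hl hL hn
  simp only [Function.comp_apply] at hl
  obtain ⟨l, hl'⟩ : ∃ l, l = Real.log (lg n) := ⟨_, rfl⟩
  rw [← hl'] at hx hl
  have hn0 : (0 : ℝ) < n := by exact_mod_cast hn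
  have hL0 : 0 < lg n := by linarith
  have hM : 0 < mHi n := pow_pos hL0 _
  have hr : (rad n : ℝ) ≤ 4 * l ^ 4 := by
    have h2 : (⌈l ^ 4⌉₊ : ℝ) < l ^ 4 + 1 := Nat.ceil_lt_add_one (by positivity)
    have h3 : 1 ≤ l ^ 4 := one_le_pow₀ hl
    rw [rad, ← hl']
    push_cast
    linarith
  have hlogM : Real.log (25 * mHi n) = Real.log 25 + 2000 * l := by
    rw [Real.log_mul (by norm_num) hM.ne', mHi, Real.log_pow, ← hl']; norm_num
  have h25 : Real.log 25 ≤ 24 := (Real.log_le_sub_one_of_pos (by norm_num)).trans (by norm_num)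
  have h250 : 0 ≤ Real.log 25 := Real.log_nonneg (by norm_num)
  have h3 : Real.log 3 ≤ 2 := (Real.log_le_sub_one_of_pos (by norm_num)).trans (by norm_num)
  refine (Real.log_le_log_iff (by positivity) hn0).1 ?_
  rw [Real.log_mul (by positivity) (by positivity), Real.log_mul (by norm_num) (by positivity),
    Real.log_pow, Real.log_pow, hlogM, ← hl']
  push_cast
  have h5 : l ≤ l ^ 5 := le_self_pow₀ hl (by norm_num)
  have h4 : l ^ 4 ≤ l ^ 5 := pow_le_pow_right₀ hl (by norm_num)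
  have hmain : (rad n : ℝ) * (Real.log 25 + 2000 * l) ≤ 4 * l ^ 4 * (24 + 2000 * l) :=
    mul_le_mul hr (by linarith) (by linarith) (by positivity)
  show _ ≤ lg n
  nlinarith

lemma eventually_stage_cod : ∀ᶠ n : ℕ in atTop, ∀ G : Gr n, AtStage G →
    0 < G.card ∧ 0 < mI n G.card ∧ (∀ f ∈ G, (cd G f) ≤ 8 * mHi n) := by
  filter_upwards [tendsto_lg.eventually_ge_atTop 4, eventually_ge_atTop 12] with n hL hn G hG
  have hn12 : (12 : ℝ) ≤ n := by exact_mod_cast hn
  have hn0 : (0 : ℝ) < n := by linarith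
  have hM1 : 1 ≤ mHi n := one_le_pow₀ (by linarith)
  obtain ⟨S, hS⟩ : ∃ S, S = Real.sqrt (mHi n * (n : ℝ) ^ 3) := ⟨_, rfl⟩
  have hS2 : S ^ 2 = mHi n * (n : ℝ) ^ 3 := by rw [hS, Real.sq_sqrt (by positivity)]
  have hS12 : 12 ≤ S := by
    rw [hS, Real.le_sqrt (by norm_num) (by positivity)]
    nlinarith [mul_le_mul hM1 (pow_le_pow_left₀ (by norm_num) hn12 3) (by norm_num) (by linarith)]
  have hlo : S / 4 ≤ (G.card : ℝ) := by
    have := hG.card_ge; rw [← hS] at this; linarith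
  have hhi : (G.card : ℝ) ≤ S := by
    have h1 : (G.card : ℝ) ≤ eHi n := by exact_mod_cast hG.le
    have h2 : (eHi n : ℝ) < S / 2 + 1 := hS ▸ Nat.ceil_lt_add_one (by positivity)
    linarith
  have hE0 : (0 : ℝ) < G.card := by linarith
  have hm : 0 < mI n G.card := by rw [mI]; positivity
  refine ⟨by exact_mod_cast hE0, hm, fun f hf => ?_⟩
  have hm1 : mHi n / 4 ≤ mI n G.card := by
    rw [mI, div_le_div_iff₀ (by norm_num) (by positivity)]
    nlinarith [pow_le_pow_left₀ (by linarith) hlo 2]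
  have hm2 : mI n G.card ≤ 4 * mHi n := by
    rw [mI, div_le_iff₀ (by positivity)]
    nlinarith [pow_le_pow_left₀ hE0.le hhi 2]
  have hlo60 : 4 * mLo n ≤ mHi n := by
    rw [mLo, mHi, show lg n ^ 2000 = lg n ^ 1940 * lg n ^ 60 by rw [← pow_add]]
    exact mul_le_mul_of_nonneg_right (hL.trans (le_self_pow₀ (by linarith) (by norm_num)))
      (pow_nonneg (by linarith) _)
  have hc : mI n ((G.card : ℝ) - 3 * ((0 : ℕ) : ℝ)) = mI n G.card := by simp
  have hcard : 0 < G.card := by exact_mod_cast hE0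
  have h := hG.good f hf 0 (by omega) (by rw [hc]; linarith)
  rw [hc] at h
  simp only [Z, prop, dv, if_pos hf, mS] at h
  have hB : Bd n (mI n G.card) ≤ 1 := by
    rw [Bd, div_le_one (Real.sqrt_pos.2 hm), Real.le_sqrt (pow_nonneg (by linarith) _) hm.le,
      ← pow_mul]
    calc lg n ^ (5 * 2) ≤ lg n ^ 60 := pow_le_pow_right₀ (by linarith) (by norm_num)
      _ ≤ mI n G.card := by
          rw [show lg n ^ 60 = mLo n from rfl]; linarith
  have h' := (abs_le.1 h).2
  rw [sub_le_iff_le_add, div_le_iff₀ hm] at h'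
  nlinarith [mul_le_mul_of_nonneg_right (show Bd n (mI n G.card) + 1 ≤ 2 by linarith) hm.le]

/-- The second moment when every pair off the clashes is bounded by a product. -/
lemma Ev_sq_le_of_clash {G : Gr n} (clash : Sym2 (Fin n) → Sym2 (Fin n) → Prop)
    (a : Sym2 (Fin n) → ℝ) (ha : ∀ f ∈ G, 0 ≤ a f)
    (h : ∀ f ∈ G, ∀ g ∈ G, ¬ clash f g →
      Ev (fun H => Count.ind f H * Count.ind g H) G ≤ a f * a g) :
    Ev (fun H => (H.card : ℝ) ^ 2) G ≤
      (∑ f ∈ G, a f) ^ 2 + ∑ f ∈ G, (#{g ∈ G | clash f g} : ℝ) := by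
  obtain ⟨bad, hb⟩ : ∃ bad : Sym2 (Fin n) → Prop, ∀ f, bad f ↔ f ∉ G := ⟨_, fun _ => Iff.rfl⟩
  refine (Count.Ev_sq_le_of_pairs bad clash a ha
    fun f hf g hg _ _ hc => h f hf g hg hc).trans (le_of_eq ?_)
  have e1 : (#{f ∈ G | bad f} : ℝ) = 0 := by
    rw [Nat.cast_eq_zero, card_eq_zero]
    exact Finset.filter_false_of_mem fun f hf hc => (hb f).1 hc hf
  rw [e1, mul_zero, zero_mul, add_zero]
  refine congrArg _ (sum_congr rfl fun f hf => ?_)
  simp [hb, hf]

/-- The wrapper: the label theorems imply the first two moment bounds at the stage. -/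
theorem localStep_of
    (hup : ∀ {n : ℕ} {G : Gr n} {w : ℕ → ℝ} {L : ℕ}, (∀ i, 0 ≤ w i) →
      (∑ i ∈ range L, w i = 1) → ∀ {k : ℕ}, Even k → ∀ {f : Sym2 (Fin n)}, Tree G k ∅ f →
      Ev (fun H => if f ∈ H then 1 else 0) G ≤ val G w k ∅ f L)
    (hlo : ∀ {n : ℕ} {G : Gr n} {w : ℕ → ℝ} {L : ℕ}, (∀ i, 0 ≤ w i) →
      (∑ i ∈ range L, w i = 1) → ∀ {k : ℕ}, Odd k → ∀ {f : Sym2 (Fin n)}, f ∈ G →
      Tree G k ∅ f → val G w k ∅ f L ≤ Ev (fun H => if f ∈ H then 1 else 0) G)
    (hpair : ∀ {n : ℕ} {G : Gr n} {w : ℕ → ℝ} {L : ℕ}, (∀ i, 0 ≤ w i) →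
      (∑ i ∈ range L, w i = 1) → ∀ {k : ℕ}, Even k → ∀ {f g : Sym2 (Fin n)}, Tree G k ∅ f →
      Tree G k ∅ g → Disjoint (dep G k ∅ f) (dep G k ∅ g) →
      Ev (fun H => if f ∈ H ∧ g ∈ H then 1 else 0) G ≤ val G w k ∅ f L * val G w k ∅ g L) :
    LocalStep := by
  unfold LocalStep
  filter_upwards [eventually_small_clash, eventually_stage_cod,
    tendsto_lg.eventually_ge_atTop 1] with n hsmall hstage hL G hG
  obtain ⟨hE, hm, hcod⟩ := hstage G hG
  obtain ⟨hw, hw1, hwc⟩ := wGrid_facts (n := n) hE hm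
  have hk : Even (rad n) := ⟨⌈Real.log (lg n) ^ 4⌉₊, two_mul _⟩
  have hk1 : Odd (rad n + 1) := hk.add_one
  obtain ⟨bad, hbad⟩ : ∃ bad : Sym2 (Fin n) → Prop,
      ∀ f, bad f ↔ ¬ (Tree G (rad n) ∅ f ∧ Tree G (rad n + 1) ∅ f) := ⟨_, fun _ => Iff.rfl⟩
  have hnon : nonTree G = (#{f ∈ G | bad f} : ℝ) := by simp only [nonTree, hbad]
  have hval := fun (j : ℕ) (f : Sym2 (Fin n)) =>
    val_mem_Icc (G := G) hw hwc j ∅ f (nGrid n G.card + 1)
  have herr : 0 ≤ (n : ℝ) ^ (3 / 2 : ℝ) / lg n :=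
    div_nonneg (Real.rpow_nonneg (Nat.cast_nonneg n) _) (by linarith)
  refine ⟨?_, ?_, ?_⟩
  · refine le_trans ?_ (le_add_of_nonneg_right herr)
    rw [hnon]
    refine Count.Ev_card_le_of_edge bad _ (fun f _ => (hval _ f).1) fun f _ hb => ?_
    rw [hbad, not_not] at hb
    exact hup hw hw1 hk hb.1
  · refine le_trans (sub_le_self _ herr) ?_
    rw [hnon]
    refine Count.le_Ev_card_of_edge bad _ (fun f _ => (hval _ f).2) fun f hf hb => ?_
    rw [hbad, not_not] at hb
    exact hlo hw hw1 hk1 hf hb.2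
  · obtain ⟨a, ha⟩ : ∃ a : Sym2 (Fin n) → ℝ,
        ∀ f, a f = if bad f then 1 else itVal G (rad n) f := ⟨_, fun _ => rfl⟩
    have ha0 : ∀ f ∈ G, 0 ≤ a f := fun f _ => by
      rw [ha]; split_ifs
      exacts [zero_le_one, (hval _ f).1]
    have hsingle : ∀ f, Ev (Count.ind f) G ≤ a f := fun f => by
      rw [ha]; split_ifs with hb
      · exact Count.Ev_le_one (Count.ind_le_one f) G
      · rw [hbad, not_not] at hb; exact hup hw hw1 hk hb.1
    have hq := Ev_sq_le_of_clash (G := G)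
      (fun f g => ¬ Disjoint (dep G (rad n) ∅ f) (dep G (rad n) ∅ g)) a ha0 ?_
    · obtain ⟨Y, hY⟩ : ∃ Y, Y = ⌊8 * mHi n⌋₊ := ⟨_, rfl⟩
      have hM1 : 1 ≤ mHi n := one_le_pow₀ hL
      have hY' : (3 * (Y : ℝ) + 1) ≤ 25 * mHi n := by
        have : (Y : ℝ) ≤ 8 * mHi n := hY ▸ Nat.floor_le (by linarith)
        linarith
      have hcount : ∀ f ∈ G, (#{g ∈ G |
          ¬ Disjoint (dep G (rad n) ∅ f) (dep G (rad n) ∅ g)} : ℝ) ≤
            3 * (25 * mHi n) ^ (2 * rad n) := by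
        intro f _
        have h1 := card_clash_le (G := G) (Y := Y)
          (fun e he => by rw [hY]; exact Nat.le_floor (hcod e he)) (rad n) f
        refine (Nat.cast_le.2 h1).trans ?_
        push_cast
        gcongr
      have hclash : ∑ f ∈ G, (#{g ∈ G |
          ¬ Disjoint (dep G (rad n) ∅ f) (dep G (rad n) ∅ g)} : ℝ) ≤
            ((n : ℝ) ^ (3 / 2 : ℝ) / lg n) ^ 2 := by
        refine (sum_le_card_nsmul _ _ _ hcount).trans ?_
        rw [nsmul_eq_mul, div_pow, le_div_iff₀ (by positivity)]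
        have hE2 : (G.card : ℝ) ≤ (n : ℝ) ^ 2 := by
          have h1 : (G.card : ℝ) ≤ (completeEdges n).card := by
            exact_mod_cast card_le_card hG.sub
          rw [card_completeEdges, Nat.cast_choose_two] at h1
          nlinarith [Nat.cast_nonneg (α := ℝ) n]
        have hr : ((n : ℝ) ^ (3 / 2 : ℝ)) ^ 2 = (n : ℝ) ^ 2 * n := by
          rw [← pow_succ, ← Real.rpow_natCast, ← Real.rpow_mul (Nat.cast_nonneg n),
            ← Real.rpow_natCast]
          norm_num
        rw [hr, mul_assoc]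
        exact mul_le_mul hE2 hsmall (by positivity) (by positivity)
      have hS : ∑ f ∈ G, a f ≤ ∑ f ∈ G, itVal G (rad n) f + nonTree G := by
        rw [hnon, ← sum_boole, ← sum_add_distrib]
        refine sum_le_sum fun f _ => ?_
        rw [ha]; split_ifs <;> linarith [(hval (rad n) f).1, (show itVal G (rad n) f = val G
          (wGrid n G.card) (rad n) ∅ f (nGrid n G.card + 1) from rfl)]
      have hS0 : 0 ≤ ∑ f ∈ G, a f := sum_nonneg ha0
      have h2 := pow_le_pow_left₀ hS0 hS 2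
      have h3 := hq.trans (add_le_add h2 (le_of_eq_of_le (by congr!) hclash))
      linarith [mul_nonneg (hS0.trans hS) herr, add_sq (∑ f ∈ G, itVal G (rad n) f + nonTree G)
        ((n : ℝ) ^ (3 / 2 : ℝ) / lg n)]
    · intro f _ g _ hd
      rw [not_not] at hd
      rw [ha f, ha g]
      split_ifs with h1 h2 h2
      · rw [one_mul]
        exact Count.Ev_le_one (fun H => mul_le_one₀ (Count.ind_le_one f H)
          (Count.ind_nonneg g H) (Count.ind_le_one g H)) G
      · rw [one_mul]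
        refine (Ev_mono fun H _ _ => ?_).trans ((hsingle g).trans_eq (by rw [ha, if_neg h2]))
        exact mul_le_of_le_one_left (Count.ind_nonneg g H) (Count.ind_le_one f H)
      · rw [mul_one]
        refine (Ev_mono fun H _ _ => ?_).trans ((hsingle f).trans_eq (by rw [ha, if_neg h1]))
        exact mul_le_of_le_one_right (Count.ind_nonneg f H) (Count.ind_le_one g H)
      · rw [hbad, not_not] at h1 h2
        refine le_trans (le_of_eq ?_) (hpair hw hw1 hk h1.1 h2.1 hd)
        congr 1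
        funext H
        simp only [Count.ind]
        split_ifs <;> simp_all

/-- Module 6. -/
theorem localStep : LocalStep :=
  localStep_of (fun hw hw1 => Labels.Ev_mem_le hw hw1)
    (fun hw hw1 => Labels.val_le_Ev_mem hw hw1) (fun hw hw1 => Labels.Ev_pair_le hw hw1)

end Vale.Agent.P046.Full
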