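import Vale.Agent.P046.Full.Params

/-!
The exact constant from the six modules.
-/

namespace Vale.Agent.P046.Full

open Finset Filter Topology
open scoped Classical

/-- The constant `1 / (2 sqrt 2)`. -/
noncomputable def cst : ℝ := 1 / (2 * Real.sqrt 2)

/-- The scale `n ^ (3/2)`. -/
noncomputable def scl (n : ℕ) : ℝ := (n : ℝ) ^ (3 / 2 : ℝ)

/-- The asymptotics of the prediction at the stopping stage. -/
def PredStep : Prop :=
  ∀ δ : ℝ, 0 < δ → ∀ᶠ n : ℕ in atTop, ∀ G : Gr n, AtStage G → |pred G - cst * scl n| ≤ δ * scl n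

variable {n : ℕ}

/-- Comparison of stopped expectations along an invariant of the process. -/
lemma EvUntil_le_of_inv {stop : Gr n → Prop} {ψ χ : Gr n → ℝ} (Inv : Gr n → Prop) {G0 : Gr n}
    (h0 : Inv G0)
    (hstep : ∀ G, Inv G → ¬ stop G → ∀ T ∈ triangles G, Inv (G \ edgesOf T))
    (hend : ∀ G, Inv G → stop G ∨ triangles G = ∅ → ψ G ≤ χ G) :
    EvUntil stop ψ G0 ≤ EvUntil stop χ G0 := by
  refine process_induction (P := fun G => Inv G → EvUntil stop ψ G ≤ EvUntil stop χ G)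
    (fun G _ ih hI => ?_) h0
  by_cases h : stop G ∨ triangles G = ∅
  · rw [EvUntil_of_stop h, EvUntil_of_stop h]; exact hend G hI h
  · rw [not_or] at h
    rw [EvUntil_of_step h.1 h.2, EvUntil_of_step h.1 h.2]
    exact childAvg_le_childAvg fun T hT => ih T hT (hstep G hI h.1 T hT)

lemma mI_mono {E E' : ℝ} (h0 : 0 ≤ E) (h : E ≤ E') : mI n E ≤ mI n E' := by
  unfold mI; gcongr

lemma lg_tendsto : Tendsto lg atTop atTop :=
  Real.tendsto_log_atTop.comp tendsto_natCast_atTop_atTop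

lemma scl_sq (n : ℕ) : scl n ^ 2 = (n : ℝ) ^ 3 := by
  rw [scl, ← Real.rpow_natCast, ← Real.rpow_mul (Nat.cast_nonneg n),
    show (3 / 2 : ℝ) * ((2 : ℕ) : ℝ) = ((3 : ℕ) : ℝ) by norm_num, Real.rpow_natCast]

lemma eHi_le (hn : 1 ≤ n) (hL : 1 ≤ lg n) : (eHi n : ℝ) ≤ 2 * scl n * lg n ^ 1000 := by
  have h1 : (eHi n : ℝ) ≤ Real.sqrt (mHi n * (n : ℝ) ^ 3) / 2 + 1 :=
    (Nat.ceil_lt_add_one (by positivity)).le
  have h2 : Real.sqrt (mHi n * (n : ℝ) ^ 3) = lg n ^ 1000 * scl n := by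
    rw [← scl_sq, mHi, show (2000 : ℕ) = 1000 * 2 by norm_num, pow_mul, ← mul_pow,
      Real.sqrt_sq (by unfold scl; positivity)]
  have hs : 1 ≤ scl n := Real.one_le_rpow (by exact_mod_cast hn) (by norm_num)
  have hp : 1 ≤ lg n ^ 1000 := one_le_pow₀ hL
  have := mul_le_mul hs hp zero_le_one (le_trans zero_le_one hs)
  rw [h2] at h1
  linarith

lemma card_le_sq {H : Gr n} (h : H ⊆ completeEdges n) : (H.card : ℝ) ≤ (n : ℝ) ^ 2 := by
  have h2 : H.card ≤ n ^ 2 :=
    ((Finset.card_le_card h).trans_eq (card_completeEdges n)).trans (Nat.choose_le_pow n 2)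
  exact_mod_cast h2

lemma terminal_cases (hn : 0 < n) (hL1 : 1 ≤ lg n) (hb : Bd n (mHi n) < 1) (hlo : mLo n ≤ mHi n) (hB0 : 0 < mHi n)
    {H : Gr n} (hs : H ⊆ completeEdges n) (hc : eHi n < H.card + 3)
    (h : Stop H ∨ triangles H = ∅) : ¬ Good H ∨ AtStage H := by
  by_cases hg : Good H
  swap
  · exact Or.inl hg
  refine Or.inr ⟨hs, hg, ?_, hc⟩
  rcases h with h | h
  · exact h.resolve_left (not_not.2 hg)
  by_contra hle
  rw [not_le] at hle
  obtain ⟨f, hf⟩ := Finset.card_pos.1 (lt_of_le_of_lt (Nat.zero_le _) hle)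
  have hm : mHi n ≤ mI n ((H.card : ℝ) - 3 * (0 : ℕ)) := by
    simp only [Nat.cast_zero, mul_zero, sub_zero]
    exact (mHi_le_mI hn hL1 (by exact_mod_cast hle.le))
  have h1 := hg f hf 0 (by omega) (hlo.trans hm)
  have h2 : Bd n (mI n ((H.card : ℝ) - 3 * (0 : ℕ))) ≤ Bd n (mHi n) := by
    unfold Bd
    refine div_le_div_of_nonneg_left ?_ (Real.sqrt_pos.2 hB0) (Real.sqrt_le_sqrt hm)
    have : 0 ≤ lg n := Real.log_natCast_nonneg n
    positivity
  have h3 : Z H f 0 = -1 := by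
    simp [Z, prop, dv, hf, cd, h]
  rw [h3] at h1
  norm_num at h1
  linarith [show (1 : ℝ) ≤ Bd n (mI n (H.card : ℝ)) from by simpa using h1, (by simpa using h2 :
    Bd n (mI n (H.card : ℝ)) ≤ Bd n (mHi n))]

lemma Ev_dev_sq (a : ℝ) (H : Gr n) :
    Ev (fun F => ((F.card : ℝ) - a) ^ 2) H =
      Ev (fun F => (F.card : ℝ) ^ 2) H - 2 * a * Ev (fun F => (F.card : ℝ)) H + a ^ 2 := by
  have e : (fun F : Gr n => ((F.card : ℝ) - a) ^ 2) =
      fun F => (F.card : ℝ) ^ 2 + ((-(2 * a)) * (F.card : ℝ) + a ^ 2) := by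
    funext F; ring
  rw [e, Ev_add (fun F : Gr n => (F.card : ℝ) ^ 2) (fun F => (-(2 * a)) * (F.card : ℝ) + a ^ 2),
    Ev_add (fun F : Gr n => (-(2 * a)) * (F.card : ℝ)) (fun _ => a ^ 2), Ev_const_mul, Ev_const]
  ring

lemma Ev_dev_sq_le {a : ℝ} (ha : 0 ≤ a) {H : Gr n} (hs : H ⊆ completeEdges n)
    (han : a ≤ (n : ℝ) ^ 2) : Ev (fun F => ((F.card : ℝ) - a) ^ 2) H ≤ (n : ℝ) ^ 4 := by
  refine le_of_le_of_eq (Ev_mono fun F hF _ => ?_) (Ev_const ((n : ℝ) ^ 4) H)
  have h1 := card_le_sq (hF.trans hs)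
  have : |(F.card : ℝ) - a| ≤ (n : ℝ) ^ 2 :=
    abs_sub_le_iff.2 ⟨by linarith, by linarith [Nat.cast_nonneg (α := ℝ) F.card]⟩
  calc ((F.card : ℝ) - a) ^ 2 = |(F.card : ℝ) - a| ^ 2 := (sq_abs _).symm
    _ ≤ ((n : ℝ) ^ 2) ^ 2 := by gcongr
    _ = _ := by ring

/-- The arithmetic at one good stopped state. -/
lemma moments_bound {c δ s b l P U V e1 e2 : ℝ} {Q : ℝ} (hc0 : 0 ≤ c) (hc1 : c ≤ 1) (hδ0 : 0 ≤ δ)
    (hδ1 : δ ≤ 1) (hs : 0 ≤ s) (hb : 0 ≤ b) (hl : 2 ≤ l) (hlδ : 2 / l ≤ δ) (he1 : 0 ≤ e1)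
    (hu : e1 ≤ U + b + s / l) (hw : V - b - s / l ≤ e1) (hq : e2 ≤ (U + b + s / l) ^ 2)
    (hbQ : b ≤ 2 * s * Q) (i0 : -(P / l) ≤ U - P ∧ U - P ≤ P / l)
    (i1 : -(P / l) ≤ V - P ∧ V - P ≤ P / l) (p0 : -(δ * s) ≤ P - c * s ∧ P - c * s ≤ δ * s) :
    e2 - 2 * (c * s) * e1 + (c * s) ^ 2 ≤ 21 * δ * s ^ 2 + (10 * s + 2 * s * Q) * b := by
  have hl0 : 0 < l := by linarith
  have hd : 1 / l ≤ δ / 2 := by
    rw [show (1 : ℝ) / l = 2 / l / 2 by ring]; linarith
  have hcs : c * s ≤ s := mul_le_of_le_one_left hs hc1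
  have hds : δ * s ≤ s := mul_le_of_le_one_left hs hδ1
  have hsl : s / l ≤ δ * s / 2 := by
    have := mul_le_mul_of_nonneg_left hd hs
    rw [mul_one_div] at this; linarith
  have hPl : P / l ≤ δ * s := by
    have : P / l ≤ 2 * s / l := div_le_div_of_nonneg_right (by linarith) hl0.le
    rw [mul_div_assoc] at this; linarith
  have hE : U + b + s / l ≤ (c + 3 * δ) * s + b := by linarith
  have hq' : e2 ≤ ((c + 3 * δ) * s + b) ^ 2 :=
    hq.trans (pow_le_pow_left₀ (he1.trans hu) hE 2)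
  have hL : (c - 3 * δ) * s - b ≤ e1 := by linarith
  have h1 := mul_le_mul_of_nonneg_left hL (by positivity : 0 ≤ 2 * (c * s))
  have q1 : (12 * c + 9 * δ) * δ * s ^ 2 ≤ 21 * δ * s ^ 2 :=
    mul_le_mul_of_nonneg_right (mul_le_mul_of_nonneg_right (by linarith) hδ0) (sq_nonneg s)
  have q2 : (4 * c + 6 * δ) * s * b ≤ 10 * s * b :=
    mul_le_mul_of_nonneg_right (mul_le_mul_of_nonneg_right (by linarith) hs) hb
  have q3 : b * b ≤ 2 * s * Q * b := mul_le_mul_of_nonneg_right hbQ hb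
  linarith

lemma eventually_lg_pow_le : ∀ᶠ n : ℕ in atTop, 8 * lg n ^ 1000 ≤ (n : ℝ) ^ (1 / 2 : ℝ) := by
  have a1 : Tendsto (fun x : ℝ => Real.log x ^ (1000 : ℝ) / x ^ (1 / 2 : ℝ)) atTop (𝓝 0) :=
    (isLittleO_log_rpow_rpow_atTop 1000 (by norm_num)).tendsto_div_nhds_zero
  filter_upwards [(a1.comp tendsto_natCast_atTop_atTop).eventually_lt_const
    (show (0 : ℝ) < 1 / 8 by norm_num), eventually_ge_atTop 1] with n h hn
  have hp : 0 < (n : ℝ) ^ (1 / 2 : ℝ) := by
    have : (0 : ℝ) < n := by exact_mod_cast hn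
    positivity
  simp only [Function.comp_apply] at h
  rw [show (1000 : ℝ) = ((1000 : ℕ) : ℝ) by norm_num, Real.rpow_natCast, div_lt_iff₀ hp] at h
  show 8 * Real.log n ^ 1000 ≤ _
  linarith

/-- The mean square convergence, from the modules. -/
theorem sq_tendsto (h1 : TrackStep) (h2 : GapStep) (h3 : TreeStep) (h4 : FlowStep)
    (h5 : IterStep) (h6 : LocalStep) (h7 : PredStep) :
    Tendsto (fun n : ℕ => Ev (fun H => ((H.card : ℝ) - cst * scl n) ^ 2) (completeEdges n) /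
      (n : ℝ) ^ 3) atTop (𝓝 0) := by
  have hsmall : ∀ δ : ℝ, 0 < δ → δ ≤ 1 → ∀ᶠ n : ℕ in atTop,
      Ev (fun H => ((H.card : ℝ) - cst * scl n) ^ 2) (completeEdges n) / (n : ℝ) ^ 3 ≤
        60 * δ + 40 * lg n ^ 1000 / (n : ℝ) ^ (1 / 5 : ℝ) + 2 / (n : ℝ) ^ 2 := by
    intro δ hδ hδ1
    filter_upwards [h1, h2, h3, h4, h5, h6, h7 δ hδ, lg_tendsto.eventually_ge_atTop (2 / δ + 2),
      eventually_ge_atTop 4, eventually_lg_pow_le]
      with n e1 e2 e3 e4 e5 e6 e7 hL hn4 hsq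
    have hn1 : 1 ≤ n := by omega
    have hn : 0 < n := by omega
    have hnR : (0 : ℝ) < n := by exact_mod_cast hn
    have hL2 : 2 ≤ lg n := by
      have : 0 < 2 / δ := by positivity
      linarith
    have hLd : 2 / lg n ≤ δ := by
      have : 2 / δ ≤ lg n := by linarith
      rw [div_le_iff₀ (by linarith)]
      rw [div_le_iff₀ hδ] at this
      linarith
    have hc0 : 0 < cst := by unfold cst; positivity
    have hc1 : cst ≤ 1 := by
      unfold cst
      rw [div_le_one (by positivity)]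
      have : 1 ≤ Real.sqrt 2 := Real.one_le_sqrt.2 (by norm_num)
      linarith
    have hs0 : 0 ≤ scl n := by unfold scl; positivity
    have hsn : scl n ≤ (n : ℝ) ^ 2 := by
      rw [scl, ← Real.rpow_natCast]
      exact Real.rpow_le_rpow_of_exponent_le (by exact_mod_cast hn1) (by norm_num)
    have hP : 1 ≤ lg n ^ 1000 := one_le_pow₀ (by linarith)
    have hlo : mLo n ≤ mHi n := pow_le_pow_right₀ (by linarith) (by norm_num)
    have hB0 : 0 < mHi n := pow_pos (by linarith) _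
    have hb : Bd n (mHi n) < 1 := by
      rw [Bd, div_lt_one (Real.sqrt_pos.2 hB0), Real.lt_sqrt (by positivity), mHi, ← pow_mul]
      exact pow_lt_pow_right₀ (by linarith) (by norm_num)
    have hstart : eHi n < (completeEdges n).card + 3 := by
      have h : (eHi n : ℝ) < ((completeEdges n).card : ℝ) + 3 := by
        rw [card_completeEdges, Nat.cast_choose_two]
        refine lt_of_le_of_lt (eHi_le hn1 (by linarith)) ?_
        have e : scl n * (n : ℝ) ^ (1 / 2 : ℝ) = (n : ℝ) ^ 2 := by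
          rw [scl, ← Real.rpow_add hnR, ← Real.rpow_natCast]; norm_num
        have h4 : (4 : ℝ) ≤ n := by exact_mod_cast hn4
        nlinarith [mul_le_mul_of_nonneg_left hsq hs0]
      exact_mod_cast h
    obtain ⟨K, hK⟩ : ∃ K, K = 21 * δ * scl n ^ 2 := ⟨_, rfl⟩
    obtain ⟨A, hA⟩ : ∃ A, A = 12 * scl n * lg n ^ 1000 := ⟨_, rfl⟩
    obtain ⟨χ, hχ⟩ : ∃ χ : Gr n → ℝ, χ = fun H => K + (A * (if Good H then nonTree H else 0) +
        ((n : ℝ) ^ 4 * (if Good H then 0 else 1) +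
          (n : ℝ) ^ 4 * (if Good H ∧ ¬ Gap H then 1 else 0))) := ⟨_, rfl⟩
    have hmain : Ev (fun H => ((H.card : ℝ) - cst * scl n) ^ 2) (completeEdges n) ≤
        K + (A * (n : ℝ) ^ (13 / 10 : ℝ) + ((n : ℝ) ^ 4 * (1 / (n : ℝ) ^ 3) +
          (n : ℝ) ^ 4 * (1 / (n : ℝ) ^ 3))) := by
      rw [Ev_eq_EvUntil_Ev Stop]
      refine le_trans (b := EvUntil Stop χ (completeEdges n)) ?_ ?_
      · refine EvUntil_le_of_inv (fun H => H ⊆ completeEdges n ∧ eHi n < H.card + 3)
          ⟨subset_rfl, hstart⟩ ?_ ?_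
        · rintro G ⟨hG, -⟩ hns T hT
          refine ⟨sdiff_subset.trans hG, ?_⟩
          have := card_step hT
          unfold Stop at hns
          rw [not_or, not_not, not_le] at hns
          omega
        · rintro H ⟨hH, hH2⟩ hterm
          rw [hχ]
          have hKnn : 0 ≤ K := by rw [hK]; positivity
          have hnt : 0 ≤ nonTree H := by unfold nonTree; positivity
          have hA0 : 0 ≤ A := by rw [hA]; positivity
          have hbad := Ev_dev_sq_le (mul_nonneg hc0.le hs0) hH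
            ((mul_le_of_le_one_left hs0 hc1).trans hsn)
          by_cases hg : Good H
          swap
          · simp only [if_neg hg, hg, false_and, if_false, mul_zero, mul_one, zero_add, add_zero]
            linarith
          by_cases hG : Gap H
          swap
          · simp only [if_pos hg, hg, hG, not_false_iff, and_self, if_true, mul_zero, mul_one,
              zero_add]
            nlinarith
          simp only [if_pos hg, hG, not_true, and_false, if_false, mul_zero, add_zero]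
          have hst : AtStage H :=
            (terminal_cases hn (by linarith) hb hlo hB0 hH hH2 hterm).resolve_left (not_not.2 hg)
          have hfl := e4 H hst hG
          obtain ⟨hu, hl, hq⟩ := e6 H hst
          have i0 := abs_le.1 (e5 H hst hfl (rad n) (Or.inl rfl))
          have i1 := abs_le.1 (e5 H hst hfl (rad n + 1) (Or.inr rfl))
          have p0 := abs_le.1 (e7 H hst)
          have hnon : nonTree H ≤ 2 * scl n * lg n ^ 1000 := by
            refine le_trans ?_ (eHi_le hn1 (by linarith))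
            unfold nonTree
            exact_mod_cast (card_filter_le _ _).trans hst.le
          rw [Ev_dev_sq, hK, hA]
          rw [show (n : ℝ) ^ (3 / 2 : ℝ) = scl n from rfl] at hu hl hq
          have h0 : 0 ≤ Ev (fun F => (F.card : ℝ)) H :=
            le_of_eq_of_le (Ev_const (0 : ℝ) H).symm (Ev_mono fun F _ _ => Nat.cast_nonneg _)
          refine (moments_bound hc0.le hc1 hδ.le hδ1 hs0 hnt hL2 hLd h0 hu hl hq hnon i0 i1 p0).trans ?_
          have : 2 * scl n * 1 ≤ 2 * scl n * lg n ^ 1000 :=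
            mul_le_mul_of_nonneg_left hP (by positivity)
          have h8 : 10 * scl n + 2 * scl n * lg n ^ 1000 ≤ 12 * scl n * lg n ^ 1000 := by linarith
          linarith [mul_le_mul_of_nonneg_right h8 hnt]

      · rw [hχ, EvUntil_add Stop (fun _ => K), EvUntil_const]
        rw [EvUntil_add Stop (fun H : Gr n => A * (if Good H then nonTree H else 0)),
          EvUntil_add Stop (fun H : Gr n => (n : ℝ) ^ 4 * (if Good H then 0 else 1)),
          EvUntil_const_mul, EvUntil_const_mul, EvUntil_const_mul]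
        have hA0 : 0 ≤ A := by rw [hA]; positivity
        gcongr
    rw [div_le_iff₀ (by positivity)]
    refine hmain.trans ?_
    rw [hK, hA, scl_sq]
    have e1' : scl n * (n : ℝ) ^ (13 / 10 : ℝ) = (n : ℝ) ^ 3 / (n : ℝ) ^ (1 / 5 : ℝ) := by
      rw [scl, eq_div_iff (by positivity), ← Real.rpow_add hnR, ← Real.rpow_add hnR,
        ← Real.rpow_natCast]
      norm_num
    have e2' : (n : ℝ) ^ 4 * (1 / (n : ℝ) ^ 3) = n := by field_simp
    rw [e2']
    have : 0 < (n : ℝ) ^ 3 := by positivity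
    calc _ = 21 * δ * (n : ℝ) ^ 3 + 12 * lg n ^ 1000 * (scl n * (n : ℝ) ^ (13 / 10 : ℝ)) +
          2 * n := by ring
      _ ≤ 60 * δ * (n : ℝ) ^ 3 + 40 * lg n ^ 1000 * ((n : ℝ) ^ 3 / (n : ℝ) ^ (1 / 5 : ℝ)) +
          2 * n := by
        rw [e1']; gcongr <;> norm_num
      _ = _ := by field_simp
  have hlim : Tendsto (fun n : ℕ => 40 * lg n ^ 1000 / (n : ℝ) ^ (1 / 5 : ℝ) + 2 / (n : ℝ) ^ 2)
      atTop (𝓝 0) := by
    have a1 : Tendsto (fun x : ℝ => Real.log x ^ (1000 : ℝ) / x ^ (1 / 5 : ℝ)) atTop (𝓝 0) :=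
      (isLittleO_log_rpow_rpow_atTop 1000 (by norm_num)).tendsto_div_nhds_zero
    have a2 := (a1.comp tendsto_natCast_atTop_atTop).const_mul 40
    have a3 : Tendsto (fun n : ℕ => 2 / (n : ℝ) ^ 2) atTop (𝓝 0) :=
      tendsto_const_nhds.div_atTop ((tendsto_pow_atTop two_ne_zero).comp tendsto_natCast_atTop_atTop)
    simp only [mul_zero] at a2
    refine (a2.add a3).congr' ?_ |>.trans (by simp)
    filter_upwards with n
    simp only [Function.comp_apply]
    rw [show (1000 : ℝ) = ((1000 : ℕ) : ℝ) by norm_num, Real.rpow_natCast]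
    simp only [lg]
    ring
  rw [Metric.tendsto_nhds]
  intro ε hε
  obtain ⟨δ, hδ, hδ1, hδε⟩ : ∃ δ : ℝ, 0 < δ ∧ δ ≤ 1 ∧ 60 * δ ≤ ε / 2 :=
    ⟨min 1 (ε / 120), by positivity, min_le_left _ _, by
      have := min_le_right (1 : ℝ) (ε / 120); linarith⟩
  filter_upwards [hsmall δ hδ hδ1, (Metric.tendsto_nhds.1 hlim) (ε / 2) (by positivity)] with n a b
  rw [Real.dist_eq, sub_zero] at b ⊢
  have h0 : 0 ≤ Ev (fun H => ((H.card : ℝ) - cst * scl n) ^ 2) (completeEdges n) :=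
    le_of_eq_of_le (Ev_const (0 : ℝ) _).symm (Ev_mono fun F _ _ => sq_nonneg _)
  rw [abs_of_nonneg (by positivity)]
  linarith [(abs_lt.1 b).2]

/-- `PredStep` holds. -/
theorem predStep : PredStep := by
  intro δ hδ
  filter_upwards [pred_limit hδ, eventually_gt_atTop 0] with n h hn G hG
  have hs : 0 < scl n := by
    have : (0 : ℝ) < n := by exact_mod_cast hn
    unfold scl; positivity
  have h1 := h G hG
  rw [show (n : ℝ) ^ (3 / 2 : ℝ) = scl n from rfl] at h1
  have : |pred G - cst * scl n| = scl n * |pred G / scl n - 1 / (2 * Real.sqrt 2)| := by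
    rw [← abs_of_pos hs, ← abs_mul, abs_of_pos hs, mul_sub, mul_div_cancel₀ _ hs.ne', cst, mul_comm]
  rw [this, mul_comm δ]
  exact mul_le_mul_of_nonneg_left h1 hs.le

/-- Convergence in probability and in mean, from the modules. -/
theorem main_of_steps (h1 : TrackStep) (h2 : GapStep) (h3 : TreeStep) (h4 : FlowStep)
    (h5 : IterStep) (h6 : LocalStep) :
    (∀ ε : ℝ, 0 < ε → Tendsto (fun n : ℕ => Ev (fun H =>
      if ε < |(H.card : ℝ) / (n : ℝ) ^ (3 / 2 : ℝ) - 1 / (2 * Real.sqrt 2)| then 1 else 0)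
        (completeEdges n)) atTop (𝓝 0)) ∧
      Tendsto (fun n : ℕ => Ev (fun H => (H.card : ℝ)) (completeEdges n) / (n : ℝ) ^ (3 / 2 : ℝ))
        atTop (𝓝 (1 / (2 * Real.sqrt 2))) := by
  have hsq := sq_tendsto h1 h2 h3 h4 h5 h6 predStep
  obtain ⟨D, hD⟩ : ∃ D : ℕ → ℝ, D = fun n : ℕ =>
      Ev (fun H => ((H.card : ℝ) - cst * scl n) ^ 2) (completeEdges n) / (n : ℝ) ^ 3 := ⟨_, rfl⟩
  have hpt : ∀ n : ℕ, 0 < n → ∀ H : Gr n, ((H.card : ℝ) / scl n - cst) ^ 2 =
      1 / (n : ℝ) ^ 3 * ((H.card : ℝ) - cst * scl n) ^ 2 := by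
    intro n hn H
    have hs : (0 : ℝ) < scl n := by
      have : (0 : ℝ) < n := by exact_mod_cast hn
      unfold scl; positivity
    rw [← scl_sq]
    field_simp
  have hfold : ∀ n : ℕ, (n : ℝ) ^ (3 / 2 : ℝ) = scl n := fun n => rfl
  have hc : 1 / (2 * Real.sqrt 2) = cst := rfl
  simp only [hfold, hc]
  rw [← hD] at hsq
  constructor
  · intro ε hε
    have h0 : Tendsto (fun n => 1 / ε ^ 2 * D n) atTop (𝓝 0) := by
      have h := hsq.const_mul (1 / ε ^ 2)
      rwa [mul_zero] at h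
    refine squeeze_zero' (Eventually.of_forall fun n => ?_) ?_ h0
    · exact le_of_eq_of_le (Ev_const (0 : ℝ) _).symm (Ev_mono fun F _ _ => by split <;> norm_num)
    filter_upwards [eventually_gt_atTop 0] with n hn
    rw [hD]
    simp only []
    rw [show ∀ x : ℝ, 1 / ε ^ 2 * (x / (n : ℝ) ^ 3) = 1 / ε ^ 2 * (1 / (n : ℝ) ^ 3) * x from
      fun x => by ring, ← Ev_const_mul]
    refine Ev_mono fun H _ _ => ?_
    rw [mul_assoc, ← hpt n hn H]
    split
    · rename_i h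
      rw [one_div, ← div_eq_inv_mul, le_div_iff₀ (by positivity), one_mul, ← sq_abs (_ - cst)]
      gcongr
    · positivity
  · rw [Metric.tendsto_nhds]
    intro ε hε
    filter_upwards [eventually_gt_atTop 0,
      (Metric.tendsto_nhds.1 hsq) (ε ^ 2 / 4) (by positivity)] with n hn hd
    rw [Real.dist_eq, sub_zero] at hd
    rw [Real.dist_eq]
    have h2 : Ev (fun H : Gr n => ((H.card : ℝ) / scl n - cst) ^ 2) (completeEdges n) < ε ^ 2 / 4 := by
      refine lt_of_eq_of_lt ?_ (lt_of_le_of_lt (le_abs_self _) hd)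
      simp only [hD, hpt n hn, Ev_const_mul]
      ring
    have up := Ev_mono (G0 := completeEdges n)
      (φ := fun H : Gr n => 1 / scl n * (H.card : ℝ))
      (χ := fun H : Gr n => cst + ε / 4 + 1 / ε * ((H.card : ℝ) / scl n - cst) ^ 2) fun H _ _ => by
        obtain ⟨x, hx⟩ : ∃ x, x = (H.card : ℝ) / scl n - cst := ⟨_, rfl⟩
        have : x ≤ ε / 4 + 1 / ε * x ^ 2 := by
          rw [div_mul_eq_mul_div, one_mul, ← sub_le_iff_le_add', le_div_iff₀ hε]
          nlinarith [sq_nonneg (x - ε / 2)]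
        rw [← hx, div_mul_eq_mul_div, one_mul]
        linarith
    have dn := Ev_mono (G0 := completeEdges n)
      (χ := fun H : Gr n => 1 / scl n * (H.card : ℝ))
      (φ := fun H : Gr n => cst - ε / 4 + (-(1 / ε)) * ((H.card : ℝ) / scl n - cst) ^ 2) fun H _ _ => by
        obtain ⟨x, hx⟩ : ∃ x, x = (H.card : ℝ) / scl n - cst := ⟨_, rfl⟩
        have : -x ≤ ε / 4 + 1 / ε * x ^ 2 := by
          rw [div_mul_eq_mul_div, one_mul, ← sub_le_iff_le_add', le_div_iff₀ hε]
          nlinarith [sq_nonneg (x + ε / 2)]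
        rw [← hx, div_mul_eq_mul_div (1 : ℝ) (scl n), one_mul]
        linarith
    rw [Ev_add (fun _ => cst + ε / 4), Ev_const, Ev_const_mul, Ev_const_mul] at up
    rw [Ev_add (fun _ => cst - ε / 4), Ev_const, Ev_const_mul, Ev_const_mul] at dn
    rw [div_mul_eq_mul_div (1 : ℝ) (scl n), one_mul] at up dn
    have h3 : 1 / ε * Ev (fun H : Gr n => ((H.card : ℝ) / scl n - cst) ^ 2) (completeEdges n)
        < ε / 4 := by
      calc _ < 1 / ε * (ε ^ 2 / 4) := by gcongr
        _ = ε / 4 := by field_simp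
    rw [abs_lt]
    constructor <;> linarith

end Vale.Agent.P046.Full
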