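import Vale.Agent.P046.Full.TrackDefs
import Vale.Agent.P046.Track.Comb

/-!
Tracking, module 1, combinatorial half: walk sums on the triangle adjacency, the losses caused by
one triangle, and the one-step identities.
-/

namespace Vale.Agent.P046.Full

open Finset
open scoped Classical

variable {n : ℕ}

lemma mS_nonneg (G : Gr n) : 0 ≤ mS G := by
  unfold mS mI; positivity

lemma mem_nbr {G : Gr n} {f : Sym2 (Fin n)} {t : Finset (Fin n)} :
    t ∈ nbr G f ↔ t ∈ triangles G ∧ f ∈ edgesOf t := mem_filter

lemma cd_eq_nbr (G : Gr n) (f : Sym2 (Fin n)) : cd G f = (nbr G f).card := rfl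

lemma card_tri {G : Gr n} {t : Finset (Fin n)} (ht : t ∈ triangles G) : (edgesOf t).card = 3 :=
  Track.card_edgesOf (Track.card3_of_mem ht)

lemma tri_sub {G : Gr n} {t : Finset (Fin n)} (ht : t ∈ triangles G) : edgesOf t ⊆ G :=
  (mem_filter.1 ht).2

lemma card_erase_tri {G : Gr n} {t : Finset (Fin n)} {f : Sym2 (Fin n)} (ht : t ∈ nbr G f) :
    ((edgesOf t).erase f).card = 2 := by
  rw [card_erase_of_mem (mem_nbr.1 ht).2, card_tri (mem_nbr.1 ht).1]

/-- Two different edges are in at most one common triangle. -/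
lemma card_common_le {G : Gr n} {f g : Sym2 (Fin n)} (h : g ≠ f) :
    ((nbr G f).filter fun t => g ∈ edgesOf t).card ≤ 1 := by
  refine card_le_one.2 fun u hu v hv => ?_
  simp only [mem_filter, mem_nbr] at hu hv
  exact Track.eq_of_two_edges (Track.card3_of_mem hu.1.1) (Track.card3_of_mem hv.1.1) h
    hu.2 hu.1.2 hv.2 hv.1.2

/-- The normalised adjacency, as a sum over the triangles through an edge. -/
lemma apply_nh (G : Gr n) (v : Sym2 (Fin n) → ℝ) (f : Sym2 (Fin n)) :
    Spectral.apply (nh G) v f = (∑ t ∈ nbr G f, ∑ g ∈ (edgesOf t).erase f, v g) / mS G := by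
  have h1 : ∀ g, Spectral.adj (triangles G) edgesOf f g * v g =
      ∑ t ∈ nbr G f, if g ∈ (edgesOf t).erase f then v g else 0 := by
    intro g
    by_cases hg : f = g
    · subst hg; simp [Spectral.adj]
    · rw [Spectral.adj, if_neg hg, ← sum_boole, sum_mul, nbr, sum_filter (s := triangles G)]
      refine sum_congr rfl fun t _ => ?_
      by_cases h2 : f ∈ edgesOf t <;> simp [h2, Ne.symm hg]
  simp only [Spectral.apply, nh, div_mul_eq_mul_div]
  rw [← sum_div, sum_congr rfl fun g _ => h1 g, sum_comm]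
  refine congrArg (· / _) (sum_congr rfl fun t _ => ?_)
  rw [← sum_filter, filter_mem_eq_inter, univ_inter]

lemma cd_le_of_bnd {G : Gr n} {B : ℝ} (hB : Bnd G B) {f : Sym2 (Fin n)} (hf : f ∈ G) :
    cd G f ≤ (1 + B) * mS G := by
  have h := (abs_le.1 (hB.dev f hf)).2
  rw [dv, if_pos hf] at h
  have hm : 0 < mS G := lt_of_lt_of_le one_pos hB.pos
  rw [← div_le_iff₀ hm]
  linarith

/-- The step of a walk keeps its invariant. -/
lemma walk_step {G Q : Gr n} {f g : Sym2 (Fin n)} {t : Finset (Fin n)} (hQ : Q ⊆ G) (hf : f ∈ Q)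
    (ht : t ∈ nbr G f) (hg : g ∈ (edgesOf t).erase f) :
    Q ∪ edgesOf t ⊆ G ∧ g ∈ Q ∪ edgesOf t ∧ (Q ∪ edgesOf t).card ≤ Q.card + 2 := by
  refine ⟨union_subset hQ (tri_sub (mem_nbr.1 ht).1), mem_union_right _ (mem_of_mem_erase hg), ?_⟩
  have h1 : Q ∪ edgesOf t = Q ∪ (edgesOf t).erase f := by
    ext a
    by_cases ha : a = f <;> simp [ha, hf]
  rw [h1]
  refine (card_union_le _ _).trans ?_
  rw [card_erase_tri ht]

theorem wkIndep : WkIndep := by
  intro n G j
  induction j with
  | zero => intro Q f v; rfl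
  | succ j ih =>
    intro Q f v
    rw [Function.iterate_succ_apply', apply_nh, wk]
    exact congrArg (· / _) (sum_congr rfl fun t _ => sum_congr rfl fun g _ => ih _ g v)

theorem wkMono : WkMono := by
  intro n G j
  induction j with
  | zero => intro Q f φ χ hQ hf h; exact h Q f hQ subset_rfl hf (by simp)
  | succ j ih =>
    intro Q f φ χ hQ hf h
    simp only [wk]
    refine div_le_div_of_nonneg_right (sum_le_sum fun t ht => sum_le_sum fun g hg => ?_)
      (mS_nonneg G)
    obtain ⟨h1, h2, h3⟩ := walk_step hQ hf ht hg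
    refine ih _ g φ χ h1 h2 fun Q' g' ha hb hc hd => h Q' g' ha ?_ hc (by omega)
    exact subset_union_left.trans hb

theorem wkLin : WkLin := by
  intro n G j
  induction j with
  | zero => intro Q f φ χ a b; rfl
  | succ j ih =>
    intro Q f φ χ a b
    simp only [wk, ih, sum_add_distrib, ← mul_sum, add_div, mul_div_assoc]

lemma wk_const_zero (G : Gr n) (j : ℕ) (Q : Gr n) (f : Sym2 (Fin n)) :
    wk G j Q f (fun _ _ => 0) = 0 := by
  induction j generalizing Q f with
  | zero => rfl
  | succ j ih => simp [wk, ih]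

lemma wk_const (G : Gr n) (j : ℕ) (Q : Gr n) (f : Sym2 (Fin n)) (a : ℝ) :
    wk G j Q f (fun _ _ => a) = a * wk G j Q f (fun _ _ => 1) := by
  have := wkLin G j Q f (fun _ _ => 1) (fun _ _ => 0) a 0
  simpa using this

lemma two_le_y {G : Gr n} {B : ℝ} (hB : Bnd G B) : 2 ≤ 2 * (1 + B) := by
  linarith [hB.nonneg]

/-- The sum of a constant over the next steps of a walk. -/
lemma step_const_le {G : Gr n} {B a : ℝ} (hB : Bnd G B) {f : Sym2 (Fin n)} (hf : f ∈ G)
    (ha : 0 ≤ a) :
    ∑ t ∈ nbr G f, ∑ _g ∈ (edgesOf t).erase f, a ≤ 2 * (1 + B) * mS G * a := by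
  rw [sum_congr rfl fun t ht => by rw [sum_const, card_erase_tri ht, nsmul_eq_mul],
    sum_const, nsmul_eq_mul, ← cd_eq_nbr]
  have := mul_le_mul_of_nonneg_right (cd_le_of_bnd hB hf) ha
  push_cast
  linarith

theorem wkMass : WkMass := by
  intro n G B j
  induction j with
  | zero => intro Q f hB _ _; simp [wk]
  | succ j ih =>
    intro Q f hB hQ hf
    have hy := two_le_y hB
    rw [wk, div_le_iff₀ (lt_of_lt_of_le one_pos hB.pos)]
    calc ∑ t ∈ nbr G f, ∑ g ∈ (edgesOf t).erase f, wk G j (Q ∪ edgesOf t) g (fun _ _ => 1)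
        ≤ ∑ t ∈ nbr G f, ∑ _g ∈ (edgesOf t).erase f, (2 * (1 + B)) ^ j :=
          sum_le_sum fun t ht => sum_le_sum fun g hg =>
            ih _ g hB (walk_step hQ hf ht hg).1 (walk_step hQ hf ht hg).2.1
      _ ≤ 2 * (1 + B) * mS G * (2 * (1 + B)) ^ j := step_const_le hB (hQ hf) (by positivity)
      _ = (2 * (1 + B)) ^ (j + 1) * mS G := by ring

theorem wkHit : WkHit := by
  intro n G B j
  induction j with
  | zero => intro Q f h _ _ _ hh; simp [wk, ind, hh]
  | succ j ih =>
    intro Q f h hB hQ hf hh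
    have hm : 0 < mS G := lt_of_lt_of_le one_pos hB.pos
    have hy := two_le_y hB
    set y := 2 * (1 + B) with hydef
    have hy0 : 0 ≤ y := by linarith
    set A := 4 * (j : ℝ) * y ^ j / mS G with hA
    have hA0 : 0 ≤ A := by positivity
    rw [wk, div_le_iff₀ hm]
    have hterm : ∀ t ∈ nbr G f, ∀ g ∈ (edgesOf t).erase f,
        wk G j (Q ∪ edgesOf t) g (fun Q' _ => ind Q' h) ≤
          A + if h ∈ edgesOf t then y ^ j else 0 := by
      intro t ht g hg
      obtain ⟨h1, h2, -⟩ := walk_step hQ hf ht hg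
      by_cases hht : h ∈ edgesOf t
      · rw [if_pos hht]
        refine le_trans ?_ (le_add_of_nonneg_left hA0)
        refine le_trans (wkMono G j _ g _ (fun _ _ => 1) h1 h2 fun Q' _ _ _ _ _ => ?_)
          (wkMass G B j _ g hB h1 h2)
        unfold ind; split_ifs <;> norm_num
      · rw [if_neg hht, add_zero]
        exact ih _ g h hB h1 h2 (by simp [hh, hht])
    have hone : ∑ t ∈ nbr G f, (if h ∈ edgesOf t then 2 * y ^ j else 0) ≤ 2 * y ^ j := by
      rw [← sum_filter, sum_const, nsmul_eq_mul]
      refine mul_le_of_le_one_left (by positivity) ?_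
      exact_mod_cast card_common_le fun he : h = f => hh (he ▸ hf)
    have hsum : ∀ t ∈ nbr G f, ∑ _g ∈ (edgesOf t).erase f,
        (if h ∈ edgesOf t then y ^ j else 0) = if h ∈ edgesOf t then 2 * y ^ j else 0 := by
      intro t ht
      rw [sum_const, card_erase_tri ht, nsmul_eq_mul]
      split_ifs <;> simp
    calc _ ≤ ∑ t ∈ nbr G f, ∑ g ∈ (edgesOf t).erase f,
          (A + if h ∈ edgesOf t then y ^ j else 0) :=
          sum_le_sum fun t ht => sum_le_sum fun g hg => hterm t ht g hg
      _ = ∑ t ∈ nbr G f, ∑ _g ∈ (edgesOf t).erase f, A +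
          ∑ t ∈ nbr G f, (if h ∈ edgesOf t then 2 * y ^ j else 0) := by
          simp only [sum_add_distrib, sum_congr rfl hsum]
      _ ≤ y * mS G * A + 2 * y ^ j := add_le_add (step_const_le hB (hQ hf) hA0) hone
      _ ≤ 4 * ((j + 1 : ℕ) : ℝ) * y ^ (j + 1) / mS G * mS G := by
          rw [hA, div_mul_cancel₀ _ hm.ne']
          field_simp
          push_cast
          nlinarith [pow_nonneg hy0 j, mul_le_mul_of_nonneg_right hy (pow_nonneg hy0 j),
            pow_succ y j]

/-- The coincidence deficit, with the invariant of its induction. -/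
lemma deficit_aux {G : Gr n} {B : ℝ} (hB : Bnd G B) :
    ∀ (j : ℕ) (Q : Gr n) (f : Sym2 (Fin n)), Q ⊆ G → f ∈ Q →
      wk G j Q f (fun Q' _ => (Q.card : ℝ) + 2 * j - Q'.card) ≤
        (j : ℝ) * (Q.card + j) * (2 * (1 + B)) ^ j / mS G := by
  intro j
  induction j with
  | zero => intro Q f _ _; simp [wk]
  | succ j ih =>
    intro Q f hQ hf
    have hm : 0 < mS G := lt_of_lt_of_le one_pos hB.pos
    have hy := two_le_y hB
    set y := 2 * (1 + B) with hydef
    have hy0 : 0 ≤ y := by linarith
    set A := (j : ℝ) * (Q.card + 2 + j) * y ^ j / mS G with hA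
    have hA0 : 0 ≤ A := by positivity
    set δ : Finset (Fin n) → ℝ := fun t => (((edgesOf t).erase f ∩ Q).card : ℝ) with hδ
    rw [wk, div_le_iff₀ hm]
    have hterm : ∀ t ∈ nbr G f, ∀ g ∈ (edgesOf t).erase f,
        wk G j (Q ∪ edgesOf t) g (fun Q' _ => (Q.card : ℝ) + 2 * ((j + 1 : ℕ) : ℝ) - Q'.card)
          ≤ A + δ t * y ^ j := by
      intro t ht g hg
      obtain ⟨h1, h2, h3⟩ := walk_step hQ hf ht hg
      have hc : ((Q ∪ edgesOf t).card : ℝ) + δ t = Q.card + 2 := by
        have e1 : Q ∪ edgesOf t = Q ∪ (edgesOf t).erase f := by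
          ext a
          by_cases ha : a = f <;> simp [ha, hf]
        have := card_union_add_card_inter Q ((edgesOf t).erase f)
        rw [inter_comm, ← e1, card_erase_tri ht] at this
        simp only [hδ]
        exact_mod_cast this
      have e : (fun (Q' : Gr n) (_ : Sym2 (Fin n)) =>
          (Q.card : ℝ) + 2 * ((j + 1 : ℕ) : ℝ) - Q'.card) =
          fun Q' g' => 1 * (((Q ∪ edgesOf t).card : ℝ) + 2 * j - Q'.card) +
            δ t * (fun (_ : Gr n) (_ : Sym2 (Fin n)) => (1 : ℝ)) Q' g' := by
        funext Q' g'; push_cast; linarith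
      rw [e, wkLin]
      refine add_le_add ?_ (mul_le_mul_of_nonneg_left (wkMass G B j _ g hB h1 h2)
        (Nat.cast_nonneg _))
      rw [one_mul]
      refine (ih _ g h1 h2).trans (div_le_div_of_nonneg_right ?_ hm.le)
      gcongr
      exact_mod_cast h3
    have hone : ∑ t ∈ nbr G f, δ t ≤ Q.card := by
      have : ∀ t ∈ nbr G f, δ t = ∑ h ∈ Q.erase f, if h ∈ edgesOf t then (1 : ℝ) else 0 := by
        intro t _
        rw [sum_boole]
        simp only [hδ]
        norm_cast
        refine congrArg card ?_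
        ext a; simp; tauto
      rw [sum_congr rfl this, sum_comm]
      refine (sum_le_card_nsmul _ _ (1 : ℝ) fun h hh => ?_).trans ?_
      · rw [sum_boole]
        exact_mod_cast card_common_le (mem_erase.1 hh).1
      · rw [nsmul_eq_mul, mul_one]
        exact_mod_cast card_erase_le
    have hsum : ∀ t ∈ nbr G f, ∑ _g ∈ (edgesOf t).erase f, δ t * y ^ j = δ t * (2 * y ^ j) := by
      intro t ht
      rw [sum_const, card_erase_tri ht, nsmul_eq_mul]; push_cast; ring
    calc _ ≤ ∑ t ∈ nbr G f, ∑ g ∈ (edgesOf t).erase f, (A + δ t * y ^ j) :=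
          sum_le_sum fun t ht => sum_le_sum fun g hg => hterm t ht g hg
      _ = ∑ t ∈ nbr G f, ∑ _g ∈ (edgesOf t).erase f, A +
          (∑ t ∈ nbr G f, δ t) * (2 * y ^ j) := by
          rw [sum_congr rfl fun t _ => sum_add_distrib, sum_add_distrib, sum_congr rfl hsum,
            sum_mul]
      _ ≤ y * mS G * A + Q.card * (2 * y ^ j) :=
          add_le_add (step_const_le hB (hQ hf) hA0)
            (mul_le_mul_of_nonneg_right hone (by positivity))
      _ ≤ ((j + 1 : ℕ) : ℝ) * (Q.card + ((j + 1 : ℕ) : ℝ)) * y ^ (j + 1) / mS G * mS G := by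
          rw [hA, div_mul_cancel₀ _ hm.ne']
          field_simp
          push_cast
          have key : y * j * (Q.card + 2 + j) + Q.card * 2 ≤
              ((j : ℝ) + 1) * (Q.card + ((j : ℝ) + 1)) * y := by
            nlinarith [mul_le_mul_of_nonneg_right hy (Nat.cast_nonneg (α := ℝ) Q.card)]
          have := mul_le_mul_of_nonneg_left key (pow_nonneg hy0 j)
          rw [pow_succ]
          linarith

theorem wkDeficit : WkDeficit := by
  intro n G B j e hB he
  have h := deficit_aux hB j {e} e (singleton_subset_iff.2 he) (mem_singleton_self e)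
  simp only [card_singleton, Nat.cast_one] at h
  have e1 : (fun (Q' : Gr n) (_ : Sym2 (Fin n)) => 2 * (j : ℝ) + 1 - Q'.card) =
      fun Q' _ => (1 : ℝ) + 2 * j - Q'.card := by
    funext Q' _; ring
  rw [e1]
  refine h.trans (div_le_div_of_nonneg_right ?_ (mS_nonneg G))
  have hy : 0 ≤ 2 * (1 + B) := by linarith [hB.nonneg]
  refine mul_le_mul_of_nonneg_right ?_ (pow_nonneg hy j)
  nlinarith [mul_nonneg (Nat.cast_nonneg (α := ℝ) j) (Nat.cast_nonneg (α := ℝ) j)]

lemma sum_cd (G Q : Gr n) :
    ∑ g ∈ Q, cd G g = ∑ s ∈ triangles G, ((Q.filter fun g => g ∈ edgesOf s).card : ℝ) := by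
  simp only [cd, ← sum_boole]
  exact sum_comm

theorem meetCount : MeetCount := by
  intro n G Q _
  rw [sum_cd, ← sum_boole]
  set c : Finset (Fin n) → Gr n := fun s => Q.filter fun g => g ∈ edgesOf s with hc
  have hmeet : ∀ s, ¬ Disjoint Q (edgesOf s) ↔ (c s).Nonempty := fun s => by
    simp [hc, Finset.not_disjoint_iff, Finset.Nonempty]
  refine ⟨sum_le_sum fun s _ => ?_, ?_⟩
  · by_cases h : (c s).Nonempty
    · rw [if_pos ((hmeet s).2 h)]
      exact_mod_cast h.card_pos
    · rw [if_neg fun h' => h ((hmeet s).1 h')]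
      exact Nat.cast_nonneg _
  rw [sub_le_iff_le_add]
  calc ∑ s ∈ triangles G, ((c s).card : ℝ)
      ≤ ∑ s ∈ triangles G,
          ((if ¬ Disjoint Q (edgesOf s) then (1 : ℝ) else 0) + ((c s).offDiag.card : ℝ)) := by
        refine sum_le_sum fun s _ => ?_
        rcases (c s).eq_empty_or_nonempty with h | h
        · rw [h]; simp; split_ifs <;> norm_num
        · rw [if_pos ((hmeet s).2 h)]
          have : (c s).card ≤ 1 + (c s).offDiag.card := by
            have h1 := h.card_pos
            rw [offDiag_card]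
            rcases Nat.lt_or_ge (c s).card 2 with h2 | h2
            · omega
            · have : 2 * (c s).card ≤ (c s).card * (c s).card := Nat.mul_le_mul_right _ h2
              omega
          exact_mod_cast this
    _ ≤ _ := by
        rw [sum_add_distrib]
        refine add_le_add le_rfl ?_
        have hsub : ∀ s ∈ triangles G, ((c s).offDiag.card : ℝ) =
            ∑ p ∈ Q.offDiag, if p.1 ∈ edgesOf s ∧ p.2 ∈ edgesOf s then (1 : ℝ) else 0 := by
          intro s _
          rw [sum_boole]
          norm_cast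
          refine congrArg card ?_
          ext p
          simp only [hc, mem_offDiag, mem_filter]
          tauto
        rw [sum_congr rfl hsub, sum_comm]
        refine (sum_le_card_nsmul _ _ (1 : ℝ) fun p hp => ?_).trans ?_
        · obtain ⟨-, -, hne⟩ := mem_offDiag.1 hp
          rw [sum_boole]
          have e : (triangles G).filter (fun s => p.1 ∈ edgesOf s ∧ p.2 ∈ edgesOf s) =
              (nbr G p.1).filter fun s => p.2 ∈ edgesOf s := by
            rw [nbr, filter_filter]
          rw [e]
          exact_mod_cast card_common_le hne.symm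
        · rw [nsmul_eq_mul, mul_one]
          have : Q.offDiag.card ≤ Q.card ^ 2 := by
            rw [offDiag_card, sq]; exact Nat.sub_le _ _
          exact_mod_cast this

theorem lossSmall : LossSmall := by
  intro n G s f hs hm
  simp only [Spectral.apply, nh, div_mul_eq_mul_div]
  rw [← sum_div]
  have e : ∀ g, Spectral.adj (triangles G) edgesOf f g * ind (edgesOf s) g =
      if g ∈ edgesOf s then Spectral.adj (triangles G) edgesOf f g else 0 := fun g => by
    unfold ind; split_ifs <;> simp
  rw [sum_congr rfl fun g _ => e g, ← sum_filter, filter_mem_eq_inter, univ_inter]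
  refine ⟨div_nonneg (sum_nonneg fun g _ => Spectral.adj_nonneg _ _) hm.le, ?_⟩
  refine div_le_div_of_nonneg_right ?_ hm.le
  refine (sum_le_card_nsmul _ _ (1 : ℝ) fun g _ => ?_).trans ?_
  · by_cases hg : f = g
    · simp [Spectral.adj, hg]
    · rw [Spectral.adj, if_neg hg]
      have e : (triangles G).filter (fun t => f ∈ edgesOf t ∧ g ∈ edgesOf t) =
          (nbr G f).filter fun t => g ∈ edgesOf t := by
        rw [nbr, filter_filter]
      rw [e]
      exact_mod_cast card_common_le (Ne.symm hg)
  · rw [nsmul_eq_mul, mul_one, card_tri hs]; norm_num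

theorem lossCount : LossCount := by
  intro n G B Q f hB hQ hf
  have hm : 0 < mS G := lt_of_lt_of_le one_pos hB.pos
  have hall : ∑ s ∈ triangles G, Spectral.apply (nh G) (ind (edgesOf s)) f =
      mS G * Spectral.apply (nh G) (fun g => ind G g + dv G g) f := by
    simp only [Spectral.apply, mul_sum]
    rw [sum_comm]
    refine sum_congr rfl fun g _ => ?_
    rw [← mul_sum]
    have hg : ∑ s ∈ triangles G, ind (edgesOf s) g = mS G * (ind G g + dv G g) := by
      simp only [ind, sum_boole]
      by_cases hgG : g ∈ G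
      · simp only [dv, if_pos hgG, cd]
        field_simp
        ring
      · have : (triangles G).filter (fun s => g ∈ edgesOf s) = ∅ :=
          filter_eq_empty_iff.2 fun {s} hs hgs => hgG (tri_sub hs hgs)
        simp [dv, hgG, this]
    rw [hg]; ring
  rw [← hall, ← sum_filter_add_sum_filter_not (triangles G) (fun s => Disjoint Q (edgesOf s)),
    sub_add_cancel_left, abs_neg]
  refine (abs_sum_le_sum_abs _ _).trans ((sum_le_card_nsmul _ _ (3 / mS G) fun s hs => ?_).trans ?_)
  · obtain ⟨h0, h1⟩ := lossSmall G s f (mem_filter.1 hs).1 hm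
    rwa [abs_of_nonneg h0]
  · rw [nsmul_eq_mul]
    have h1 := (meetCount G Q hQ).1
    have h2 : ∑ g ∈ Q, cd G g ≤ Q.card * ((1 + B) * mS G) := by
      rw [← nsmul_eq_mul]
      exact sum_le_card_nsmul _ _ _ fun g hg => cd_le_of_bnd hB (hQ hg)
    refine (mul_le_mul_of_nonneg_right (h1.trans h2) (by positivity)).trans ?_
    field_simp
    nlinarith [hB.le, hB.nonneg, Nat.cast_nonneg (α := ℝ) Q.card]

/-- The walks that meet the removed triangle die; the others are those of the next state. -/
lemma iter_step_aux {G : Gr n} {s : Finset (Fin n)} (hm : mS G ≠ 0) (v : Sym2 (Fin n) → ℝ) :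
    ∀ (j : ℕ) (Q : Gr n) (g : Sym2 (Fin n)),
      (mS G / mS (G \ edgesOf s)) ^ j *
          wk G j Q g (fun Q' f => if Disjoint Q' (edgesOf s) then v f else 0) =
        if Disjoint Q (edgesOf s) then (Spectral.apply (nh (G \ edgesOf s)))^[j] v g else 0 := by
  intro j
  induction j with
  | zero => intro Q g; simp [wk]
  | succ j ih =>
    intro Q g
    have hnb : nbr (G \ edgesOf s) g =
        (nbr G g).filter fun t => Disjoint (edgesOf t) (edgesOf s) := by
      ext t
      simp only [mem_nbr, mem_filter, triangles, Finset.subset_sdiff]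
      tauto
    have e : (mS G / mS (G \ edgesOf s)) ^ (j + 1) *
        wk G (j + 1) Q g (fun Q' f => if Disjoint Q' (edgesOf s) then v f else 0) =
        (∑ t ∈ nbr G g, ∑ g' ∈ (edgesOf t).erase g,
          if Disjoint (Q ∪ edgesOf t) (edgesOf s) then
            (Spectral.apply (nh (G \ edgesOf s)))^[j] v g' else 0) / mS (G \ edgesOf s) := by
      simp only [← ih, ← mul_sum, wk, pow_succ]
      field_simp
    rw [e, Function.iterate_succ_apply', apply_nh, hnb]
    by_cases hd : Disjoint Q (edgesOf s)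
    · rw [if_pos hd, sum_filter]
      refine congrArg (· / _) (sum_congr rfl fun t _ => ?_)
      by_cases ht : Disjoint (edgesOf t) (edgesOf s)
      · rw [if_pos ht]
        exact sum_congr rfl fun g' _ => if_pos (Finset.disjoint_union_left.2 ⟨hd, ht⟩)
      · rw [if_neg ht]
        exact sum_eq_zero fun g' _ => if_neg fun h => ht (Finset.disjoint_union_left.1 h).2
    · rw [if_neg hd, sum_eq_zero, zero_div]
      exact fun t _ => sum_eq_zero fun g' _ =>
        if_neg fun h => hd (Finset.disjoint_union_left.1 h).1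

theorem iterStepEq : IterStepEq := by
  intro n G s e v j _ _ he _ hm
  rw [iter_step_aux hm.ne' v j {e} e, if_pos (by simpa using he)]

theorem devStepEq : DevStepEq := by
  intro n G s f hs hf hfs _ hm
  have hmem : f ∈ G \ edgesOf s := mem_sdiff.2 ⟨hf, hfs⟩
  have hnb : nbr (G \ edgesOf s) f =
      (nbr G f).filter fun t => Disjoint (edgesOf t) (edgesOf s) := by
    ext t
    simp only [mem_nbr, mem_filter, triangles, Finset.subset_sdiff]
    tauto
  have happ : Spectral.apply (nh G) (ind (edgesOf s)) f =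
      (((nbr G f).filter fun t => ¬ Disjoint (edgesOf t) (edgesOf s)).card : ℝ) / mS G := by
    rw [apply_nh, ← sum_boole]
    refine congrArg (· / _) (sum_congr rfl fun t ht => ?_)
    simp only [ind, sum_boole]
    obtain ⟨htG, hft⟩ := mem_nbr.1 ht
    have hne : t ≠ s := fun h => hfs (h ▸ hft)
    by_cases hd : Disjoint (edgesOf t) (edgesOf s)
    · rw [if_neg (not_not.2 hd), Nat.cast_eq_zero, card_eq_zero, filter_eq_empty_iff]
      exact fun {g} hg hgs => Finset.disjoint_left.1 hd (mem_of_mem_erase hg) hgs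
    · obtain ⟨g, hg1, hg2⟩ := Finset.not_disjoint_iff.1 hd
      rw [if_pos hd, Nat.cast_eq_one, card_eq_one]
      refine ⟨g, eq_singleton_iff_unique_mem.2
        ⟨mem_filter.2 ⟨mem_erase.2 ⟨fun h => hfs (h ▸ hg2), hg1⟩, hg2⟩, fun a ha => ?_⟩⟩
      by_contra hag
      exact hne (Track.eq_of_two_edges (Track.card3_of_mem htG) (Track.card3_of_mem hs) hag
        (mem_of_mem_erase (mem_filter.1 ha).1) hg1 (mem_filter.1 ha).2 hg2)
  have hcard : cd (G \ edgesOf s) f + (((nbr G f).filter
      fun t => ¬ Disjoint (edgesOf t) (edgesOf s)).card : ℝ) = cd G f := by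
    rw [cd_eq_nbr, cd_eq_nbr, hnb]
    exact_mod_cast card_filter_add_card_filter_not _
  rw [dv, dv, if_pos hf, if_pos hmem, happ, eq_sub_of_add_eq hcard]
  field_simp
  ring

end Vale.Agent.P046.Full
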