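import Vale.Agent.P046.Full.TrackMoments
import Vale.Agent.P046.Full.Walks
import Vale.Agent.P046.Full.Linear
import Vale.Agent.P046.Full.Grid
import Vale.Agent.P046.Track.Main

/-!
Tracking: a hyperbolic-cosine potential over all edges and all targets keeps every predicted
deviation within bounds down to the stopping stage.
-/

namespace Vale.Agent.P046.Full

open Finset Filter
open scoped Classical

variable {n : ℕ}

lemma trackIfc : Ifc where
  indep := wkIndep
  mono := wkMono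
  lin := wkLin
  mass := wkMass
  hit := wkHit
  deficit := wkDeficit
  meet := meetCount
  loss := lossCount
  iterEq := iterStepEq
  devEq := devStepEq
  lossSmall := lossSmall
  poly := propPoly
  split := propSplit
  cfBound := cfBound
  norm := propNorm
  symm := propSymm
  row := rowNorm
  one := propOne
  stpTot := stpTot

lemma cosh_add_le {x u : ℝ} (hu : |u| ≤ 1) :
    Real.cosh (x + u) ≤ Real.cosh x * (1 + 2 * u ^ 2) + u * Real.sinh x := by
  have h1 := abs_le.1 (Real.abs_exp_sub_one_sub_id_le hu)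
  have h2 := abs_le.1 (Real.abs_exp_sub_one_sub_id_le (show |-u| ≤ 1 by rwa [abs_neg]))
  rw [neg_sq] at h2
  rw [Real.cosh_eq, Real.cosh_eq, Real.sinh_eq, neg_add, Real.exp_add, Real.exp_add]
  have hx := (Real.exp_pos x).le
  have hy := (Real.exp_pos (-x)).le
  have := mul_le_mul_of_nonneg_left h1.2 hx
  have := mul_le_mul_of_nonneg_left h2.2 hy
  have := mul_nonneg hx (sq_nonneg u)
  have := mul_nonneg hy (sq_nonneg u)
  linarith

lemma abs_sinh_le_cosh (x : ℝ) : |Real.sinh x| ≤ Real.cosh x := by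
  rw [Real.sinh_eq, Real.cosh_eq, abs_le]
  constructor <;> linarith [Real.exp_pos x, Real.exp_pos (-x)]

/-- One averaged step of a hyperbolic cosine. -/
lemma cosh_sum_le {σ : Type*} (S : Finset σ) {N : ℝ} (hN : 0 < N) (hS : (S.card : ℝ) ≤ N)
    (x lam : ℝ) (hlam : 0 ≤ lam) (D : σ → ℝ) (hD : ∀ s ∈ S, |lam * D s| ≤ 1) :
    ∑ s ∈ S, Real.cosh (x + lam * D s) ≤
      N * Real.cosh x *
        Real.exp ((2 * lam ^ 2 * ∑ s ∈ S, D s ^ 2 + lam * |∑ s ∈ S, D s|) / N) := by
  refine (sum_le_sum fun s hs => cosh_add_le (x := x) (hD s hs)).trans ?_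
  rw [sum_add_distrib, ← sum_mul, ← mul_sum, sum_add_distrib, sum_const, nsmul_one]
  have h1 : (∑ s ∈ S, lam * D s) * Real.sinh x ≤ lam * |∑ s ∈ S, D s| * Real.cosh x := by
    rw [← mul_sum, mul_assoc, mul_assoc]
    refine mul_le_mul_of_nonneg_left ((le_abs_self _).trans ?_) hlam
    rw [abs_mul]
    exact mul_le_mul_of_nonneg_left (abs_sinh_le_cosh x) (abs_nonneg _)
  have h2 : ∑ s ∈ S, 2 * (lam * D s) ^ 2 = 2 * lam ^ 2 * ∑ s ∈ S, D s ^ 2 := by
    rw [mul_sum]; exact sum_congr rfl fun s _ => by ring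
  have h3 := Real.add_one_le_exp ((2 * lam ^ 2 * ∑ s ∈ S, D s ^ 2 + lam * |∑ s ∈ S, D s|) / N)
  have h4 := mul_le_mul_of_nonneg_left h3 (mul_nonneg hN.le (Real.cosh_pos x).le)
  have h5 : N * Real.cosh x *
      ((2 * lam ^ 2 * ∑ s ∈ S, D s ^ 2 + lam * |∑ s ∈ S, D s|) / N + 1) =
      Real.cosh x * (2 * lam ^ 2 * ∑ s ∈ S, D s ^ 2) + lam * |∑ s ∈ S, D s| * Real.cosh x +
        N * Real.cosh x := by
    field_simp
  rw [h2]
  have h6 := mul_le_mul_of_nonneg_left hS (Real.cosh_pos x).le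
  linarith

/-- The numerical facts used throughout. -/
structure Big (n : ℕ) : Prop where
  lg_big : 10000 ≤ lg n
  n_big : (1000000 : ℝ) ≤ n

lemma eventually_big : ∀ᶠ n : ℕ in atTop, Big n := by
  filter_upwards [eventually_le_lg 10000,
    tendsto_natCast_atTop_atTop.eventually_ge_atTop (1000000 : ℝ)] with n h1 h2
  exact ⟨h1, h2⟩

/-- The drift and variance spent on a target by the stage `E`. -/
noncomputable def bud (n E : ℕ) (J : ℝ) : ℝ :=
  7 / 10 * lg n ^ 5 * (J / E) ^ 3 + 700 * (2 * lg n + 1 - Real.log E)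

/-- One term of the potential. -/
noncomputable def term (G : Gr n) (e : Sym2 (Fin n)) (k : ℕ) : ℝ :=
  if 3 * k < G.card ∧ mLo n ≤ mI n ((G.card : ℝ) - 3 * k) then
    Real.cosh (Real.sqrt (mI n ((G.card : ℝ) - 3 * k)) * Z G e k) *
      Real.exp (-bud n G.card ((G.card : ℝ) - 3 * k))
  else 0

/-- The potential. -/
noncomputable def Psi (G : Gr n) : ℝ := ∑ e ∈ G, ∑ k ∈ range G.card, term G e k

lemma term_nonneg (G : Gr n) (e : Sym2 (Fin n)) (k : ℕ) : 0 ≤ term G e k := by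
  unfold term
  split_ifs
  · exact mul_nonneg (Real.cosh_pos _).le (Real.exp_nonneg _)
  · exact le_rfl

/-- The facts at one edge and one target. -/
structure At (n : ℕ) (G : Gr n) (e : Sym2 (Fin n)) (k : ℕ) (J : ℝ) : Prop where
  hyp : StepHyp G (Bd n (mS G)) e k
  hJ : J = (G.card : ℝ) - 3 * (k + 1)
  mlo : lg n ^ 60 ≤ mI n J
  mhi : lg n ^ 2000 ≤ mS G
  small : ∀ l, l < k → stA G l ≤ 1 / 4
  J_big : 100000 * lg n ≤ J
  ratio : mI n J = mS G * (J / G.card) ^ 2
  mle : mS G * mS G ≤ G.card * 2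
  tot_le : tot (stA G) k ≤ Real.log (((G.card : ℝ) - 3) / J) + 3 / J
  tot_ge : Real.log (((G.card : ℝ) - 3) / J) ≤ tot (stA G) k
  tot_L : tot (stA G) k ≤ 2 * lg n
  sq_le : ∑ l ∈ range k, stA G l ^ 2 ≤ 3 * tot (stA G) k / J

lemma card_le_half_sq {G : Gr n} (h : G ⊆ completeEdges n) :
    (G.card : ℝ) ≤ (n : ℝ) ^ 2 / 2 := by
  have h1 : G.card ≤ n.choose 2 := card_completeEdges n ▸ card_le_card h
  have h2 : (G.card : ℝ) ≤ (n.choose 2 : ℕ) := by exact_mod_cast h1
  rw [Nat.cast_choose_two] at h2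
  nlinarith [Nat.cast_nonneg (α := ℝ) n]

lemma good_facts (hb : Big n) {G : Gr n} (hsub : G ⊆ completeEdges n) (hG : Good G)
    (hE : eHi n < G.card) :
    mHi n ≤ mS G ∧ mS G ≤ n ∧ 3 * mS G ≤ G.card ∧ mS G * mS G ≤ G.card * 2 ∧
      Bnd G (Bd n (mS G)) := by
  have hL := hb.lg_big
  have hn := hb.n_big
  have hn0 : 0 < n := by exact_mod_cast (show (0 : ℝ) < n by linarith)
  have hEc : (eHi n : ℝ) ≤ G.card := by exact_mod_cast hE.le
  have hm : mHi n ≤ mS G := mHi_le_mI hn0 (by linarith) hEc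
  have hc := card_le_half_sq hsub
  have hE0 : (0 : ℝ) ≤ G.card := Nat.cast_nonneg _
  have hmn : mS G ≤ n := by
    rw [mS, mI, div_le_iff₀ (by positivity)]
    nlinarith [pow_le_pow_left₀ hE0 hc 2]
  have hmE : mS G * n ≤ 2 * G.card := by
    rw [mS, mI, div_mul_eq_mul_div, div_le_iff₀ (by positivity)]
    have := mul_le_mul_of_nonneg_left hc (show 0 ≤ 4 * (G.card : ℝ) * n by positivity)
    nlinarith
  have hd : 3 * mS G ≤ G.card := by
    have h0 : 0 ≤ mS G := mI_nonneg n _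
    nlinarith
  have hq : mS G * mS G ≤ G.card * 2 := by
    have h0 : 0 ≤ mS G := mI_nonneg n _
    nlinarith [mul_le_mul_of_nonneg_left hmn h0]
  have h60 : mLo n ≤ mS G := (mLo_le_mHi (by linarith)).trans hm
  have hm1 : 1 ≤ mS G := le_trans (one_le_pow₀ (by linarith)) h60
  refine ⟨hm, hmn, hd, hq, hsub, hm1, by unfold Bd; positivity, ?_, fun f hf => ?_⟩
  · have h2 : 4 * lg n ^ 5 ≤ Real.sqrt (mS G) := by
      refine le_trans ?_ (Real.sqrt_le_sqrt h60)
      rw [mLo, show lg n ^ 60 = (lg n ^ 30) ^ 2 by rw [← pow_mul], Real.sqrt_sq (by positivity)]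
      calc 4 * lg n ^ 5 ≤ lg n * lg n ^ 5 := mul_le_mul_of_nonneg_right (by linarith) (by positivity)
        _ = lg n ^ 6 := by ring
        _ ≤ lg n ^ 30 := pow_le_pow_right₀ (by linarith) (by norm_num)
    rw [Bd, div_le_iff₀ (lt_of_lt_of_le (by positivity) h2)]
    linarith
  · have := hG f hf 0 (by have := card_pos.2 ⟨f, hf⟩; omega)
      (by simpa [mS] using h60)
    simpa [Z, prop, mS] using this

lemma mk_at (hb : Big n) {G : Gr n} (hsub : G ⊆ completeEdges n) (hG : Good G)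
    (hE : eHi n < G.card) {e : Sym2 (Fin n)} (he : e ∈ G) {k : ℕ} (hk : 3 * (k + 1) < G.card)
    (hJm : mLo n ≤ mI n ((G.card : ℝ) - 3 * (k + 1))) :
    At n G e k ((G.card : ℝ) - 3 * (k + 1)) := by
  obtain ⟨hm, hmn, hd, hq, hbnd⟩ := good_facts hb hsub hG hE
  have hL := hb.lg_big
  have hn := hb.n_big
  have hk' : ((3 * (k + 1) : ℕ) : ℝ) < G.card := by exact_mod_cast hk
  push_cast at hk'
  obtain ⟨J, hJdef⟩ : ∃ J : ℝ, J = (G.card : ℝ) - 3 * (k + 1) := ⟨_, rfl⟩
  rw [← hJdef] at hJm ⊢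
  have hJ0 : 0 < J := by linarith
  have hJbig : 100000 * lg n ≤ J := by
    have h1 : (1 : ℝ) ≤ mI n J := le_trans (one_le_pow₀ (by linarith)) hJm
    rw [mI, le_div_iff₀ (by positivity), one_mul] at h1
    have hlg : lg n ≤ 2 * Real.sqrt n := by
      have h := Real.log_le_rpow_div (show (0 : ℝ) ≤ n by linarith) (show (0 : ℝ) < 1 / 2 by norm_num)
      rw [← Real.sqrt_eq_rpow] at h
      exact h.trans (le_of_eq (by ring))
    have hs := Real.sq_sqrt (show (0 : ℝ) ≤ n by linarith)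
    have hs0 := Real.sqrt_nonneg (n : ℝ)
    have h2 : (n * Real.sqrt n) ^ 2 ≤ (2 * J) ^ 2 := by
      rw [mul_pow, hs]; linarith
    have h3 := (sq_le_sq₀ (by positivity) (by positivity)).1 h2
    have h4 := mul_le_mul_of_nonneg_right hn hs0
    linarith
  have hE100 : (100 : ℝ) ≤ G.card := by linarith
  have hH : StepHyp G (Bd n (mS G)) e k := ⟨hbnd, he, hk, hE100, hd⟩
  have hc : ((G.card - 3 : ℕ) : ℝ) = (G.card : ℝ) - 3 := by
    rw [Nat.cast_sub (by omega)]; norm_num
  have hkJ : ((G.card - 3 : ℕ) : ℝ) - 3 * (k : ℝ) = J := by rw [hc, hJdef]; ring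
  obtain ⟨t1, t2, t3⟩ := trackIfc.stpTot (G.card - 3) k (by omega)
  rw [hkJ] at t1 t2 t3
  rw [hc] at t1 t2
  have hratio : mI n J = mS G * (J / G.card) ^ 2 := by
    have : (G.card : ℝ) ≠ 0 := by linarith
    rw [mS, mI, mI]; field_simp
  have hlogq : Real.log (((G.card : ℝ) - 3) / J) ≤ lg n := by
    refine Real.log_le_log (by have : (0:ℝ) < (G.card : ℝ) - 3 := by linarith
                               positivity) ?_
    have hm1 : (1 : ℝ) ≤ mI n J := le_trans (one_le_pow₀ (by linarith)) hJm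
    have h1 : ((G.card : ℝ) / J) ^ 2 ≤ n := by
      have e1 : mI n J * ((G.card : ℝ) / J) ^ 2 = mS G := by
        have : (G.card : ℝ) ≠ 0 := by linarith
        rw [hratio]; field_simp
      have := le_mul_of_one_le_left (sq_nonneg ((G.card : ℝ) / J)) hm1
      linarith
    have h2 : 1 ≤ (G.card : ℝ) / J := by rw [le_div_iff₀ hJ0]; linarith
    calc ((G.card : ℝ) - 3) / J ≤ (G.card : ℝ) / J := by gcongr; linarith
      _ ≤ ((G.card : ℝ) / J) ^ 2 := le_self_pow₀ h2 (by norm_num)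
      _ ≤ n := h1
  refine ⟨hH, hJdef, hJm, hm, fun l hl => ?_, hJbig, hratio, hq, t2, t1, ?_, t3⟩
  · rw [stA, stp, hc]
    have : (l : ℝ) + 1 ≤ k := by exact_mod_cast hl
    rw [div_le_iff₀ (by linarith)]
    linarith
  · have : 3 / J ≤ 1 := by rw [div_le_one hJ0]; linarith
    refine t2.trans ?_
    linarith

variable {G : Gr n} {e : Sym2 (Fin n)} {k : ℕ} {J : ℝ}

lemma At.growth (hb : Big n) (h : At n G e k J) :
    Bd n (mS G) ≤ 1 / 1000 ∧ mS G * Bd n (mS G) ^ 2 = lg n ^ 10 ∧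
      LL G (Bd n (mS G)) k ≤ 8 * lg n ∧ EL G (Bd n (mS G)) k ≤ 2 * (mS G / mI n J) ∧
      (∏ l ∈ range k, (1 - 2 * stA G l)) ≤ (J / ((G.card : ℝ) - 3)) ^ 2 ∧
      Real.exp (15 * ∑ l ∈ range k, stA G l ^ 2) ≤ 3 := by
  have hL := hb.lg_big
  have hm := h.hyp.mpos
  obtain ⟨ha, ha1, hma⟩ := h.hyp.a0_bounds
  obtain ⟨r1, r2, r3, -⟩ := h.hyp.rs_bounds
  have hs : lg n ^ 1000 ≤ Real.sqrt (mS G) := by
    refine le_trans (le_of_eq ?_) (Real.sqrt_le_sqrt h.mhi)
    rw [show lg n ^ 2000 = (lg n ^ 1000) ^ 2 by rw [← pow_mul], Real.sqrt_sq (by positivity)]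
  have hs0 : 0 < Real.sqrt (mS G) := Real.sqrt_pos.2 hm
  have hB : Bd n (mS G) * lg n ≤ 1 / 1000 := by
    rw [Bd, div_mul_eq_mul_div, div_le_iff₀ hs0]
    have h7 : lg n ^ 5 * lg n * 1000 ≤ lg n ^ 7 := by
      rw [show lg n ^ 7 = lg n ^ 5 * lg n * lg n by ring]
      exact mul_le_mul_of_nonneg_left (by linarith) (by positivity)
    linarith [h7.trans ((pow_le_pow_right₀ (show 1 ≤ lg n by linarith)
      (show 7 ≤ 1000 by norm_num)).trans hs)]
  have hB0 := h.hyp.bnd.nonneg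
  have hB1 : Bd n (mS G) ≤ 1 / 1000 :=
    le_trans (le_mul_of_one_le_right hB0 (by linarith)) hB
  have hmB : mS G * Bd n (mS G) ^ 2 = lg n ^ 10 := by
    rw [Bd, div_pow, Real.sq_sqrt hm.le]; field_simp
  have haL : a0 G * lg n ≤ 1 / 1000 := by
    have : lg n * 1000 ≤ mS G := le_trans (by nlinarith)
      ((pow_le_pow_right₀ (show 1 ≤ lg n by linarith) (show 2 ≤ 2000 by norm_num)).trans h.mhi)
    have := mul_le_mul_of_nonneg_left this ha.le
    linarith
  have hJ0 : 0 < J := by linarith [h.J_big]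
  have hE3 : J ≤ (G.card : ℝ) - 3 := by
    rw [h.hJ]; linarith [Nat.cast_nonneg (α := ℝ) k]
  have hτ0 := h.hyp.tot_nonneg
  have hyy : yy G (Bd n (mS G)) ≤ 2 + 6 * Bd n (mS G) + 7 * a0 G := by
    rw [yy]
    have := mul_le_mul_of_nonneg_left hB1 (show 0 ≤ rs G - 1 by linarith)
    nlinarith
  refine ⟨hB1, hmB, ?_, ?_, ?_, ?_⟩
  · have hy3 : yy G (Bd n (mS G)) ≤ 3 := by linarith
    have := mul_le_mul h.tot_L hy3 (zero_le_one.trans h.hyp.yy_pos) (by linarith)
    unfold LL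
    linarith
  · have hR : mS G / mI n J = ((G.card : ℝ) / J) ^ 2 := by
      have : (G.card : ℝ) ≠ 0 := by linarith
      rw [h.ratio]; field_simp
    rw [hR, EL]
    have hlog : Real.log (((G.card : ℝ) - 3) / J) ≤ Real.log ((G.card : ℝ) / J) := by
      refine Real.log_le_log ?_ (by gcongr; linarith)
      have : (0:ℝ) < (G.card : ℝ) - 3 := by linarith
      positivity
    have h3J : 3 / J ≤ 1 / 1000 := by rw [div_le_iff₀ hJ0]; linarith [h.J_big]
    have hex : tot (stA G) k * yy G (Bd n (mS G)) ≤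
        2 * Real.log ((G.card : ℝ) / J) + 3 / 100 := by
      have h1 := mul_le_mul_of_nonneg_left hyy hτ0
      have h2 := mul_le_mul_of_nonneg_right h.tot_L hB0
      have h3 := mul_le_mul_of_nonneg_right h.tot_L ha.le
      have := h.tot_le
      linarith
    refine (Real.exp_le_exp.2 hex).trans ?_
    rw [Real.exp_add, mul_comm 2 (((G.card : ℝ) / J) ^ 2)]
    refine mul_le_mul (le_of_eq ?_) ?_ (Real.exp_nonneg _) (sq_nonneg _)
    · rw [← Real.exp_log (show (0 : ℝ) < ((G.card : ℝ) / J) ^ 2 by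
        have : (0:ℝ) < G.card := by linarith
        positivity), Real.log_pow]
      norm_num
    · have := abs_le.1 (Real.abs_exp_sub_one_sub_id_le (x := 3 / 100) (by norm_num))
      linarith
  · refine le_trans (prod_le_prod (fun l hl => by linarith [h.small l (mem_range.1 hl)])
      fun l _ => (by linarith [Real.add_one_le_exp (-(2 * stA G l))] :
        1 - 2 * stA G l ≤ Real.exp (-(2 * stA G l)))) ?_
    rw [← Real.exp_sum, sum_neg_distrib, ← mul_sum,
      ← Real.exp_log (show (0 : ℝ) < (J / ((G.card : ℝ) - 3)) ^ 2 by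
        have : (0:ℝ) < (G.card : ℝ) - 3 := by linarith
        positivity), Real.log_pow, ← inv_div, Real.log_inv]
    refine Real.exp_le_exp.2 ?_
    have := h.tot_ge
    simp only [tot] at this
    push_cast
    linarith
  · refine le_trans (Real.exp_le_exp.2 (show _ ≤ (1 : ℝ) from ?_))
      (by linarith [Real.exp_one_lt_d9])
    refine (mul_le_mul_of_nonneg_left h.sq_le (by norm_num)).trans ?_
    rw [← mul_div_assoc, div_le_one hJ0]
    linarith [h.tot_L, h.J_big]

lemma drift_num {L lam m mJ r P Q R B : ℝ} (hL : 10000 ≤ L) (hlam0 : 0 < lam)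
    (hlam2 : lam ^ 2 = mJ) (hlam30 : L ^ 30 ≤ lam) (hm : 0 ≤ m) (hP : P ≤ 8 * L) (hP0 : 0 ≤ P)
    (hQ : Q ≤ 2 * (m / mJ)) (hQ0 : 0 ≤ Q) (hq : lam * B ≤ L ^ 5 * r) (h0 : 0 ≤ R)
    (hR : R ≤ r ^ 2) (hr : 0 ≤ r) :
    lam * (2 * B * m * R + 2200 * (L ^ 10 + 1) * P ^ 3 * Q) ≤ 2 * L ^ 5 * r ^ 3 * m + m := by
  rw [mul_add]
  refine add_le_add ?_ ?_
  · calc lam * (2 * B * m * R) = 2 * (lam * B) * R * m := by ring
      _ ≤ 2 * (L ^ 5 * r) * r ^ 2 * m := by
          have : 0 ≤ 2 * (L ^ 5 * r) := by positivity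
          gcongr
      _ = _ := by ring
  · have : (1 : ℝ) ≤ L ^ 10 := one_le_pow₀ (by linarith)
    calc lam * (2200 * (L ^ 10 + 1) * P ^ 3 * Q)
        ≤ lam * (2200 * (2 * L ^ 10) * (8 * L) ^ 3 * (2 * (m / mJ))) := by
          gcongr
          linarith
      _ = m * (4505600 * L ^ 13 / lam) := by rw [← hlam2]; field_simp; ring
      _ ≤ m * 1 := by
          gcongr
          rw [div_le_one hlam0]
          refine le_trans ?_ hlam30
          calc 4505600 * L ^ 13 ≤ L ^ 2 * L ^ 13 :=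
                mul_le_mul_of_nonneg_right (by nlinarith) (by positivity)
            _ = L ^ 15 := by ring
            _ ≤ _ := pow_le_pow_right₀ (by linarith) (by norm_num)
      _ = m := mul_one _

lemma var_num {L lam m mJ a B P Q X : ℝ} (hL : 10000 ≤ L) (hlam2 : lam ^ 2 = mJ)
    (hmlo : L ^ 60 ≤ mJ) (hm1 : 1 ≤ m) (hP : P ≤ 8 * L) (hP0 : 0 ≤ P)
    (hQ : Q ≤ 2 * (m / mJ)) (hQ0 : 0 ≤ Q) (hX : X ≤ 3) (hX0 : 0 ≤ X) (h6 : m * (m * a) ≤ 6)
    (hma : m * a ≤ 1) (ha : 0 ≤ a) (hmB : m * B ^ 2 = L ^ 10) (hB0 : 0 ≤ B) :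
    2 * lam ^ 2 * (45 * Q * X + P ^ 2 * Q ^ 2 *
      (10000 * (m * a) + 4000 * (2 * B + 4 * a + 4 / m) ^ 2)) ≤ 600 * m := by
  have hm : 0 < m := by linarith
  have hmJ : 0 < mJ := lt_of_lt_of_le (by positivity) hmlo
  have hβ : m * (10000 * (m * a) + 4000 * (2 * B + 4 * a + 4 / m) ^ 2) ≤ 700000 * L ^ 10 := by
    have h2 : 4 * a + 4 / m ≤ 8 / m := by
      have : a ≤ 1 / m := by rw [le_div_iff₀ hm]; linarith
      have e : 8 / m = 4 * (1 / m) + 4 / m := by ring
      linarith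
    have h3 : (2 * B + 4 * a + 4 / m) ^ 2 ≤ 8 * B ^ 2 + 128 / m ^ 2 := by
      refine le_trans (pow_le_pow_left₀ (by positivity)
        (show _ ≤ 2 * B + 8 / m by linarith) 2) ?_
      have e : 128 / m ^ 2 = 2 * (8 / m) ^ 2 := by ring
      nlinarith [sq_nonneg (2 * B - 8 / m)]
    have h4 : m * (128 / m ^ 2) ≤ 128 := by
      rw [show m * (128 / m ^ 2) = 128 / m by field_simp]
      exact div_le_self (by norm_num) hm1
    have h5 := mul_le_mul_of_nonneg_left h3 hm.le
    have : (1 : ℝ) ≤ L ^ 10 := one_le_pow₀ (by linarith)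
    linarith
  calc 2 * lam ^ 2 * (45 * Q * X + P ^ 2 * Q ^ 2 *
        (10000 * (m * a) + 4000 * (2 * B + 4 * a + 4 / m) ^ 2))
      ≤ 2 * lam ^ 2 * (45 * (2 * (m / mJ)) * 3 + (8 * L) ^ 2 * (2 * (m / mJ)) ^ 2 *
          (10000 * (m * a) + 4000 * (2 * B + 4 * a + 4 / m) ^ 2)) := by gcongr
    _ = 540 * m + 512 * L ^ 2 * m *
          (m * (10000 * (m * a) + 4000 * (2 * B + 4 * a + 4 / m) ^ 2)) / mJ := by
        rw [hlam2]; field_simp; ring
    _ ≤ 540 * m + 512 * L ^ 2 * m * (700000 * L ^ 10) / mJ := by gcongr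
    _ = 540 * m + m * (358400000 * L ^ 12 / mJ) := by ring
    _ ≤ 540 * m + m * 1 := by
        gcongr
        rw [div_le_one hmJ]
        refine le_trans ?_ hmlo
        calc 358400000 * L ^ 12 ≤ L ^ 3 * L ^ 12 := by
              refine mul_le_mul_of_nonneg_right ?_ (by positivity)
              have := pow_le_pow_left₀ (by norm_num) hL 3
              linarith
          _ = L ^ 15 := by ring
          _ ≤ _ := pow_le_pow_right₀ (by linarith) (by norm_num)
    _ ≤ _ := by linarith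

lemma At.inc_le (hb : Big n) (h : At n G e k J) :
    (∀ s ∈ away G e, |Real.sqrt (mI n J) * stepD G e k s| ≤ 1) ∧
      (2 * Real.sqrt (mI n J) ^ 2 * ∑ s ∈ away G e, stepD G e k s ^ 2 +
          Real.sqrt (mI n J) * |∑ s ∈ away G e, stepD G e k s|) / (triangles G).card ≤
        101 / 50 * lg n ^ 5 * a0 G * (J / ((G.card : ℝ) - 3)) ^ 3 + 700 * a0 G := by
  obtain ⟨hB1, hmB, hLL, hEL, hPi, hexp⟩ := h.growth hb
  have hL := hb.lg_big
  have hm := h.hyp.mpos
  have hmJ : 0 < mI n J := lt_of_lt_of_le (by positivity) h.mlo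
  have hJ0 : 0 < J := by linarith [h.J_big]
  obtain ⟨ha, ha1, hma⟩ := h.hyp.a0_bounds
  have hEL0 : 0 ≤ EL G (Bd n (mS G)) k := zero_le_one.trans h.hyp.LE_one
  have hLL0 : 0 ≤ LL G (Bd n (mS G)) k := zero_le_one.trans h.hyp.LL_one
  obtain ⟨lam, hlam⟩ : ∃ lam : ℝ, lam = Real.sqrt (mI n J) := ⟨_, rfl⟩
  rw [← hlam]
  have hlam0 : 0 < lam := by rw [hlam]; positivity
  have hlam2 : lam ^ 2 = mI n J := by rw [hlam, Real.sq_sqrt hmJ.le]
  have hlam30 : lg n ^ 30 ≤ lam := by
    rw [hlam, show lg n ^ 30 = Real.sqrt (lg n ^ 60) by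
      rw [show lg n ^ 60 = (lg n ^ 30) ^ 2 by rw [← pow_mul], Real.sqrt_sq (by positivity)]]
    exact Real.sqrt_le_sqrt h.mlo
  refine ⟨fun s hs => ?_, ?_⟩
  · rw [abs_mul, abs_of_pos hlam0]
    refine (mul_le_mul_of_nonneg_left (jump_bound trackIfc h.hyp hs) hlam0.le).trans ?_
    calc lam * (500 * LL G (Bd n (mS G)) k * EL G (Bd n (mS G)) k / mS G)
        ≤ lam * (500 * (8 * lg n) * (2 * (mS G / mI n J)) / mS G) := by gcongr
      _ = 8000 * lg n / lam := by rw [← hlam2]; field_simp; ring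
      _ ≤ 1 := by
          rw [div_le_one hlam0]
          refine le_trans ?_ hlam30
          calc 8000 * lg n ≤ lg n * lg n := mul_le_mul_of_nonneg_right (by linarith) (by linarith)
            _ = lg n ^ 2 := by ring
            _ ≤ _ := pow_le_pow_right₀ (by linarith) (by norm_num)
  have hT := h.hyp.card_T
  have hmu := abs_le.1 h.hyp.mean_le
  obtain ⟨T, hTdef⟩ : ∃ T : ℝ, T = ((triangles G).card : ℝ) := ⟨_, rfl⟩
  rw [← hTdef] at hT ⊢
  have hT' : 999 / 1000 * mS G ≤ T * a0 G := by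
    rw [hT, mul_comm (999 / 1000 : ℝ)]; exact mul_le_mul_of_nonneg_left (by linarith) hm.le
  have hTpos : 0 < T := by
    by_contra hc
    nlinarith [mul_nonpos_of_nonpos_of_nonneg (not_lt.1 hc) ha.le]
  have hd := drift_bound trackIfc h.hyp h.small
  have hv := var_bound trackIfc h.hyp
  rw [hmB] at hd
  have hX0 := Real.exp_nonneg (15 * ∑ l ∈ range k, stA G l ^ 2)
  generalize LL G (Bd n (mS G)) k = P at *
  generalize EL G (Bd n (mS G)) k = Q at *
  generalize Real.exp (15 * ∑ l ∈ range k, stA G l ^ 2) = X at *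
  -- the drift
  have hq : lam * Bd n (mS G) ≤ lg n ^ 5 * (J / ((G.card : ℝ) - 3)) := by
    have e : lam * Bd n (mS G) = lg n ^ 5 * (J / G.card) := by
      rw [hlam, Bd, h.ratio, Real.sqrt_mul hm.le, Real.sqrt_sq (by positivity)]
      field_simp
    have : (0 : ℝ) < (G.card : ℝ) - 3 := by linarith [h.hyp.big]
    rw [e]
    gcongr
    linarith
  have hr : 0 ≤ J / ((G.card : ℝ) - 3) := div_nonneg hJ0.le (by linarith [h.hyp.big])
  have d1 : lam * |∑ s ∈ away G e, stepD G e k s| ≤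
      2 * lg n ^ 5 * (J / ((G.card : ℝ) - 3)) ^ 3 * mS G + mS G :=
    (mul_le_mul_of_nonneg_left hd hlam0.le).trans (drift_num hL hlam0 hlam2 hlam30 hm.le hLL hLL0
      hEL hEL0 hq (prod_nonneg fun l hl => by linarith [h.small l (mem_range.1 hl)]) hPi hr)
  -- the variance
  have v1 : 2 * lam ^ 2 * ∑ s ∈ away G e, stepD G e k s ^ 2 ≤ 600 * mS G := by
    refine (mul_le_mul_of_nonneg_left hv (by positivity)).trans
      (var_num hL hlam2 h.mlo h.hyp.bnd.pos hLL hLL0 hEL hEL0 hexp hX0 ?_ hma ha.le hmB h.hyp.bnd.nonneg)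
    rw [a0, ← mul_assoc, ← mul_div_assoc, div_le_iff₀ h.hyp.Epos]
    linarith [h.mle]
  rw [div_le_iff₀ hTpos]
  have h3 : 0 ≤ lg n ^ 5 * (J / ((G.card : ℝ) - 3)) ^ 3 := by
    positivity
  have h4 := mul_le_mul_of_nonneg_left hT'
    (show 0 ≤ 101 / 50 * (lg n ^ 5 * (J / ((G.card : ℝ) - 3)) ^ 3) + 700 by positivity)
  have h5 := mul_nonneg h3 hm.le
  linarith

lemma bud_step (hb : Big n) {E : ℕ} (hE : 300 ≤ E) (J : ℝ) (hJ : 0 ≤ J) :
    bud n E J + (101 / 50 * lg n ^ 5 * (3 / (E : ℝ)) * (J / ((E : ℝ) - 3)) ^ 3 +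
      700 * (3 / (E : ℝ))) ≤ bud n (E - 3) J := by
  have hL := hb.lg_big
  have hc : ((E - 3 : ℕ) : ℝ) = (E : ℝ) - 3 := by rw [Nat.cast_sub (by omega)]; norm_num
  have hE' : (300 : ℝ) ≤ E := by exact_mod_cast hE
  obtain ⟨x, hx, hx0, hx1⟩ : ∃ x, x = 3 / (E : ℝ) ∧ 0 ≤ x ∧ x ≤ 1 / 100 :=
    ⟨_, rfl, by positivity, by rw [div_le_iff₀ (by linarith)]; linarith⟩
  have hpos : (0 : ℝ) < (E : ℝ) - 3 := by linarith
  have hlog : x ≤ Real.log E - Real.log ((E : ℝ) - 3) := by
    have h := Real.one_sub_inv_le_log_of_pos (show 0 < (E : ℝ) / ((E : ℝ) - 3) by positivity)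
    rw [Real.log_div (by linarith) (by linarith), inv_div] at h
    refine le_trans (le_of_eq ?_) h
    rw [hx]; field_simp; ring
  have hS : (J / (E : ℝ)) ^ 3 = (J / ((E : ℝ) - 3)) ^ 3 * (1 - x) ^ 3 := by
    rw [hx, ← mul_pow]; congr 1; field_simp
  have h0 : 0 ≤ (J / ((E : ℝ) - 3)) ^ 3 * lg n ^ 5 := by positivity
  have h1 : 101 / 50 * x ≤ 7 / 10 * (1 - (1 - x) ^ 3) := by
    have := mul_le_mul_of_nonneg_left hx1 hx0
    have : 0 ≤ x ^ 3 := by positivity
    linarith
  have h2 := mul_le_mul_of_nonneg_left h1 h0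
  unfold bud
  rw [hc, hS, ← hx]
  linarith

lemma psi_step (hb : Big n) {G : Gr n} (hsub : G ⊆ completeEdges n) (hG : Good G)
    (hE : eHi n < G.card) (hT : triangles G ≠ ∅) : childAvg Psi G ≤ Psi G := by
  have hTpos := card_pos_of_nonterminal hT
  rw [childAvg, div_le_iff₀ hTpos]
  have hc : ∀ s ∈ triangles G, (G \ edgesOf s).card = G.card - 3 := fun s hs => by
    have := card_step hs; omega
  have h1 : ∑ s ∈ triangles G, Psi (G \ edgesOf s) ≤
      ∑ e ∈ G, ∑ k ∈ range (G.card - 3), ∑ s ∈ away G e, term (G \ edgesOf s) e k := by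
    refine le_of_eq ?_
    have : ∀ s ∈ triangles G, Psi (G \ edgesOf s) =
        ∑ e ∈ G, if e ∉ edgesOf s then ∑ k ∈ range (G.card - 3), term (G \ edgesOf s) e k else 0 :=
      fun s hs => by rw [Psi, hc s hs, ← sum_filter, filter_notMem_eq_sdiff]
    rw [sum_congr rfl this, sum_comm]
    refine sum_congr rfl fun e _ => ?_
    rw [← sum_filter, sum_comm]
    rfl
  refine h1.trans ?_
  rw [mul_comm, Psi, mul_sum]
  refine sum_le_sum fun e he => ?_
  have hshift : ∑ k ∈ range (G.card - 3), term G e (k + 1) ≤ ∑ k ∈ range G.card, term G e k := by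
    rw [← sum_image (g := fun k => k + 1) (f := term G e) (fun a _ b _ h => by simpa using h)]
    exact sum_le_sum_of_subset_of_nonneg
      (fun x hx => by simp only [mem_image, mem_range] at hx ⊢; omega) fun x _ _ => term_nonneg G e x
  refine le_trans ?_ (mul_le_mul_of_nonneg_left hshift hTpos.le)
  rw [mul_sum]
  refine sum_le_sum fun k _ => ?_
  by_cases hk : 3 * (k + 1) < G.card ∧ mLo n ≤ mI n ((G.card : ℝ) - 3 * (k + 1))
  · have hA := mk_at hb hsub hG hE he hk.1 hk.2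
    obtain ⟨hj, hinc⟩ := hA.inc_le hb
    have hJ0 : 0 ≤ (G.card : ℝ) - 3 * (k + 1) := by linarith [hA.J_big, hb.lg_big]
    have hbig : 300 ≤ G.card := by
      have : (300 : ℝ) ≤ G.card := by
        linarith [hA.J_big, hb.lg_big, Nat.cast_nonneg (α := ℝ) k]
      exact_mod_cast this
    have hterm : ∀ s ∈ away G e, term (G \ edgesOf s) e k =
        Real.cosh (Real.sqrt (mI n ((G.card : ℝ) - 3 * (k + 1))) * Z G e (k + 1) +
          Real.sqrt (mI n ((G.card : ℝ) - 3 * (k + 1))) * stepD G e k s) *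
          Real.exp (-bud n (G.card - 3) ((G.card : ℝ) - 3 * (k + 1))) := by
      intro s hs
      have hcs := hc s (mem_filter.1 hs).1
      have hcast : ((G.card - 3 : ℕ) : ℝ) - 3 * (k : ℝ) = (G.card : ℝ) - 3 * (k + 1) := by
        rw [Nat.cast_sub (by omega)]; push_cast; ring
      rw [term, hcs, hcast, if_pos ⟨by omega, hk.2⟩, stepD, ← mul_add, add_sub_cancel]
    rw [sum_congr rfl hterm, ← sum_mul]
    have hcard : ((away G e).card : ℝ) ≤ (triangles G).card := by
      exact_mod_cast card_le_card (filter_subset _ _)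
    refine (mul_le_mul_of_nonneg_right
      (cosh_sum_le (away G e) hTpos hcard _ _ (Real.sqrt_nonneg _) _ hj) (Real.exp_nonneg _)).trans ?_
    rw [term]
    push_cast
    rw [if_pos hk, mul_assoc, ← Real.exp_add, mul_assoc]
    refine mul_le_mul_of_nonneg_left (mul_le_mul_of_nonneg_left (Real.exp_le_exp.2 ?_)
      (Real.cosh_pos _).le) hTpos.le
    have := bud_step hb hbig _ hJ0
    have ha : a0 G = 3 / (G.card : ℝ) := rfl
    rw [ha] at hinc
    linarith
  · have h0 : ∀ s ∈ away G e, term (G \ edgesOf s) e k = 0 := by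
      intro s hs
      rw [term, if_neg]
      rintro ⟨ha, hb'⟩
      have hcs := hc s (mem_filter.1 hs).1
      rw [hcs] at ha hb'
      refine hk ⟨by omega, ?_⟩
      rwa [Nat.cast_sub (by omega), show ((G.card : ℕ) : ℝ) - ((3 : ℕ) : ℝ) - 3 * (k : ℝ) =
        (G.card : ℝ) - 3 * (k + 1) by push_cast; ring] at hb'
    rw [sum_congr rfl h0, sum_const_zero]
    exact mul_nonneg hTpos.le (term_nonneg _ _ _)

lemma log_card_le {G : Gr n} (hsub : G ⊆ completeEdges n) (_hn : (1 : ℝ) ≤ n) :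
    Real.log (G.card : ℝ) ≤ 2 * lg n := by
  rcases Nat.eq_zero_or_pos G.card with h | h
  · rw [h, Nat.cast_zero, Real.log_zero]
    have := lg_nonneg n
    linarith
  · refine le_trans (Real.log_le_log (by exact_mod_cast h) ((card_le_half_sq hsub).trans
      (show (n : ℝ) ^ 2 / 2 ≤ (n : ℝ) ^ 2 by nlinarith))) ?_
    rw [Real.log_pow, lg]; norm_num

lemma psi_bad (hb : Big n) {G : Gr n} (_hsub : G ⊆ completeEdges n) (hG : ¬ Good G) :
    Real.exp (lg n ^ 5 / 10) ≤ 2 * Psi G := by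
  simp only [Good, not_forall, not_le] at hG
  obtain ⟨f, hf, k, hk, hm, hz⟩ := hG
  have hL := hb.lg_big
  have hmem : k ∈ range G.card := mem_range.2 (by omega)
  have h1 : term G f k ≤ Psi G :=
    (single_le_sum (fun i _ => term_nonneg G f i) hmem).trans
      (single_le_sum (f := fun e => ∑ i ∈ range G.card, term G e i)
        (fun e _ => sum_nonneg fun i _ => term_nonneg G e i) hf)
  refine le_trans ?_ (mul_le_mul_of_nonneg_left h1 zero_le_two)
  rw [term, if_pos ⟨hk, hm⟩]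
  have hk' : 3 * (k : ℝ) < G.card := by exact_mod_cast hk
  obtain ⟨J, hJ⟩ : ∃ J : ℝ, J = (G.card : ℝ) - 3 * k := ⟨_, rfl⟩
  rw [← hJ] at hm hz ⊢
  have hJ0 : 0 < J := by linarith
  have hJE : J ≤ G.card := by linarith [Nat.cast_nonneg (α := ℝ) k]
  have hlam : 0 < Real.sqrt (mI n J) :=
    Real.sqrt_pos.2 (lt_of_lt_of_le (pow_pos (by linarith) 60) hm)
  have hx : lg n ^ 5 ≤ |Real.sqrt (mI n J) * Z G f k| := by
    rw [abs_mul, abs_of_pos hlam]
    rw [Bd, div_lt_iff₀ hlam] at hz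
    linarith
  have hcosh : Real.exp (lg n ^ 5) / 2 ≤ Real.cosh (Real.sqrt (mI n J) * Z G f k) := by
    rw [← Real.cosh_abs, Real.cosh_eq]
    have := Real.exp_le_exp.2 hx
    have := Real.exp_pos (-|Real.sqrt (mI n J) * Z G f k|)
    linarith
  have hbud : bud n G.card J ≤ 9 / 10 * lg n ^ 5 := by
    have hq : (J / (G.card : ℝ)) ^ 3 ≤ 1 :=
      pow_le_one₀ (by positivity) ((div_le_one (by linarith)).2 hJE)
    have hlogE : 0 ≤ Real.log (G.card : ℝ) := Real.log_natCast_nonneg _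
    have h5 : 12000 * lg n ≤ lg n ^ 5 := by
      have := pow_le_pow_left₀ (by norm_num) hL 4
      have := mul_le_mul_of_nonneg_right this (show 0 ≤ lg n by linarith)
      nlinarith
    have := mul_le_mul_of_nonneg_left hq (show 0 ≤ 7 / 10 * lg n ^ 5 by positivity)
    unfold bud
    linarith
  calc Real.exp (lg n ^ 5 / 10) = 2 * (Real.exp (lg n ^ 5) / 2 * Real.exp (-(9 / 10 * lg n ^ 5))) := by
        rw [show lg n ^ 5 / 10 = lg n ^ 5 + -(9 / 10 * lg n ^ 5) by ring, Real.exp_add]; ring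
    _ ≤ _ := by
        gcongr

lemma propA_sup {G : Gr n} {B : ℝ} (h : Bnd G B) (a : ℕ → ℝ) :
    ∀ (k : ℕ), (∀ l, l < k → 0 ≤ a l) → ∀ (v : Sym2 (Fin n) → ℝ) (c : ℝ), (∀ f, |v f| ≤ c) →
      ∀ f, |propA G a k v f| ≤ c * Real.exp (tot a k * (2 * (1 + B))) := by
  have hm : 0 < mS G := lt_of_lt_of_le one_pos h.pos
  intro k
  induction k with
  | zero => intro _ v c hv f; simpa [propA, tot] using hv f
  | succ k ih =>
    intro ha v c hv f
    have hk := ih (fun l hl => ha l (by omega)) v c hv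
    obtain ⟨C, hC⟩ : ∃ C, C = c * Real.exp (tot a k * (2 * (1 + B))) := ⟨_, rfl⟩
    rw [← hC] at hk
    have hC0 : 0 ≤ C := (abs_nonneg _).trans (hk f)
    have hN : |Spectral.apply (nh G) (propA G a k v) f| ≤ C * (2 * (1 + B)) := by
      simp only [Spectral.apply]
      refine (abs_sum_le_sum_abs _ _).trans ?_
      refine le_trans (sum_le_sum (g := fun g => C * nh G f g) fun g _ => ?_) ?_
      · rw [abs_mul, abs_of_nonneg (nh_nonneg hm f g), mul_comm C]
        exact mul_le_mul_of_nonneg_left (hk g) (nh_nonneg hm f g)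
      · rw [← mul_sum]; exact mul_le_mul_of_nonneg_left (nh_row_le h f) hC0
    simp only [propA]
    refine (abs_sub _ _).trans ?_
    rw [abs_mul, abs_of_nonneg (ha k (by omega))]
    refine (add_le_add (hk f) (mul_le_mul_of_nonneg_left hN (ha k (by omega)))).trans ?_
    have e : tot a (k + 1) * (2 * (1 + B)) =
        tot a k * (2 * (1 + B)) + a k * (2 * (1 + B)) := by
      rw [tot, tot, sum_range_succ]; ring
    rw [e, Real.exp_add, ← mul_assoc c, ← hC]
    have := mul_le_mul_of_nonneg_left (Real.add_one_le_exp (a k * (2 * (1 + B)))) hC0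
    linarith

lemma cd_complete {e : Sym2 (Fin n)} (he : e ∈ completeEdges n) :
    cd (completeEdges n) e = (n : ℝ) - 2 := by
  have h := Track.cod_complete (n := n) (e := e) he
  exact h

lemma psi_start (hb : Big n) : Psi (completeEdges n) ≤ 2 * (n : ℝ) ^ 4 := by
  have hn := hb.n_big
  have hL := hb.lg_big
  obtain ⟨E, hEdef⟩ : ∃ E : ℝ, E = ((completeEdges n).card : ℝ) := ⟨_, rfl⟩
  have hE : E = n * ((n : ℝ) - 1) / 2 := by
    rw [hEdef, card_completeEdges, Nat.cast_choose_two]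
  have hm : mS (completeEdges n) = ((n : ℝ) - 1) ^ 2 / n := by
    rw [mS, mI, ← hEdef, hE]; field_simp; ring
  have hm0 : 0 < mS (completeEdges n) := by
    have : (0 : ℝ) < (n : ℝ) - 1 := by linarith
    rw [hm]; positivity
  obtain ⟨c, hc⟩ : ∃ c : ℝ, c = 1 / ((n : ℝ) - 1) ^ 2 := ⟨_, rfl⟩
  have hc0 : 0 ≤ c := by rw [hc]; positivity
  have hd : ∀ f, |dv (completeEdges n) f| ≤ c := by
    intro f
    unfold dv
    split_ifs with hf
    · have h1 : (n : ℝ) - 1 ≠ 0 := by linarith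
      have e1 : ((n : ℝ) - 2) / (((n : ℝ) - 1) ^ 2 / n) - 1 = -c := by
        rw [hc]; field_simp; ring
      rw [cd_complete hf, hm, e1, abs_neg, abs_of_nonneg hc0]
    · simpa using hc0
  have hcn : c * (n : ℝ) ≤ 1 / 1000 := by
    rw [hc, one_div_mul_eq_div, div_le_iff₀ (by nlinarith)]
    nlinarith
  have hm1 : 1 ≤ mS (completeEdges n) := by
    rw [hm, le_div_iff₀ (by linarith)]; nlinarith
  have hbnd : Bnd (completeEdges n) c :=
    ⟨subset_rfl, hm1, hc0, by nlinarith, fun f _ => hd f⟩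
  have one : ∀ k : ℕ, ∀ f : Sym2 (Fin n), term (completeEdges n) f k ≤ 2 := by
    intro k f
    unfold term
    split_ifs with hk
    swap
    · norm_num
    obtain ⟨hk, hmJ⟩ := hk
    rw [← hEdef] at hmJ ⊢
    have hk' : 3 * (k : ℝ) < E := by rw [hEdef]; exact_mod_cast hk
    obtain ⟨J, hJ⟩ : ∃ J : ℝ, J = E - 3 * k := ⟨_, rfl⟩
    rw [← hJ] at hmJ ⊢
    have hJ0 : 0 < J := by linarith
    have hmJ1 : 1 ≤ mI n J := le_trans (one_le_pow₀ (by linarith)) hmJ
    have hJ3 : 3 / J ≤ 1 / 100 := by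
      rw [div_le_iff₀ hJ0]
      have h1 := hmJ1
      rw [mI, le_div_iff₀ (by positivity), one_mul] at h1
      nlinarith [pow_le_pow_left₀ (by norm_num) hn 3]
    obtain ⟨-, t2, -⟩ := trackIfc.stpTot (completeEdges n).card k hk
    rw [← hEdef, ← hJ] at t2
    have hJE : J ≤ E := by linarith [Nat.cast_nonneg (α := ℝ) k]
    have hE0 : 0 < E := by linarith
    have hstp : ∀ l, l < k → 0 ≤ stp (completeEdges n).card l := by
      intro l hl
      rw [stp, ← hEdef]
      have : (l : ℝ) + 1 ≤ k := by exact_mod_cast hl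
      have : 0 < E - 3 * ((l : ℝ) + 1) := by linarith
      positivity
    have hZ : |Z (completeEdges n) f k| ≤ c * (2 * (E / J) ^ 2) := by
      rw [Z, prop_eq_propA]
      refine (propA_sup hbnd _ k hstp _ c hd f).trans (mul_le_mul_of_nonneg_left ?_ hc0)
      have hlogn : Real.log (E / J) ≤ lg n := by
        refine Real.log_le_log (by positivity) ?_
        have h1 : (E / J) ^ 2 ≤ n := by
          have e1 : mI n J * (E / J) ^ 2 = mS (completeEdges n) := by
            rw [mS, mI, mI, ← hEdef]; field_simp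
          have h2 : mS (completeEdges n) ≤ n := by
            rw [hm, div_le_iff₀ (by linarith)]; nlinarith
          have := le_mul_of_one_le_left (sq_nonneg (E / J)) hmJ1
          linarith
        exact (le_self_pow₀ (by rw [le_div_iff₀ hJ0]; linarith) (by norm_num)).trans h1
      have hlog0 : 0 ≤ Real.log (E / J) := Real.log_nonneg (by rw [le_div_iff₀ hJ0]; linarith)
      have hcL : c * lg n ≤ 1 / 1000 := by
        refine le_trans (mul_le_mul_of_nonneg_left ?_ hc0) hcn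
        exact (Real.log_le_sub_one_of_pos (by linarith)).trans (by linarith)
      have h3 : tot (stp (completeEdges n).card) k * (2 * (1 + c)) ≤
          2 * Real.log (E / J) + 1 / 10 := by
        have := mul_le_mul_of_nonneg_right t2 (show 0 ≤ 2 * (1 + c) by linarith)
        have := mul_le_mul_of_nonneg_left hlogn hc0
        nlinarith
      refine (Real.exp_le_exp.2 h3).trans ?_
      rw [Real.exp_add, mul_comm 2 ((E / J) ^ 2)]
      refine mul_le_mul (le_of_eq ?_) ?_ (Real.exp_nonneg _) (sq_nonneg _)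
      · rw [← Real.exp_log (show (0 : ℝ) < (E / J) ^ 2 by positivity), Real.log_pow]
        norm_num
      · have := abs_le.1 (Real.abs_exp_sub_one_sub_id_le (x := 1 / 10) (by norm_num))
        linarith
    have hx : |Real.sqrt (mI n J) * Z (completeEdges n) f k| ≤ 1 / 100 := by
      rw [abs_mul, abs_of_nonneg (Real.sqrt_nonneg _)]
      calc Real.sqrt (mI n J) * |Z (completeEdges n) f k|
          ≤ mI n J * (c * (2 * (E / J) ^ 2)) := by
            refine mul_le_mul ?_ hZ (abs_nonneg _) (by linarith)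
            rw [Real.sqrt_le_left (by linarith)]
            exact le_self_pow₀ hmJ1 (by norm_num)
        _ = 2 * (c * mS (completeEdges n)) := by
            rw [mS, mI, mI, ← hEdef]; field_simp
        _ ≤ 2 * (c * n) := by
            gcongr
            rw [hm, div_le_iff₀ (by linarith)]; nlinarith
        _ ≤ _ := by linarith
    have hcosh : Real.cosh (Real.sqrt (mI n J) * Z (completeEdges n) f k) ≤ 2 := by
      refine (Real.cosh_le_cosh.2 (hx.trans (le_abs_self (1 / 100 : ℝ)))).trans ?_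
      have := cosh_add_le (x := 0) (u := 1 / 100) (by norm_num)
      simp only [zero_add, Real.cosh_zero, Real.sinh_zero] at this
      linarith
    refine (mul_le_of_le_one_right (Real.cosh_pos _).le (Real.exp_le_one_iff.2 ?_)).trans hcosh
    have hlogE := log_card_le (n := n) (G := completeEdges n) subset_rfl (by linarith)
    unfold bud
    have : 0 ≤ 7 / 10 * lg n ^ 5 * (J / ((completeEdges n).card : ℝ)) ^ 3 := by
      rw [← hEdef]
      have : 0 ≤ J / E := div_nonneg hJ0.le (by linarith)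
      positivity
    linarith
  calc Psi (completeEdges n)
      ≤ ∑ _e ∈ completeEdges n, ∑ _k ∈ range (completeEdges n).card, (2 : ℝ) :=
        sum_le_sum fun f _ => sum_le_sum fun k _ => one k f
    _ = 2 * E ^ 2 := by simp only [sum_const, card_range, nsmul_eq_mul]; rw [hEdef]; ring
    _ ≤ _ := by
        rw [hE]
        have h1 : n * ((n : ℝ) - 1) / 2 ≤ (n : ℝ) ^ 2 := by nlinarith
        have h0 : 0 ≤ n * ((n : ℝ) - 1) / 2 := by
          have : 0 ≤ (n : ℝ) - 1 := by linarith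
          positivity
        have := pow_le_pow_left₀ h0 h1 2
        nlinarith

/-- Module 1: tracking. -/
theorem trackStep : TrackStep := by
  filter_upwards [eventually_big] with n hb
  have hL := hb.lg_big
  have hn := hb.n_big
  obtain ⟨K, hK⟩ : ∃ K : ℝ, K = Real.exp (lg n ^ 5 / 10) := ⟨_, rfl⟩
  have hK0 : 0 < K := by rw [hK]; exact Real.exp_pos _
  refine (EvUntil_le_of_superharmonic (fun H => 2 / K * Psi H)
    (fun G hG hs => ?_) fun G hG hs ht => ?_).trans ?_
  · have hP : 0 ≤ Psi G := sum_nonneg fun e _ => sum_nonneg fun k _ => term_nonneg G e k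
    by_cases hg : Good G
    · rw [if_pos hg]; positivity
    · rw [if_neg hg, div_mul_eq_mul_div, le_div_iff₀ hK0, one_mul, hK]
      exact psi_bad hb hG hg
  · rw [childAvg_const_mul]
    refine mul_le_mul_of_nonneg_left ?_ (by positivity)
    obtain ⟨h1, h2⟩ : Good G ∧ eHi n < G.card := by
      simp only [Stop, not_or, not_not, not_le] at hs
      exact hs
    exact psi_step hb hG h1 h2 ht
  · have hn0 : (0 : ℝ) < n := by linarith
    have h1 : (n : ℝ) ^ 8 ≤ K := by
      rw [hK, ← Real.exp_log (pow_pos hn0 8), Real.log_pow, Real.exp_le_exp]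
      have h4 := pow_le_pow_left₀ (by norm_num) hL 4
      have := mul_le_mul_of_nonneg_right h4 (show 0 ≤ lg n by linarith)
      change (8 : ℕ) * lg n ≤ lg n ^ 5 / 10
      push_cast
      nlinarith
    calc 2 / K * Psi (completeEdges n) ≤ 2 / K * (2 * (n : ℝ) ^ 4) :=
          mul_le_mul_of_nonneg_left (psi_start hb) (by positivity)
      _ ≤ 2 / (n : ℝ) ^ 8 * (2 * (n : ℝ) ^ 4) := by gcongr
      _ = 4 / (n : ℝ) ^ 4 := by field_simp; ring
      _ ≤ 1 / (n : ℝ) ^ 3 := by
          rw [div_le_div_iff₀ (by positivity) (by positivity)]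
          nlinarith [pow_pos hn0 3]

end Vale.Agent.P046.Full
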