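import Vale.Agent.P046.Full.Defs

/-!
Tracking, module 1: the walk operator, the propagator coefficients, and the interfaces of the
combinatorial half (`Walks`) and of the linear half (`Linear`).
-/

namespace Vale.Agent.P046.Full

open Finset
open scoped Classical

variable {n : ℕ}

/-- The triangles through `f`. -/
noncomputable def nbr (G : Gr n) (f : Sym2 (Fin n)) : Finset (Finset (Fin n)) :=
  (triangles G).filter fun t => f ∈ edgesOf t

/-- Normalised sum over the `j`-step walks from `f`, carrying the set of edges seen. -/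
noncomputable def wk (G : Gr n) : ℕ → Gr n → Sym2 (Fin n) → (Gr n → Sym2 (Fin n) → ℝ) → ℝ
  | 0, Q, f, φ => φ Q f
  | j + 1, Q, f, φ =>
      (∑ t ∈ nbr G f, ∑ g ∈ (edgesOf t).erase f, wk G j (Q ∪ edgesOf t) g φ) / mS G

/-- The coefficients of `∏_{l < k} (1 - a l x)`. -/
noncomputable def cf (a : ℕ → ℝ) : ℕ → ℕ → ℝ
  | 0, j => if j = 0 then 1 else 0
  | k + 1, j => cf a k j - if j = 0 then 0 else a k * cf a k (j - 1)

/-- The sum of the first `k` coefficients. -/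
noncomputable def tot (a : ℕ → ℝ) (k : ℕ) : ℝ := ∑ l ∈ range k, a l

/-- The propagator with steps `a`. -/
noncomputable def propA (G : Gr n) (a : ℕ → ℝ) : ℕ → (Sym2 (Fin n) → ℝ) → Sym2 (Fin n) → ℝ
  | 0, v => v
  | k + 1, v => fun f => propA G a k v f - a k * Spectral.apply (nh G) (propA G a k v) f

/-- The indicator of a set of edges. -/
noncomputable def ind (S : Gr n) (f : Sym2 (Fin n)) : ℝ := if f ∈ S then 1 else 0

/-- The states in which the step bounds hold: every deviation is at most `B`. -/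
structure Bnd (G : Gr n) (B : ℝ) : Prop where
  sub : G ⊆ completeEdges n
  pos : 1 ≤ mS G
  nonneg : 0 ≤ B
  le : B ≤ 1 / 4
  dev : ∀ f ∈ G, |dv G f| ≤ B

/-! ## The combinatorial half (`Walks`) -/

/-- A walk sum of a function of the endpoint alone is an iterate of `nh`. -/
def WkIndep : Prop :=
  ∀ {n : ℕ} (G : Gr n) (j : ℕ) (Q : Gr n) (f : Sym2 (Fin n)) (v : Sym2 (Fin n) → ℝ),
    wk G j Q f (fun _ g => v g) = (Spectral.apply (nh G))^[j] v f

/-- Monotonicity along the invariant of the walk. -/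
def WkMono : Prop :=
  ∀ {n : ℕ} (G : Gr n) (j : ℕ) (Q : Gr n) (f : Sym2 (Fin n))
    (φ χ : Gr n → Sym2 (Fin n) → ℝ), Q ⊆ G → f ∈ Q →
    (∀ Q' g, Q' ⊆ G → Q ⊆ Q' → g ∈ Q' → Q'.card ≤ Q.card + 2 * j → φ Q' g ≤ χ Q' g) →
    wk G j Q f φ ≤ wk G j Q f χ

/-- Linearity. -/
def WkLin : Prop :=
  ∀ {n : ℕ} (G : Gr n) (j : ℕ) (Q : Gr n) (f : Sym2 (Fin n))
    (φ χ : Gr n → Sym2 (Fin n) → ℝ) (a b : ℝ),
    wk G j Q f (fun Q' g => a * φ Q' g + b * χ Q' g) = a * wk G j Q f φ + b * wk G j Q f χ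

/-- The total weight. -/
def WkMass : Prop :=
  ∀ {n : ℕ} (G : Gr n) (B : ℝ) (j : ℕ) (Q : Gr n) (f : Sym2 (Fin n)), Bnd G B → Q ⊆ G → f ∈ Q →
    wk G j Q f (fun _ _ => 1) ≤ (2 * (1 + B)) ^ j

/-- The weight of the walks that see a given further edge. -/
def WkHit : Prop :=
  ∀ {n : ℕ} (G : Gr n) (B : ℝ) (j : ℕ) (Q : Gr n) (f h : Sym2 (Fin n)),
    Bnd G B → Q ⊆ G → f ∈ Q → h ∉ Q →
    wk G j Q f (fun Q' _ => ind Q' h) ≤ 4 * j * (2 * (1 + B)) ^ j / mS G

/-- The coincidence deficit. -/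
def WkDeficit : Prop :=
  ∀ {n : ℕ} (G : Gr n) (B : ℝ) (j : ℕ) (e : Sym2 (Fin n)), Bnd G B → e ∈ G →
    wk G j {e} e (fun Q' _ => 2 * j + 1 - (Q'.card : ℝ)) ≤
      8 * (j : ℝ) * (j + 1) * (2 * (1 + B)) ^ j / mS G

/-- The triangles meeting a set of edges. -/
def MeetCount : Prop :=
  ∀ {n : ℕ} (G : Gr n) (Q : Gr n), Q ⊆ G →
    (((triangles G).filter fun s => ¬ Disjoint Q (edgesOf s)).card : ℝ) ≤ ∑ g ∈ Q, cd G g ∧
      ∑ g ∈ Q, cd G g - (Q.card : ℝ) ^ 2 ≤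
        (((triangles G).filter fun s => ¬ Disjoint Q (edgesOf s)).card : ℝ)

/-- The losses at `f`, summed over the triangles missing `Q`. -/
def LossCount : Prop :=
  ∀ {n : ℕ} (G : Gr n) (B : ℝ) (Q : Gr n) (f : Sym2 (Fin n)), Bnd G B → Q ⊆ G → f ∈ Q →
    |∑ s ∈ (triangles G).filter (fun s => Disjoint Q (edgesOf s)),
        Spectral.apply (nh G) (ind (edgesOf s)) f -
      mS G * Spectral.apply (nh G) (fun g => ind G g + dv G g) f| ≤ 8 * (Q.card : ℝ)

/-- The walk form of the iterate in the next state. -/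
def IterStepEq : Prop :=
  ∀ {n : ℕ} (G : Gr n) (s : Finset (Fin n)) (e : Sym2 (Fin n)) (v : Sym2 (Fin n) → ℝ) (j : ℕ),
    s ∈ triangles G → e ∈ G → e ∉ edgesOf s → 3 < G.card → 0 < mS G →
    (Spectral.apply (nh (G \ edgesOf s)))^[j] v e =
      (mS G / mS (G \ edgesOf s)) ^ j *
        wk G j {e} e (fun Q f => if Disjoint Q (edgesOf s) then v f else 0)

/-- The deviation in the next state. -/
def DevStepEq : Prop :=
  ∀ {n : ℕ} (G : Gr n) (s : Finset (Fin n)) (f : Sym2 (Fin n)),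
    s ∈ triangles G → f ∈ G → f ∉ edgesOf s → 3 < G.card → 0 < mS G →
    dv (G \ edgesOf s) f = mS G / mS (G \ edgesOf s) * (1 + dv G f) - 1 -
      mS G / mS (G \ edgesOf s) * Spectral.apply (nh G) (ind (edgesOf s)) f

/-- The losses caused by one triangle are small at every edge. -/
def LossSmall : Prop :=
  ∀ {n : ℕ} (G : Gr n) (s : Finset (Fin n)) (f : Sym2 (Fin n)),
    s ∈ triangles G → 0 < mS G →
    0 ≤ Spectral.apply (nh G) (ind (edgesOf s)) f ∧
      Spectral.apply (nh G) (ind (edgesOf s)) f ≤ 3 / mS G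

/-! ## The linear half (`Linear`) -/

/-- The propagator as a sum over powers. -/
def PropPoly : Prop :=
  ∀ {n : ℕ} (G : Gr n) (a : ℕ → ℝ) (k : ℕ) (v : Sym2 (Fin n) → ℝ) (f : Sym2 (Fin n)),
    propA G a k v f = ∑ j ∈ range (k + 1), cf a k j * (Spectral.apply (nh G))^[j] v f

/-- `prop` is the propagator of the steps `stp`, and splits off its first step. -/
def PropSplit : Prop :=
  ∀ {n : ℕ} (G : Gr n) (k : ℕ) (v : Sym2 (Fin n) → ℝ), 3 ≤ G.card →
    prop G (k + 1) v =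
      propA G (stp (G.card - 3)) k (fun f => v f - stp G.card 0 * Spectral.apply (nh G) v f)

/-- The weighted sizes of the coefficients. -/
def CfBound : Prop :=
  ∀ (a : ℕ → ℝ) (k : ℕ) (y : ℝ), (∀ l, l < k → 0 ≤ a l) → 0 ≤ y →
    ∀ i : ℕ, i ≤ 3 → ∑ j ∈ range (k + 1), |cf a k j| * ((j : ℝ) + 1) ^ i * y ^ j ≤
      6 * (1 + tot a k * y) ^ i * Real.exp (tot a k * y)

/-- The propagator does not increase the square norm by more than the spectrum allows. -/
def PropNorm : Prop :=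
  ∀ {n : ℕ} (G : Gr n) (B : ℝ) (a : ℕ → ℝ) (k : ℕ) (v : Sym2 (Fin n) → ℝ),
    Bnd G B → (∀ l, l < k → 0 ≤ a l) →
    ∑ f, propA G a k v f ^ 2 ≤
      Real.exp (∑ l ∈ range k, (2 * a l * (1 + B) + 9 * a l ^ 2)) * ∑ f, v f ^ 2

/-- The propagator is symmetric and commutes with `nh`. -/
def PropSymm : Prop :=
  ∀ {n : ℕ} (G : Gr n) (a : ℕ → ℝ) (k : ℕ) (u v : Sym2 (Fin n) → ℝ),
    ∑ f, propA G a k u f * v f = ∑ f, u f * propA G a k v f ∧
      propA G a k (Spectral.apply (nh G) v) = Spectral.apply (nh G) (propA G a k v)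

/-- The row at an edge has small square norm. -/
def RowNorm : Prop :=
  ∀ {n : ℕ} (G : Gr n) (B : ℝ) (e : Sym2 (Fin n)), Bnd G B →
    ∑ f, Spectral.apply (nh G) (ind {e}) f ^ 2 ≤ 2 * (1 + B) / mS G

/-- The propagator of the constant vector. -/
def PropOne : Prop :=
  ∀ {n : ℕ} (G : Gr n) (B : ℝ) (a : ℕ → ℝ) (k : ℕ) (f : Sym2 (Fin n)), Bnd G B → f ∈ G →
    (∀ l, l < k → 0 ≤ a l ∧ a l ≤ 1 / 4) →
    |propA G a k (ind G) f - ∏ l ∈ range k, (1 - 2 * a l)| ≤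
      2 * tot a k * B * Real.exp (tot a k * (2 * (1 + B)))

/-- The total of the grid steps: each step is at least its integral. -/
def StpTot : Prop :=
  ∀ E k : ℕ, 3 * k < E →
    Real.log ((E : ℝ) / ((E : ℝ) - 3 * k)) ≤ tot (stp E) k ∧
      tot (stp E) k ≤ Real.log ((E : ℝ) / ((E : ℝ) - 3 * k)) + 3 / ((E : ℝ) - 3 * k) ∧
      ∑ l ∈ range k, stp E l ^ 2 ≤ 3 * tot (stp E) k / ((E : ℝ) - 3 * k)

end Vale.Agent.P046.Full
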