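import Vale.Agent.P046.Full.TrackDefs

/-!
Tracking: mean, square sum and size of the one-step change of a predicted deviation.
-/

namespace Vale.Agent.P046.Full

open Finset
open scoped Classical

variable {n : ℕ}

/-- The interfaces of the combinatorial and the linear half. -/
structure Ifc : Prop where
  indep : WkIndep
  mono : WkMono
  lin : WkLin
  mass : WkMass
  hit : WkHit
  deficit : WkDeficit
  meet : MeetCount
  loss : LossCount
  iterEq : IterStepEq
  devEq : DevStepEq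
  lossSmall : LossSmall
  poly : PropPoly
  split : PropSplit
  cfBound : CfBound
  norm : PropNorm
  symm : PropSymm
  row : RowNorm
  one : PropOne
  stpTot : StpTot

/-- The first step. -/
noncomputable def a0 (G : Gr n) : ℝ := 3 / (G.card : ℝ)

/-- The first step of the propagator. -/
noncomputable def b0 (G : Gr n) : ℝ := stp G.card 0

/-- The rescaling factor of the first step. -/
noncomputable def rs (G : Gr n) : ℝ := 1 / (1 - a0 G) ^ 2

/-- The later steps. -/
noncomputable def stA (G : Gr n) : ℕ → ℝ := stp (G.card - 3)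

/-- The growth base. -/
noncomputable def yy (G : Gr n) (B : ℝ) : ℝ := rs G * (2 * (1 + B))

/-- The logarithmic growth factor of `k` further steps. -/
noncomputable def LL (G : Gr n) (B : ℝ) (k : ℕ) : ℝ := 1 + tot (stA G) k * yy G B

/-- The growth factor of `k` further steps. -/
noncomputable def EL (G : Gr n) (B : ℝ) (k : ℕ) : ℝ := Real.exp (tot (stA G) k * yy G B)

/-- The triangles that leave `e`. -/
noncomputable def away (G : Gr n) (e : Sym2 (Fin n)) : Finset (Finset (Fin n)) :=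
  (triangles G).filter fun s => e ∉ edgesOf s

/-- The change of the predicted deviation at a fixed target. -/
noncomputable def stepD (G : Gr n) (e : Sym2 (Fin n)) (k : ℕ) (s : Finset (Fin n)) : ℝ :=
  Z (G \ edgesOf s) e k - Z G e (k + 1)

/-- The standing hypotheses of one step. -/
structure StepHyp (G : Gr n) (B : ℝ) (e : Sym2 (Fin n)) (k : ℕ) : Prop where
  bnd : Bnd G B
  mem : e ∈ G
  room : 3 * (k + 1) < G.card
  big : 100 ≤ (G.card : ℝ)
  dense : 3 * mS G ≤ (G.card : ℝ)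

lemma prop_eq_propA (G : Gr n) (k : ℕ) (v : Sym2 (Fin n) → ℝ) :
    prop G k v = propA G (stp G.card) k v := by
  induction k with
  | zero => rfl
  | succ k ih => funext f; simp only [prop, propA, ih]

lemma cf_smul (a : ℕ → ℝ) (r : ℝ) (k : ℕ) :
    ∀ j, cf (fun l => r * a l) k j = r ^ j * cf a k j := by
  induction k with
  | zero => intro j; rcases j with _ | j <;> simp [cf]
  | succ k ih =>
    intro j
    rcases j with _ | j
    · simp [cf, ih]
    · simp only [cf, ih, Nat.add_sub_cancel, Nat.succ_ne_zero, if_false]; ring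

section

variable {G : Gr n} {B : ℝ} {e : Sym2 (Fin n)} {k : ℕ}

lemma StepHyp.mpos (H : StepHyp G B e k) : 0 < mS G := by linarith [H.bnd.pos]

lemma StepHyp.Epos (H : StepHyp G B e k) : (0 : ℝ) < G.card := by linarith [H.big]

lemma StepHyp.a0_bounds (H : StepHyp G B e k) :
    0 < a0 G ∧ a0 G ≤ 1 / 30 ∧ mS G * a0 G ≤ 1 := by
  have := H.Epos
  refine ⟨by unfold a0; positivity, ?_, ?_⟩
  · rw [a0, div_le_iff₀ this]; linarith [H.big]
  · rw [a0, ← mul_div_assoc, div_le_one this]; linarith [H.dense]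

lemma StepHyp.b0_bounds (H : StepHyp G B e k) :
    0 ≤ b0 G ∧ b0 G ≤ 2 * a0 G ∧ |b0 G - a0 G| ≤ 2 * a0 G ^ 2 := by
  have hE := H.big
  have hb : b0 G = 3 / ((G.card : ℝ) - 3) := by simp [b0, stp]
  have h1 : 0 < (G.card : ℝ) - 3 := by linarith
  have h2 : 0 < (G.card : ℝ) := by linarith
  have hd : b0 G - a0 G = 9 / (((G.card : ℝ) - 3) * G.card) := by
    rw [hb, a0]; field_simp; ring
  refine ⟨by rw [hb]; positivity, ?_, ?_⟩
  · rw [hb, a0, ← mul_div_assoc, div_le_div_iff₀ h1 h2]; linarith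
  · rw [hd, abs_of_nonneg (by positivity), a0, div_pow, ← mul_div_assoc,
      div_le_div_iff₀ (by positivity) (by positivity)]
    nlinarith [mul_le_mul_of_nonneg_right (show (G.card : ℝ) / 2 ≤ (G.card : ℝ) - 3 by linarith) h2.le]

lemma StepHyp.rs_bounds (H : StepHyp G B e k) :
    1 ≤ rs G ∧ rs G ≤ 5 / 4 ∧ rs G - 1 ≤ 3 * a0 G ∧
      0 ≤ rs G - 1 - 2 * a0 G ∧ rs G - 1 - 2 * a0 G ≤ 4 * a0 G ^ 2 := by
  obtain ⟨h0, h1, -⟩ := H.a0_bounds
  have hq : 0 < (1 - a0 G) ^ 2 := by nlinarith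
  have key : rs G - 1 - 2 * a0 G = a0 G ^ 2 * (3 - 2 * a0 G) / (1 - a0 G) ^ 2 := by
    rw [rs, eq_div_iff hq.ne', sub_mul, sub_mul, div_mul_cancel₀ _ hq.ne']; ring
  have hq' : 9 / 10 ≤ (1 - a0 G) ^ 2 := by nlinarith
  have k0 : 0 ≤ rs G - 1 - 2 * a0 G := by
    rw [key]
    have : 0 ≤ 3 - 2 * a0 G := by linarith
    positivity
  have k4 : rs G - 1 - 2 * a0 G ≤ 4 * a0 G ^ 2 := by
    rw [key, div_le_iff₀ hq]
    nlinarith [mul_le_mul_of_nonneg_left hq' (sq_nonneg (a0 G)), pow_nonneg h0.le 3]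
  have h2 : a0 G ^ 2 ≤ 1 / 30 * a0 G := by nlinarith
  exact ⟨by linarith, by linarith, by linarith, k0, k4⟩

lemma StepHyp.mS_step (H : StepHyp G B e k) {s : Finset (Fin n)} (hs : s ∈ triangles G) :
    mS G / mS (G \ edgesOf s) = rs G := by
  have hc : ((G \ edgesOf s).card : ℝ) = G.card - 3 := by
    rw [eq_sub_iff_add_eq]; exact_mod_cast card_step hs
  have hm := H.mpos
  have hE := H.Epos
  have hn : (n : ℝ) ≠ 0 := by
    intro h
    rw [mS, mI, h] at hm
    simp at hm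
  have : (G.card : ℝ) - 3 ≠ 0 := by linarith [H.big]
  rw [mS, mS, mI, mI, hc, rs, a0]
  field_simp

lemma StepHyp.rpow_bounds (H : StepHyp G B e k) (j : ℕ) :
    1 ≤ rs G ^ j ∧ rs G ^ j - 1 ≤ 3 * j * a0 G * rs G ^ j ∧
      |rs G ^ j - 1 - 2 * j * a0 G| ≤ 9 * ((j : ℝ) + 1) ^ 2 * a0 G ^ 2 * rs G ^ j := by
  obtain ⟨r1, r2, r3, r4, r5⟩ := H.rs_bounds
  obtain ⟨ha, ha1, -⟩ := H.a0_bounds
  generalize rs G = r at *
  generalize a0 G = a at *
  have one : ∀ i : ℕ, 1 ≤ r ^ i := fun i => one_le_pow₀ r1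
  have A : ∀ i : ℕ, r ^ i - 1 ≤ i * (r - 1) * r ^ i := by
    intro i
    induction i with
    | zero => simp
    | succ i ih =>
      rw [pow_succ]; push_cast
      nlinarith [one i, mul_le_mul_of_nonneg_left ih (show 0 ≤ r by linarith),
        mul_nonneg (sub_nonneg.2 r1) (show 0 ≤ r ^ i * r - 1 by nlinarith [one i])]
  have D : ∀ i : ℕ, 0 ≤ r ^ i - 1 - i * (r - 1) ∧
      r ^ i - 1 - i * (r - 1) ≤ (i : ℝ) ^ 2 * (r - 1) ^ 2 * r ^ i := by
    intro i
    induction i with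
    | zero => simp
    | succ i ih =>
      rw [pow_succ]; push_cast
      have h0 : r ^ i * r - 1 - ((i : ℝ) + 1) * (r - 1) =
          r * (r ^ i - 1 - i * (r - 1)) + i * (r - 1) ^ 2 := by ring
      rw [h0]
      constructor
      · have := mul_nonneg (show 0 ≤ r by linarith) ih.1
        positivity
      · have h1 := mul_le_mul_of_nonneg_left ih.2 (show 0 ≤ r by linarith)
        have h2 : (i : ℝ) * (r - 1) ^ 2 ≤ (2 * i + 1) * (r - 1) ^ 2 * (r ^ i * r) := by
          have : 1 ≤ r ^ i * r := by nlinarith [one i]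
          nlinarith [mul_le_mul_of_nonneg_left this
            (show 0 ≤ (2 * (i : ℝ) + 1) * (r - 1) ^ 2 by positivity),
            mul_nonneg (show 0 ≤ (i : ℝ) + 1 by positivity) (sq_nonneg (r - 1))]
        nlinarith
  refine ⟨one j, (A j).trans ?_, ?_⟩
  · have := one j
    rw [show 3 * (j : ℝ) * a = (j : ℝ) * (3 * a) by ring]
    gcongr
  · rw [show r ^ j - 1 - 2 * (j : ℝ) * a = (r ^ j - 1 - j * (r - 1)) + j * (r - 1 - 2 * a) by ring,
      abs_of_nonneg (by have := (D j).1; positivity)]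
    have h1 : (r - 1) ^ 2 ≤ 9 * a ^ 2 := by nlinarith
    have h2 := (D j).2.trans
      (mul_le_mul_of_nonneg_right (mul_le_mul_of_nonneg_left h1 (sq_nonneg (j : ℝ)))
        (show 0 ≤ r ^ j by linarith [one j]))
    have h3 : (j : ℝ) * (r - 1 - 2 * a) ≤ j * (4 * a ^ 2) * r ^ j :=
      (mul_le_mul_of_nonneg_left r5 (Nat.cast_nonneg j)).trans
        (le_mul_of_one_le_right (by positivity) (one j))
    have h4 : (9 * (j : ℝ) ^ 2 + 4 * j) * (a ^ 2 * r ^ j) ≤
        9 * ((j : ℝ) + 1) ^ 2 * (a ^ 2 * r ^ j) := by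
      have := one j
      gcongr
      nlinarith [Nat.cast_nonneg (α := ℝ) j]
    linarith

/-- Equal functions along the walks give equal sums. -/
lemma wk_congr (I : Ifc) {j : ℕ} {Q : Gr n} {f : Sym2 (Fin n)}
    {φ χ : Gr n → Sym2 (Fin n) → ℝ} (hQ : Q ⊆ G) (hf : f ∈ Q)
    (h : ∀ Q' g, Q' ⊆ G → Q ⊆ Q' → g ∈ Q' → Q'.card ≤ Q.card + 2 * j → φ Q' g = χ Q' g) :
    wk G j Q f φ = wk G j Q f χ :=
  le_antisymm (I.mono G j Q f φ χ hQ hf fun a b c d e' e'' => (h a b c d e' e'').le)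
    (I.mono G j Q f χ φ hQ hf fun a b c d e' e'' => (h a b c d e' e'').ge)

lemma wk_smul (I : Ifc) (j : ℕ) (Q : Gr n) (f : Sym2 (Fin n)) (a : ℝ)
    (φ : Gr n → Sym2 (Fin n) → ℝ) : wk G j Q f (fun Q' g => a * φ Q' g) = a * wk G j Q f φ := by
  have := I.lin G j Q f φ φ a 0
  simpa using this

lemma wk_add (I : Ifc) (j : ℕ) (Q : Gr n) (f : Sym2 (Fin n))
    (φ χ : Gr n → Sym2 (Fin n) → ℝ) :
    wk G j Q f (fun Q' g => φ Q' g + χ Q' g) = wk G j Q f φ + wk G j Q f χ := by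
  have := I.lin G j Q f φ χ 1 1
  simpa using this

lemma wk_zero (I : Ifc) (j : ℕ) (Q : Gr n) (f : Sym2 (Fin n)) :
    wk G j Q f (fun _ _ => 0) = 0 := by
  simpa using wk_smul (G := G) I j Q f 0 (fun _ _ => (0 : ℝ))

lemma wk_sum (I : Ifc) {σ : Type*} (S : Finset σ) (j : ℕ) (Q : Gr n) (f : Sym2 (Fin n))
    (φ : σ → Gr n → Sym2 (Fin n) → ℝ) :
    wk G j Q f (fun Q' g => ∑ s ∈ S, φ s Q' g) = ∑ s ∈ S, wk G j Q f (φ s) := by
  induction S using Finset.induction_on with
  | empty => simpa using wk_zero (G := G) I j Q f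
  | insert a S ha ih => simp only [sum_insert ha, wk_add I, ih]

lemma wk_abs (I : Ifc) (H : StepHyp G B e k) {j : ℕ} {φ χ : Gr n → Sym2 (Fin n) → ℝ}
    (h : ∀ Q g, Q ⊆ G → e ∈ Q → g ∈ Q → (Q.card : ℝ) ≤ 2 * j + 1 → |φ Q g| ≤ χ Q g) :
    |wk G j {e} e φ| ≤ wk G j {e} e χ := by
  have hs : ({e} : Gr n) ⊆ G := singleton_subset_iff.2 H.mem
  have h' : ∀ Q g, Q ⊆ G → {e} ⊆ Q → g ∈ Q → Q.card ≤ ({e} : Gr n).card + 2 * j →
      |φ Q g| ≤ χ Q g := fun Q g a b c d => h Q g a (singleton_subset_iff.1 b) c (by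
    rw [card_singleton] at d
    exact_mod_cast (by omega : Q.card ≤ 2 * j + 1))
  rw [abs_le]
  constructor
  · have := I.mono G j {e} e (fun Q g => (-1) * χ Q g) φ hs (mem_singleton_self e)
      fun Q g a b c d => by linarith [(abs_le.1 (h' Q g a b c d)).1]
    rw [wk_smul I] at this
    linarith
  · exact I.mono G j {e} e φ χ hs (mem_singleton_self e)
      fun Q g a b c d => (abs_le.1 (h' Q g a b c d)).2

lemma wk_abs_const (I : Ifc) (H : StepHyp G B e k) {j : ℕ} {φ : Gr n → Sym2 (Fin n) → ℝ} {A : ℝ}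
    (hA : 0 ≤ A)
    (h : ∀ Q g, Q ⊆ G → e ∈ Q → g ∈ Q → (Q.card : ℝ) ≤ 2 * j + 1 → |φ Q g| ≤ A) :
    |wk G j {e} e φ| ≤ A * (2 * (1 + B)) ^ j := by
  refine (wk_abs I H (χ := fun _ _ => A * 1) fun Q g a b c d => by simpa using h Q g a b c d).trans ?_
  rw [wk_smul I]
  exact mul_le_mul_of_nonneg_left
    (I.mass G B j {e} e H.bnd (singleton_subset_iff.2 H.mem) (mem_singleton_self e)) hA

lemma StepHyp.stA_nonneg (H : StepHyp G B e k) : ∀ l, l < k → 0 ≤ stA G l := by
  intro l hl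
  have := H.room
  have h : (3 * l + 6 : ℕ) ≤ G.card - 1 := by omega
  have h' : ((G.card - 3 : ℕ) : ℝ) = (G.card : ℝ) - 3 := by
    rw [Nat.cast_sub (by omega)]; norm_num
  rw [stA, stp, h']
  have h2 : (3 * l + 6 : ℕ) < G.card := by omega
  have : (3 * (l : ℝ) + 6) < G.card := by exact_mod_cast h2
  have : 0 < (G.card : ℝ) - 3 - 3 * ((l : ℝ) + 1) := by linarith
  positivity

lemma StepHyp.tot_nonneg (H : StepHyp G B e k) : 0 ≤ tot (stA G) k :=
  sum_nonneg fun l hl => H.stA_nonneg l (mem_range.1 hl)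

lemma StepHyp.yy_pos (H : StepHyp G B e k) : 1 ≤ yy G B := by
  have := H.rs_bounds.1
  have := H.bnd.nonneg
  unfold yy
  nlinarith

lemma StepHyp.LL_one (H : StepHyp G B e k) : 1 ≤ LL G B k := by
  have := mul_nonneg H.tot_nonneg (zero_le_one.trans H.yy_pos)
  unfold LL; linarith

lemma StepHyp.LE_one (H : StepHyp G B e k) : 1 ≤ EL G B k :=
  Real.one_le_exp (mul_nonneg H.tot_nonneg (zero_le_one.trans H.yy_pos))

/-- A sum against the coefficients, with polynomially growing terms. -/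
lemma cf_sum_le (I : Ifc) (H : StepHyp G B e k) {i : ℕ} (hi : i ≤ 3) {A : ℝ} (hA : 0 ≤ A)
    {u : ℕ → ℝ} (hu : ∀ j, |u j| ≤ A * ((j : ℝ) + 1) ^ i * (rs G ^ j * (2 * (1 + B)) ^ j)) :
    |∑ j ∈ range (k + 1), cf (stA G) k j * u j| ≤ 6 * A * LL G B k ^ i * EL G B k := by
  refine (abs_sum_le_sum_abs _ _).trans ?_
  have := I.cfBound (stA G) k (yy G B) H.stA_nonneg (zero_le_one.trans H.yy_pos) i hi
  calc ∑ j ∈ range (k + 1), |cf (stA G) k j * u j|
      ≤ ∑ j ∈ range (k + 1), A * (|cf (stA G) k j| * ((j : ℝ) + 1) ^ i * yy G B ^ j) := by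
        refine sum_le_sum fun j _ => ?_
        rw [abs_mul, yy, mul_pow]
        refine (mul_le_mul_of_nonneg_left (hu j) (abs_nonneg _)).trans_eq ?_
        ring
    _ ≤ A * (6 * LL G B k ^ i * EL G B k) := by
        rw [← mul_sum]; exact mul_le_mul_of_nonneg_left this hA
    _ = _ := by ring

/-- The value before the step, as a walk sum. -/
lemma Z_succ_eq (I : Ifc) (H : StepHyp G B e k) :
    Z G e (k + 1) = ∑ j ∈ range (k + 1), cf (stA G) k j *
      wk G j {e} e (fun _ f => dv G f - b0 G * Spectral.apply (nh G) (dv G) f) := by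
  have h3 : 3 ≤ G.card := by have := H.room; omega
  rw [Z, I.split G k (dv G) h3, I.poly]
  refine sum_congr rfl fun j _ => ?_
  rw [I.indep G j {e} e fun f => dv G f - b0 G * Spectral.apply (nh G) (dv G) f]
  rfl

/-- The value after the step, as a walk sum. -/
lemma Z_step_eq (I : Ifc) (H : StepHyp G B e k) {s : Finset (Fin n)} (hs : s ∈ away G e) :
    Z (G \ edgesOf s) e k = ∑ j ∈ range (k + 1), cf (stA G) k j * (rs G ^ j *
      wk G j {e} e (fun Q f => if Disjoint Q (edgesOf s) then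
        rs G * (1 + dv G f) - 1 - rs G * Spectral.apply (nh G) (ind (edgesOf s)) f else 0)) := by
  obtain ⟨hs, he⟩ := mem_filter.1 hs
  have h3 : 3 < G.card := by have := H.room; omega
  have hc : (G \ edgesOf s).card = G.card - 3 := by have := card_step hs; omega
  rw [Z, prop_eq_propA, I.poly, hc]
  refine sum_congr rfl fun j _ => ?_
  rw [I.iterEq G s e _ j hs H.mem he h3 H.mpos, H.mS_step hs, stA]
  refine congrArg (cf (stp (G.card - 3)) k j * ·) (congrArg (rs G ^ j * ·) ?_)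
  refine wk_congr I (singleton_subset_iff.2 H.mem) (mem_singleton_self e) fun Q f hQ _ hf _ => ?_
  by_cases hd : Disjoint Q (edgesOf s)
  · rw [if_pos hd, if_pos hd, I.devEq G s f hs (hQ hf) (Finset.disjoint_left.1 hd hf) h3 H.mpos,
      H.mS_step hs]
  · rw [if_neg hd, if_neg hd]

lemma apply_one (f : Sym2 (Fin n)) (hf : f ∈ G) (hm : 0 < mS G) :
    Spectral.apply (nh G) (ind G) f = 2 * (1 + dv G f) := by
  have hrow := Spectral.row_sum (S := triangles G) (inc := edgesOf)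
    (fun t ht => card_edgesOf (card_of_mem_triangles ht)) f
  have hz : ∀ g, nh G f g * ind G g = nh G f g := by
    intro g
    by_cases hg : g ∈ G
    · rw [ind, if_pos hg, mul_one]
    · have : Spectral.adj (triangles G) edgesOf f g = 0 := by
        unfold Spectral.adj
        split_ifs
        · rfl
        · rw [Nat.cast_eq_zero, card_eq_zero, filter_eq_empty_iff]
          exact fun {t} ht h => hg (edgesOf_subset ht h.2)
      rw [nh, this]; simp
  simp only [Spectral.apply, hz]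
  simp only [nh, ← sum_div, hrow]
  rw [dv, if_pos hf, cd, Spectral.deg]
  field_simp
  ring

lemma sum_cd_eq (G : Gr n) : ∑ f ∈ G, cd G f = 3 * ((triangles G).card : ℝ) := by
  simp only [cd, card_filter, Nat.cast_sum]
  rw [sum_comm, mul_comm, ← nsmul_eq_mul, ← sum_const]
  refine sum_congr rfl fun t ht => ?_
  rw [← Nat.cast_sum, ← card_filter, filter_mem_eq_inter, inter_eq_right.2 (edgesOf_subset ht),
    card_edgesOf (card_of_mem_triangles ht)]
  norm_num

lemma cd_eq (f : Sym2 (Fin n)) (hf : f ∈ G) (hm : 0 < mS G) :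
    cd G f = mS G * (1 + dv G f) := by
  rw [dv, if_pos hf]; field_simp; ring

/-- The relative deviation of the number of triangles. -/
noncomputable def mean (G : Gr n) : ℝ :=
  3 * ((triangles G).card : ℝ) / (G.card * mS G) - 1

lemma StepHyp.mean_le (H : StepHyp G B e k) : |mean G| ≤ B := by
  have hm := H.mpos
  have hE := H.Epos
  have : mean G = (∑ f ∈ G, dv G f) / G.card := by
    have h : ∑ f ∈ G, dv G f = ∑ f ∈ G, (cd G f / mS G - 1) :=
      sum_congr rfl fun f hf => by rw [dv, if_pos hf]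
    rw [h, sum_sub_distrib, ← sum_div, sum_cd_eq, sum_const, nsmul_one, mean]
    field_simp
  rw [this, abs_div, abs_of_pos hE, div_le_iff₀ hE]
  refine (abs_sum_le_sum_abs _ _).trans ?_
  refine (sum_le_card_nsmul _ _ B fun f hf => H.bnd.dev f hf).trans_eq ?_
  rw [nsmul_eq_mul, mul_comm]

lemma StepHyp.card_T (H : StepHyp G B e k) :
    ((triangles G).card : ℝ) * a0 G = mS G * (1 + mean G) := by
  have := H.mpos; have := H.Epos
  rw [a0, mean]; field_simp; ring

lemma apply_nh_sub (v : Sym2 (Fin n) → ℝ) (f : Sym2 (Fin n)) :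
    Spectral.apply (nh G) (fun g => ind G g + v g) f =
      Spectral.apply (nh G) (ind G) f + Spectral.apply (nh G) v f := by
  simp only [Spectral.apply, mul_add, sum_add_distrib]

lemma StepHyp.apply_dv_le (H : StepHyp G B e k) {f : Sym2 (Fin n)} (hf : f ∈ G) :
    |Spectral.apply (nh G) (dv G) f| ≤ 3 * B := by
  have hB := H.bnd.nonneg
  have hle : |Spectral.apply (nh G) (dv G) f| ≤ B * Spectral.apply (nh G) (ind G) f := by
    simp only [Spectral.apply, mul_sum]
    refine (abs_sum_le_sum_abs _ _).trans (sum_le_sum fun g _ => ?_)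
    have h0 : 0 ≤ nh G f g := div_nonneg (Spectral.adj_nonneg f g) H.mpos.le
    rw [abs_mul, abs_of_nonneg h0]
    by_cases hg : g ∈ G
    · rw [ind, if_pos hg, mul_one, mul_comm B]
      exact mul_le_mul_of_nonneg_left (H.bnd.dev g hg) h0
    · simp [dv, ind, hg]
  rw [apply_one f hf H.mpos] at hle
  refine hle.trans ?_
  have := (abs_le.1 (H.bnd.dev f hf)).2
  nlinarith [H.bnd.le, mul_le_mul_of_nonneg_left (show 2 * (1 + dv G f) ≤ 3 by linarith [H.bnd.le]) hB]

/-- The coincidence deficit times the deviation. -/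
noncomputable def defTerm (B : ℝ) (j : ℕ) (Q : Gr n) : ℝ := B * (2 * j + 1 - (Q.card : ℝ))


lemma abs_mul_le' {x y X Y : ℝ} (hx : |x| ≤ X) (hy : |y| ≤ Y) : |x * y| ≤ X * Y := by
  rw [abs_mul]; exact mul_le_mul hx hy (abs_nonneg _) ((abs_nonneg _).trans hx)

lemma mul_small {T m a x c : ℝ} (hm : 0 ≤ m) (ha : 0 < a) (hma : m * a ≤ 1)
    (hTa : |T * a| ≤ 2 * m) (hc : 0 ≤ c) (hx : |x| ≤ c * a ^ 2) : |T * x| ≤ 2 * c := by
  have h1 : |T * x| = |T * a| * |x / a| := by rw [← abs_mul]; field_simp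
  rw [h1]
  refine (mul_le_mul hTa (show |x / a| ≤ c * a from ?_) (abs_nonneg _) (by positivity)).trans ?_
  · rw [abs_div, abs_of_pos ha, div_le_iff₀ ha]
    exact hx.trans_eq (by ring)
  · rw [show 2 * m * (c * a) = 2 * c * (m * a) by ring]
    exact mul_le_of_le_one_right (mul_nonneg (by norm_num) hc) hma

lemma drift_hit {m a q σ B J : ℝ} (hm : 0 ≤ m) (ha : 0 ≤ a) (ha1 : a ≤ 1 / 30)
    (hma : m * a ≤ 1) (hB : 0 ≤ B) (hB1 : B ≤ 1 / 4) (hJ : 1 ≤ J) (hq : 0 ≤ q) (hqJ : q ≤ 2 * J)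
    (hσ : |σ| ≤ m * q * B + q ^ 2) :
    |σ| ≤ 2 * J * (m * B) + 4 * J ^ 2 ∧ |m * q + σ| * a ≤ 4 * J ^ 2 := by
  have hq3 : q ^ 2 ≤ (2 * J) ^ 2 := pow_le_pow_left₀ hq hqJ 2
  have hσ' : |σ| ≤ 2 * J * (m * B) + 4 * J ^ 2 := by
    have := mul_le_mul_of_nonneg_right hqJ (mul_nonneg hm hB)
    linarith
  refine ⟨hσ', ?_⟩
  have h1 : |m * q + σ| ≤ m * (3 * J) + 4 * J ^ 2 := by
    refine (abs_add_le _ _).trans ?_
    rw [abs_of_nonneg (mul_nonneg hm hq)]
    have := mul_le_mul_of_nonneg_left hqJ hm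
    have := mul_le_mul_of_nonneg_left hB1 (mul_nonneg (zero_le_one.trans hJ) hm)
    nlinarith
  refine (mul_le_mul_of_nonneg_right h1 ha).trans ?_
  have e : (m * (3 * J) + 4 * J ^ 2) * a = 3 * J * (m * a) + 4 * J ^ 2 * a := by ring
  rw [e]
  have := mul_le_mul_of_nonneg_left hma (show 0 ≤ 3 * J by linarith)
  have := mul_le_mul_of_nonneg_left ha1 (show 0 ≤ 4 * J ^ 2 by positivity)
  nlinarith

lemma drift_rest {T m μ a r J q σ ρ d N : ℝ} (hm : 0 ≤ m) (ha : 0 < a) (ha1 : a ≤ 1 / 30)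
    (hma : m * a ≤ 1) (hTa : |T * a| ≤ 2 * m) (hμ : |μ| ≤ 1 / 4) (hd : |d| ≤ 1 / 4)
    (hd1 : |1 + d| ≤ 2) (hN : |N| ≤ 3 / 4) (hN5 : |2 * (1 + d) + N| ≤ 5)
    (hr0 : |r - 1| ≤ 3 * a) (hr : |r| ≤ 5 / 4) (hr2 : |r - 1 - 2 * a| ≤ 4 * a ^ 2) (hJ : 1 ≤ J)
    (hq : q ≤ 2 * J) (hK : |m * q + σ| * a ≤ 4 * J ^ 2) (hρ : |ρ| ≤ 8 * q) :
    |-(m * q + σ) * d + T * (r - 1 - 2 * a) * (1 + d) + 2 * m * μ * (1 + d) -
      (m * q + σ) * (r - 1) * (1 + d) - m * N - (r - 1) * m * (2 * (1 + d) + N) - r * ρ| * a ≤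
      16 * J ^ 2 := by
  have hJ2 : J ≤ J ^ 2 := by nlinarith
  have y1 : |-(m * q + σ) * d| * a ≤ J ^ 2 := by
    rw [abs_mul, abs_neg]
    calc |m * q + σ| * |d| * a = |m * q + σ| * a * |d| := by ring
      _ ≤ 4 * J ^ 2 * (1 / 4) := by gcongr
      _ = _ := by ring
  have y2 : |T * (r - 1 - 2 * a) * (1 + d)| * a ≤ 1 := by
    refine (mul_le_mul_of_nonneg_right
      (abs_mul_le' (mul_small hm ha hma hTa (by norm_num) hr2) hd1) ha.le).trans ?_
    linarith
  have y3 : |2 * m * μ * (1 + d)| * a ≤ 1 := by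
    have h2m : |2 * m| ≤ 2 * m := (abs_of_nonneg (by linarith)).le
    refine (mul_le_mul_of_nonneg_right (abs_mul_le' (abs_mul_le' h2m hμ) hd1) ha.le).trans ?_
    linarith
  have y4 : |(m * q + σ) * (r - 1) * (1 + d)| * a ≤ J ^ 2 := by
    rw [abs_mul, abs_mul]
    calc |m * q + σ| * |r - 1| * |1 + d| * a = |m * q + σ| * a * |r - 1| * |1 + d| := by ring
      _ ≤ 4 * J ^ 2 * (3 * a) * 2 := by gcongr
      _ = J ^ 2 * (24 * a) := by ring
      _ ≤ J ^ 2 * 1 := by gcongr; linarith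
      _ = _ := mul_one _
  have y5 : |m * N| * a ≤ 1 := by
    refine (mul_le_mul_of_nonneg_right (abs_mul_le' (abs_of_nonneg hm).le hN) ha.le).trans ?_
    linarith
  have y6 : |(r - 1) * m * (2 * (1 + d) + N)| * a ≤ 1 := by
    refine (mul_le_mul_of_nonneg_right
      (abs_mul_le' (abs_mul_le' hr0 (abs_of_nonneg hm).le) hN5) ha.le).trans ?_
    rw [show 3 * a * m * 5 * a = 15 * a * (m * a) by ring]
    exact (mul_le_of_le_one_right (by linarith) hma).trans (by linarith)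
  have y7 : |r * ρ| * a ≤ J := by
    refine (mul_le_mul_of_nonneg_right (abs_mul_le' hr hρ) ha.le).trans ?_
    have := mul_le_mul_of_nonneg_right hq ha.le
    have := mul_le_mul_of_nonneg_left ha1 (show 0 ≤ J by linarith)
    linarith
  have tri : ∀ u1 u2 u3 u4 u5 u6 u7 : ℝ, |u1 + u2 + u3 - u4 - u5 - u6 - u7| ≤
      |u1| + |u2| + |u3| + |u4| + |u5| + |u6| + |u7| := by
    intro u1 u2 u3 u4 u5 u6 u7
    rw [abs_le]
    constructor <;> linarith [le_abs_self u1, neg_abs_le u1, le_abs_self u2, neg_abs_le u2,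
      le_abs_self u3, neg_abs_le u3, le_abs_self u4, neg_abs_le u4, le_abs_self u5,
      neg_abs_le u5, le_abs_self u6, neg_abs_le u6, le_abs_self u7, neg_abs_le u7]
  refine (mul_le_mul_of_nonneg_right (tri _ _ _ _ _ _ _) ha.le).trans ?_
  linarith

lemma drift_terms {T m μ a b r P J q σ ρ d de N B : ℝ} (hm : 0 ≤ m) (ha : 0 < a)
    (hma : m * a ≤ 1) (hb : 0 ≤ b) (hb1 : b ≤ 2 * a)
    (hb2 : |b - a| ≤ 2 * a ^ 2) (hTa : |T * a| ≤ 2 * m) (hB : 0 ≤ B) (hB1 : B ≤ 1 / 4)
    (hμ : |μ| ≤ B) (hd : |d| ≤ B) (hd1 : |1 + d| ≤ 2) (hde : |de| ≤ B) (hde1 : |1 + de| ≤ 2)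
    (hN : |N| ≤ 3 * B) (hN5 : |2 * (1 + d) + N| ≤ 5) (hr0 : |r - 1| ≤ 3 * a) (hr : |r| ≤ 5 / 4)
    (hr2 : |r - 1 - 2 * a| ≤ 4 * a ^ 2)
    (hJ : 1 ≤ J) (hP : 1 ≤ P) (hP2 : |P - 1 - 2 * (J - 1) * a| ≤ 9 * J ^ 2 * a ^ 2 * P)
    (hqJ : q ≤ 2 * J) (hK : |m * q + σ| * a ≤ 4 * J ^ 2)
    (hσ : |σ| ≤ 2 * J * (m * B) + 4 * J ^ 2) (hρ : |ρ| ≤ 8 * q) :
    |(P - 1 - 2 * (J - 1) * a) * (T * a) * (d / a)| + |σ * d| +
      |T * (r - 1 - 2 * a) * (1 + d)| + |2 * (J - 1) * (m * μ * d)| + |2 * (m * μ * d)| +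
      |(m * q + σ) * (r - 1) * (1 + d)| + |(r - 1) * m * (2 * (1 + d) + N)| + |r * ρ| +
      |m * μ * N| + |m * de * d| + |m * (1 + de) * b * N| + |T * (b - a) * N| ≤
      5 * J ^ 2 * P + 10 * J * (m * B ^ 2) + 85 * J ^ 2 := by
  have hJ2 : J ≤ J ^ 2 := by nlinarith
  have c1 : |(P - 1 - 2 * (J - 1) * a) * (T * a) * (d / a)| ≤ 5 * J ^ 2 * P := by
    have h1 : |d / a| ≤ B / a := by rw [abs_div, abs_of_pos ha]; gcongr
    refine (abs_mul_le' (abs_mul_le' hP2 hTa) h1).trans ?_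
    have e : 9 * J ^ 2 * a ^ 2 * P * (2 * m) * (B / a) = 18 * J ^ 2 * P * ((m * a) * B) := by
      field_simp; ring
    rw [e]
    have h0 : 0 ≤ J ^ 2 * P := mul_nonneg (sq_nonneg J) (zero_le_one.trans hP)
    calc 18 * J ^ 2 * P * ((m * a) * B) ≤ 18 * J ^ 2 * P * (1 * (1 / 4)) := by gcongr
      _ ≤ _ := by linarith
  have hmB : m * B * B = m * B ^ 2 := by ring
  have c3 : |σ * d| ≤ 2 * J * (m * B ^ 2) + J ^ 2 := by
    refine (abs_mul_le' hσ hd).trans ?_
    have := mul_le_mul_of_nonneg_left hB1 (show 0 ≤ 4 * J ^ 2 by positivity)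
    linarith
  have c4 : |T * (r - 1 - 2 * a) * (1 + d)| ≤ 16 :=
    (abs_mul_le' (mul_small hm ha hma hTa (by norm_num) hr2) hd1).trans (by norm_num)
  have hmμd : |m * μ * d| ≤ m * B ^ 2 :=
    (abs_mul_le' (abs_mul_le' (abs_of_nonneg hm).le hμ) hd).trans_eq hmB
  have c5 : |2 * (J - 1) * (m * μ * d)| ≤ 2 * J * (m * B ^ 2) :=
    abs_mul_le' (by rw [abs_of_nonneg (by linarith)]; linarith) hmμd
  have c6 : |2 * (m * μ * d)| ≤ 2 * (m * B ^ 2) := abs_mul_le' (le_of_eq abs_two) hmμd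
  have c7 : |(m * q + σ) * (r - 1) * (1 + d)| ≤ 24 * J ^ 2 := by
    rw [abs_mul, abs_mul]
    calc |m * q + σ| * |r - 1| * |1 + d| ≤ |m * q + σ| * (3 * a) * 2 := by gcongr
      _ = 6 * (|m * q + σ| * a) := by ring
      _ ≤ _ := by linarith
  have c8 : |(r - 1) * m * (2 * (1 + d) + N)| ≤ 15 := by
    refine (abs_mul_le' (abs_mul_le' hr0 (abs_of_nonneg hm).le) hN5).trans ?_
    linarith
  have c9 : |r * ρ| ≤ 20 * J := (abs_mul_le' hr hρ).trans (by linarith)
  have c10 : |m * μ * N| ≤ 3 * (m * B ^ 2) :=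
    (abs_mul_le' (abs_mul_le' (abs_of_nonneg hm).le hμ) hN).trans_eq (by ring)
  have c11 : |m * de * d| ≤ m * B ^ 2 :=
    (abs_mul_le' (abs_mul_le' (abs_of_nonneg hm).le hde) hd).trans_eq hmB
  have c12 : |m * (1 + de) * b * N| ≤ 4 := by
    refine (abs_mul_le' (abs_mul_le' (abs_mul_le' (abs_of_nonneg hm).le hde1)
      ((abs_of_nonneg hb).trans_le hb1)) (hN.trans (show 3 * B ≤ 1 by linarith))).trans ?_
    linarith
  have c13 : |T * (b - a) * N| ≤ 4 :=
    (abs_mul_le' (mul_small hm ha hma hTa (by norm_num) hb2)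
      (hN.trans (show 3 * B ≤ 1 by linarith))).trans (by norm_num)
  have hmB2 : 0 ≤ m * B ^ 2 := by positivity
  have := mul_le_mul_of_nonneg_right hJ hmB2
  linarith

/-- The expansion of one walk term of the drift, as real algebra. -/
lemma drift_algebra {T m μ a b r P J q σ ρ d de N B : ℝ} (hm : 1 ≤ m) (ha : 0 < a)
    (ha1 : a ≤ 1 / 30) (hma : m * a ≤ 1) (hb : 0 ≤ b) (hb1 : b ≤ 2 * a)
    (hb2 : |b - a| ≤ 2 * a ^ 2) (hT : T * a = m * (1 + μ)) (hB : 0 ≤ B) (hB1 : B ≤ 1 / 4)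
    (hμ : |μ| ≤ B) (hd : |d| ≤ B) (hde : |de| ≤ B) (hN : |N| ≤ 3 * B) (hr : 1 ≤ r)
    (hr' : r ≤ 5 / 4) (hr1 : r - 1 ≤ 3 * a) (hr2 : |r - 1 - 2 * a| ≤ 4 * a ^ 2)
    (hJ : 1 ≤ J) (hP : 1 ≤ P) (hP1 : |P - 1| ≤ 3 * J * a * P)
    (hP2 : |P - 1 - 2 * (J - 1) * a| ≤ 9 * J ^ 2 * a ^ 2 * P) (hq : 0 ≤ q)
    (hqJ : q ≤ 2 * J - 1) (hσ : |σ| ≤ m * q * B + q ^ 2) (hρ : |ρ| ≤ 8 * q) :
    |P * ((T - (m * q + σ)) * (r * (1 + d) - 1) - r * (m * (2 * (1 + d) + N) + ρ)) -
        (T - m * (1 + de)) * (d - b * N) - 2 * μ * m| ≤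
      300 * J ^ 3 * P * (m * B ^ 2 + 1) + m * (B * (2 * (J - 1) + 1 - q)) := by
  have hm0 : 0 ≤ m := by linarith
  have hd1 : |1 + d| ≤ 2 := by rw [abs_le]; constructor <;> linarith [abs_le.1 hd]
  have hde1 : |1 + de| ≤ 2 := by rw [abs_le]; constructor <;> linarith [abs_le.1 hde]
  have hN5 : |2 * (1 + d) + N| ≤ 5 := by
    rw [abs_le]; constructor <;> linarith [abs_le.1 hd, abs_le.1 hN]
  have hTa : |T * a| ≤ 2 * m := by
    have : |1 + μ| ≤ 2 := by rw [abs_le]; constructor <;> linarith [abs_le.1 hμ]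
    rw [hT]
    exact (abs_mul_le' (abs_of_nonneg hm0).le this).trans_eq (mul_comm _ _)
  have hr0 : |r - 1| ≤ 3 * a := by rw [abs_of_nonneg (by linarith)]; exact hr1
  have hrabs : |r| ≤ 5 / 4 := by rw [abs_of_nonneg (by linarith)]; exact hr'
  have hq2 : q ≤ 2 * J := by linarith
  obtain ⟨hσ', hK⟩ := drift_hit hm0 ha.le ha1 hma hB hB1 hJ hq hq2 hσ
  have cY := drift_rest hm0 ha ha1 hma hTa (hμ.trans hB1) (hd.trans hB1) hd1
    (hN.trans (by linarith)) hN5 hr0 hrabs hr2 hJ hq2 hK hρ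
  have cS := drift_terms hm0 ha hma hb hb1 hb2 hTa hB hB1 hμ hd hd1 hde hde1 hN hN5 hr0 hrabs hr2
    hJ hP hP2 hq2 hK hσ' hρ
  obtain ⟨Y, hY⟩ : ∃ Y : ℝ, Y = -(m * q + σ) * d + T * (r - 1 - 2 * a) * (1 + d) +
      2 * m * μ * (1 + d) - (m * q + σ) * (r - 1) * (1 + d) - m * N -
      (r - 1) * m * (2 * (1 + d) + N) - r * ρ := ⟨_, rfl⟩
  have expand : P * ((T - (m * q + σ)) * (r * (1 + d) - 1) -
        r * (m * (2 * (1 + d) + N) + ρ)) - (T - m * (1 + de)) * (d - b * N) - 2 * μ * m =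
      m * d * (2 * (J - 1) + 1 - q) + (P - 1 - 2 * (J - 1) * a) * (T * a) * (d / a) +
        (P - 1) * Y - σ * d + T * (r - 1 - 2 * a) * (1 + d) + 2 * (J - 1) * (m * μ * d) +
        2 * (m * μ * d) - (m * q + σ) * (r - 1) * (1 + d) -
        (r - 1) * m * (2 * (1 + d) + N) - r * ρ + m * μ * N + m * de * d -
        m * (1 + de) * b * N + T * (b - a) * N := by
    have e0 : (P - 1 - 2 * (J - 1) * a) * (T * a) * (d / a) =
        (P - 1 - 2 * (J - 1) * a) * (T * d) := by field_simp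
    rw [e0, hY]
    linear_combination (2 * P * (1 + d) + N + 2 * (J - 1) * d) * hT
  rw [expand]
  rw [← hY] at cY
  have c0 : |m * d * (2 * (J - 1) + 1 - q)| ≤ m * (B * (2 * (J - 1) + 1 - q)) := by
    rw [← mul_assoc]
    exact abs_mul_le' (abs_mul_le' (abs_of_nonneg hm0).le hd) (abs_of_nonneg (by linarith)).le
  have c2 : |(P - 1) * Y| ≤ 48 * J ^ 3 * P := by
    rw [abs_mul]
    calc |P - 1| * |Y| ≤ 3 * J * a * P * |Y| := mul_le_mul_of_nonneg_right hP1 (abs_nonneg _)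
      _ = 3 * J * P * (|Y| * a) := by ring
      _ ≤ 3 * J * P * (16 * J ^ 2) := mul_le_mul_of_nonneg_left cY (by positivity)
      _ = _ := by ring
  have tri : ∀ u1 u2 u3 u4 u5 u6 u7 u8 u9 u10 u11 u12 u13 u14 : ℝ,
      |u1 + u2 + u3 - u4 + u5 + u6 + u7 - u8 - u9 - u10 + u11 + u12 - u13 + u14| ≤
        |u1| + |u3| + (|u2| + |u4| + |u5| + |u6| + |u7| + |u8| + |u9| + |u10| + |u11| + |u12| +
          |u13| + |u14|) := by
    intro u1 u2 u3 u4 u5 u6 u7 u8 u9 u10 u11 u12 u13 u14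
    rw [abs_le]
    constructor <;> linarith [le_abs_self u1, neg_abs_le u1, le_abs_self u2, neg_abs_le u2,
      le_abs_self u3, neg_abs_le u3, le_abs_self u4, neg_abs_le u4, le_abs_self u5,
      neg_abs_le u5, le_abs_self u6, neg_abs_le u6, le_abs_self u7, neg_abs_le u7,
      le_abs_self u8, neg_abs_le u8, le_abs_self u9, neg_abs_le u9, le_abs_self u10,
      neg_abs_le u10, le_abs_self u11, neg_abs_le u11, le_abs_self u12, neg_abs_le u12,
      le_abs_self u13, neg_abs_le u13, le_abs_self u14, neg_abs_le u14]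
  refine (tri _ _ _ _ _ _ _ _ _ _ _ _ _ _).trans ((add_le_add (add_le_add c0 c2) cS).trans ?_)
  have hJJ : J ^ 2 ≤ J ^ 3 := pow_le_pow_right₀ hJ (by norm_num)
  have hJ3 : J ≤ J ^ 3 := le_self_pow₀ hJ (by norm_num)
  have hJP : J ^ 3 ≤ J ^ 3 * P := le_mul_of_one_le_right (by positivity) hP
  have hJ2P : J ^ 2 * P ≤ J ^ 3 * P := mul_le_mul_of_nonneg_right hJJ (by linarith)
  have hX : J * (m * B ^ 2) ≤ J ^ 3 * P * (m * B ^ 2) :=
    mul_le_mul_of_nonneg_right (hJ3.trans hJP) (by positivity)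
  have hX0 : 0 ≤ J ^ 3 * P * (m * B ^ 2) := by positivity
  linarith

lemma drift_walk (I : Ifc) (H : StepHyp G B e k) (j : ℕ) {Q : Gr n} {f : Sym2 (Fin n)}
    (hQ : Q ⊆ G) (heQ : e ∈ Q) (hf : f ∈ Q) (hcard : (Q.card : ℝ) ≤ 2 * j + 1) :
    |rs G ^ j * (∑ s ∈ away G e, if Disjoint Q (edgesOf s) then
          rs G * (1 + dv G f) - 1 - rs G * Spectral.apply (nh G) (ind (edgesOf s)) f else 0) -
        (away G e).card * (dv G f - b0 G * Spectral.apply (nh G) (dv G) f) - 2 * mean G * mS G| ≤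
      300 * ((j : ℝ) + 1) ^ 3 * rs G ^ j * (mS G * B ^ 2 + 1) +
        mS G * defTerm B j Q := by
  obtain ⟨ha, ha1, hma⟩ := H.a0_bounds
  obtain ⟨hb, hb1, hb2⟩ := H.b0_bounds
  obtain ⟨r1, r2, r3, r4, r5⟩ := H.rs_bounds
  obtain ⟨p1, p2, p3⟩ := H.rpow_bounds j
  have hm := H.mpos
  -- the sum over the triangles that miss `Q`
  have hfilter : (away G e).filter (fun s => Disjoint Q (edgesOf s)) =
      (triangles G).filter fun s => Disjoint Q (edgesOf s) := by
    ext s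
    simp only [away, mem_filter]
    exact ⟨fun h => ⟨h.1.1, h.2⟩, fun h => ⟨⟨h.1, Finset.disjoint_left.1 h.2 heQ⟩, h.2⟩⟩
  obtain ⟨ρ, hρdef, hρ⟩ : ∃ ρ : ℝ, ∑ s ∈ (triangles G).filter (fun s => Disjoint Q (edgesOf s)),
      Spectral.apply (nh G) (ind (edgesOf s)) f =
      mS G * (2 * (1 + dv G f) + Spectral.apply (nh G) (dv G) f) + ρ ∧
      |ρ| ≤ 8 * (Q.card : ℝ) := by
    refine ⟨_, (add_sub_cancel _ _).symm, ?_⟩
    have := I.loss G B Q f H.bnd hQ hf
    rwa [apply_nh_sub, apply_one f (hQ hf) hm] at this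
  obtain ⟨K, hKdef⟩ : ∃ K : ℝ,
      K = (((triangles G).filter fun s => ¬ Disjoint Q (edgesOf s)).card : ℝ) := ⟨_, rfl⟩
  have hND : (((triangles G).filter fun s => Disjoint Q (edgesOf s)).card : ℝ) =
      (triangles G).card - K := by
    rw [hKdef, eq_sub_iff_add_eq]; exact_mod_cast card_filter_add_card_filter_not _
  have hTe : ((away G e).card : ℝ) = (triangles G).card - mS G * (1 + dv G e) := by
    rw [← cd_eq e H.mem hm, eq_sub_iff_add_eq, cd, away, add_comm]
    exact_mod_cast card_filter_add_card_filter_not _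
  obtain ⟨σ, hσdef, hσ⟩ : ∃ σ : ℝ, K = mS G * (Q.card : ℝ) + σ ∧
      |σ| ≤ mS G * (Q.card : ℝ) * B + (Q.card : ℝ) ^ 2 := by
    refine ⟨_, (add_sub_cancel _ _).symm, ?_⟩
    obtain ⟨u1, u2⟩ := I.meet G Q hQ
    rw [← hKdef] at u1 u2
    have hs : |∑ g ∈ Q, cd G g - mS G * (Q.card : ℝ)| ≤ mS G * (Q.card : ℝ) * B := by
      have : ∑ g ∈ Q, cd G g - mS G * (Q.card : ℝ) = ∑ g ∈ Q, mS G * dv G g := by
        rw [sum_congr rfl fun g hg => cd_eq g (hQ hg) hm]
        simp only [mul_add, mul_one, sum_add_distrib, sum_const, nsmul_eq_mul]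
        ring
      rw [this]
      refine (abs_sum_le_sum_abs _ _).trans ?_
      refine (sum_le_card_nsmul _ _ (mS G * B) fun g hg => ?_).trans_eq ?_
      · rw [abs_mul, abs_of_pos hm]; exact mul_le_mul_of_nonneg_left (H.bnd.dev g (hQ hg)) hm.le
      · rw [nsmul_eq_mul]; ring
    have := sq_nonneg (Q.card : ℝ)
    rw [abs_le] at hs ⊢
    constructor <;> linarith
  rw [← sum_filter, hfilter, sum_sub_distrib, sum_const, nsmul_eq_mul, ← mul_sum, hρdef, hND, hTe,
    hσdef]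
  refine (drift_algebra (J := (j : ℝ) + 1) H.bnd.pos ha ha1 hma hb hb1 hb2 H.card_T H.bnd.nonneg
    H.bnd.le H.mean_le (H.bnd.dev f (hQ hf)) (H.bnd.dev e H.mem) (H.apply_dv_le (hQ hf)) r1 r2 r3
    ((abs_of_nonneg r4).trans_le r5) (by linarith [Nat.cast_nonneg (α := ℝ) j]) p1 ?_ ?_
    (Nat.cast_nonneg _) (by linarith) hσ hρ).trans_eq ?_
  · rw [abs_of_nonneg (by linarith)]
    refine p2.trans (mul_le_mul_of_nonneg_right ?_ (by linarith))
    nlinarith
  · simpa using p3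
  · simp only [defTerm]; ring

lemma StepHyp.sum_wk_one (I : Ifc) (H : StepHyp G B e k) :
    ∑ j ∈ range (k + 1), cf (stA G) k j * wk G j {e} e (fun _ _ => 1) =
      propA G (stA G) k (ind G) e := by
  rw [I.poly]
  refine sum_congr rfl fun j _ => congrArg (cf (stA G) k j * ·) ?_
  rw [← I.indep G j {e} e (ind G)]
  exact wk_congr I (singleton_subset_iff.2 H.mem) (mem_singleton_self e)
    fun Q g hQ _ hg _ => (if_pos (hQ hg)).symm

/-- The summed change of a predicted deviation. -/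
theorem drift_bound (I : Ifc) (H : StepHyp G B e k) (hs : ∀ l, l < k → stA G l ≤ 1 / 4) :
    |∑ s ∈ away G e, stepD G e k s| ≤
      2 * B * mS G * ∏ l ∈ range k, (1 - 2 * stA G l) +
        2200 * (mS G * B ^ 2 + 1) * LL G B k ^ 3 * EL G B k := by
  have hB := H.bnd.nonneg
  have hm := H.mpos
  have hm1 := H.bnd.pos
  obtain ⟨ψ, hψ⟩ : ∃ ψ : Sym2 (Fin n) → ℝ,
      ψ = fun f => dv G f - b0 G * Spectral.apply (nh G) (dv G) f := ⟨_, rfl⟩
  obtain ⟨φ, hφ⟩ : ∃ φ : Finset (Fin n) → Gr n → Sym2 (Fin n) → ℝ,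
      φ = fun s Q f => if Disjoint Q (edgesOf s) then
        rs G * (1 + dv G f) - 1 - rs G * Spectral.apply (nh G) (ind (edgesOf s)) f else 0 :=
    ⟨_, rfl⟩
  obtain ⟨R, hR⟩ : ∃ R : ℕ → Gr n → Sym2 (Fin n) → ℝ, R = fun j Q f =>
      rs G ^ j * (∑ s ∈ away G e, φ s Q f) - (away G e).card * ψ f - 2 * mean G * mS G :=
    ⟨_, rfl⟩
  have key : ∑ s ∈ away G e, stepD G e k s =
      ∑ j ∈ range (k + 1), cf (stA G) k j * wk G j {e} e (R j) +
        2 * mean G * mS G * propA G (stA G) k (ind G) e := by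
    simp only [stepD, sum_sub_distrib]
    rw [sum_congr rfl fun s hs => Z_step_eq I H hs, Z_succ_eq I H, sum_const, nsmul_eq_mul,
      mul_sum, sum_comm, ← H.sum_wk_one I, mul_sum, ← sum_add_distrib, ← sum_sub_distrib]
    refine sum_congr rfl fun j _ => ?_
    have hlin : wk G j {e} e (R j) =
        rs G ^ j * (∑ s ∈ away G e, wk G j {e} e (φ s)) -
          (away G e).card * wk G j {e} e (fun _ f => ψ f) -
          2 * mean G * mS G * wk G j {e} e (fun _ _ => 1) := by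
      rw [hR, ← wk_sum I]
      have h1 := I.lin G j {e} e
        (fun Q f => rs G ^ j * (∑ s ∈ away G e, φ s Q f) - (away G e).card * ψ f)
        (fun _ _ => (1 : ℝ)) 1 (-(2 * mean G * mS G))
      have h2 := I.lin G j {e} e (fun Q f => ∑ s ∈ away G e, φ s Q f) (fun _ f => ψ f)
        (rs G ^ j) (-((away G e).card : ℝ))
      simp only [one_mul, neg_mul, mul_one, ← sub_eq_add_neg] at h1 h2
      rw [h1, h2]
    rw [hlin, ← mul_sum, hφ, hψ, ← mul_sum]
    ring
  rw [key]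
  have hterm : ∀ j : ℕ, |wk G j {e} e (R j)| ≤
      302 * (mS G * B ^ 2 + 1) * ((j : ℝ) + 1) ^ 3 * (rs G ^ j * (2 * (1 + B)) ^ j) := by
    intro j
    have hr : 1 ≤ rs G ^ j := (H.rpow_bounds j).1
    obtain ⟨Cj, hCj⟩ : ∃ Cj : ℝ,
        Cj = 300 * ((j : ℝ) + 1) ^ 3 * rs G ^ j * (mS G * B ^ 2 + 1) := ⟨_, rfl⟩
    have h1 := wk_abs I H (j := j) (φ := R j)
      (χ := fun Q _ => Cj * 1 + mS G * B * (2 * j + 1 - (Q.card : ℝ))) fun Q g hQ he hg hc => by
        have := drift_walk I H j hQ he hg hc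
        rw [hR, hφ, hψ, hCj]
        simp only [defTerm, ← mul_assoc] at this ⊢
        simpa using this
    have h2 : wk G j {e} e (fun Q _ => Cj * 1 + mS G * B * (2 * j + 1 - (Q.card : ℝ))) ≤
        Cj * (2 * (1 + B)) ^ j + B * (8 * (j : ℝ) * (j + 1) * (2 * (1 + B)) ^ j) := by
      rw [I.lin]
      refine add_le_add (mul_le_mul_of_nonneg_left
        (I.mass G B j {e} e H.bnd (singleton_subset_iff.2 H.mem) (mem_singleton_self e))
        (by rw [hCj]; positivity)) ?_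
      calc mS G * B * wk G j {e} e (fun Q' _ => 2 * j + 1 - (Q'.card : ℝ))
          ≤ mS G * B * (8 * (j : ℝ) * (j + 1) * (2 * (1 + B)) ^ j / mS G) :=
            mul_le_mul_of_nonneg_left (I.deficit G B j e H.bnd H.mem) (mul_nonneg hm.le hB)
        _ = _ := by field_simp
    refine (h1.trans h2).trans ?_
    have hy : 0 ≤ (2 * (1 + B)) ^ j := by positivity
    have hJ : (j : ℝ) * (j + 1) ≤ ((j : ℝ) + 1) ^ 3 := by
      nlinarith [Nat.cast_nonneg (α := ℝ) j, sq_nonneg (j : ℝ)]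
    have hB2 : 8 * B ≤ 2 * (mS G * B ^ 2 + 1) := by nlinarith [H.bnd.le]
    have h3 : B * (8 * (j : ℝ) * (j + 1) * (2 * (1 + B)) ^ j) ≤
        2 * (mS G * B ^ 2 + 1) * ((j : ℝ) + 1) ^ 3 * (rs G ^ j * (2 * (1 + B)) ^ j) := by
      calc B * (8 * (j : ℝ) * (j + 1) * (2 * (1 + B)) ^ j)
          = 8 * B * ((j : ℝ) * (j + 1)) * (1 * (2 * (1 + B)) ^ j) := by ring
        _ ≤ _ := by gcongr
    rw [hCj]
    linarith
  have hc := cf_sum_le I H (i := 3) le_rfl (A := 302 * (mS G * B ^ 2 + 1)) (by positivity) hterm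
  have h1 := I.one G B (stA G) k e H.bnd H.mem fun l hl => ⟨H.stA_nonneg l hl, hs l hl⟩
  have hprod : 0 ≤ ∏ l ∈ range k, (1 - 2 * stA G l) :=
    prod_nonneg fun l hl => by linarith [hs l (mem_range.1 hl)]
  have hexp : Real.exp (tot (stA G) k * (2 * (1 + B))) ≤ EL G B k := by
    refine Real.exp_le_exp.2 (mul_le_mul_of_nonneg_left ?_ H.tot_nonneg)
    rw [yy]; exact le_mul_of_one_le_left (by linarith) H.rs_bounds.1
  have hmain : |2 * mean G * mS G * propA G (stA G) k (ind G) e| ≤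
      2 * B * mS G * (∏ l ∈ range k, (1 - 2 * stA G l) + 2 * tot (stA G) k * B * EL G B k) := by
    refine abs_mul_le' ?_ ?_
    · rw [abs_mul, abs_mul, abs_two, abs_of_pos hm]
      exact mul_le_mul_of_nonneg_right (mul_le_mul_of_nonneg_left H.mean_le zero_le_two) hm.le
    · have h2 := mul_le_mul_of_nonneg_left hexp
        (show 0 ≤ 2 * tot (stA G) k * B from by have := H.tot_nonneg; positivity)
      rw [abs_le] at h1 ⊢
      constructor <;> linarith
  have hτ : tot (stA G) k ≤ LL G B k ^ 3 := by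
    refine le_trans ?_ (le_self_pow₀ H.LL_one (by norm_num))
    unfold LL
    linarith [le_mul_of_one_le_right H.tot_nonneg H.yy_pos]
  refine (abs_add_le _ _).trans ((add_le_add hc hmain).trans ?_)
  have h0 : 0 ≤ EL G B k := zero_le_one.trans H.LE_one
  have h2 : mS G * B ^ 2 * tot (stA G) k * EL G B k ≤
      (mS G * B ^ 2 + 1) * LL G B k ^ 3 * EL G B k := by
    refine mul_le_mul_of_nonneg_right (mul_le_mul (by linarith) hτ H.tot_nonneg ?_) h0
    positivity
  have h3 : 0 ≤ (mS G * B ^ 2 + 1) * LL G B k ^ 3 * EL G B k := by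
    have := H.LL_one; positivity
  linarith

/-- The indicator that a triangle meets the edges seen. -/
noncomputable def hitInd (s : Finset (Fin n)) (Q : Gr n) : ℝ :=
  if Disjoint Q (edgesOf s) then 0 else 1

lemma hitInd_nonneg (s : Finset (Fin n)) (Q : Gr n) : 0 ≤ hitInd s Q := by
  unfold hitInd; split_ifs <;> norm_num

lemma hitInd_le (s : Finset (Fin n)) (Q : Gr n) : hitInd s Q ≤ ∑ h ∈ edgesOf s, ind Q h := by
  unfold hitInd
  split_ifs with h
  · exact sum_nonneg fun g _ => by unfold ind; split_ifs <;> norm_num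
  · obtain ⟨g, hg1, hg2⟩ := Finset.not_disjoint_iff.1 h
    have := single_le_sum (f := fun x => ind Q x)
      (fun x _ => by unfold ind; split_ifs <;> norm_num) hg2
    simpa [ind, hg1] using this

/-- The weight with which a triangle hits the walks from `e`. -/
noncomputable def hitW (G : Gr n) (e : Sym2 (Fin n)) (k : ℕ) (s : Finset (Fin n)) : ℝ :=
  ∑ j ∈ range (k + 1), |cf (stA G) k j| * (rs G ^ j * wk G j {e} e (fun Q _ => hitInd s Q))

lemma hitW_bounds (I : Ifc) (H : StepHyp G B e k) :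
    (∀ s ∈ away G e, 0 ≤ hitW G e k s ∧ hitW G e k s ≤ 72 * LL G B k * EL G B k / mS G) ∧
      ∑ s ∈ away G e, hitW G e k s ≤ 18 * mS G * LL G B k * EL G B k := by
  have hm := H.mpos
  have hB := H.bnd.nonneg
  have hs : ({e} : Gr n) ⊆ G := singleton_subset_iff.2 H.mem
  have hpow : ∀ j, 0 ≤ rs G ^ j := fun j => zero_le_one.trans (H.rpow_bounds j).1
  have sumcf : ∀ A : ℝ, 0 ≤ A → ∀ u : ℕ → ℝ,
      (∀ j, u j ≤ A * ((j : ℝ) + 1) * (rs G ^ j * (2 * (1 + B)) ^ j)) →
      ∑ j ∈ range (k + 1), |cf (stA G) k j| * u j ≤ 6 * A * LL G B k * EL G B k := by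
    intro A hA u hu
    have := I.cfBound (stA G) k (yy G B) H.stA_nonneg (zero_le_one.trans H.yy_pos) 1 (by norm_num)
    calc ∑ j ∈ range (k + 1), |cf (stA G) k j| * u j
        ≤ ∑ j ∈ range (k + 1), A * (|cf (stA G) k j| * ((j : ℝ) + 1) ^ 1 * yy G B ^ j) := by
          refine sum_le_sum fun j _ => ?_
          rw [yy, mul_pow, pow_one]
          refine (mul_le_mul_of_nonneg_left (hu j) (abs_nonneg _)).trans_eq ?_
          ring
      _ ≤ A * (6 * LL G B k ^ 1 * EL G B k) := by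
          rw [← mul_sum]; exact mul_le_mul_of_nonneg_left this hA
      _ = _ := by ring
  refine ⟨fun s hse => ⟨?_, ?_⟩, ?_⟩
  · refine sum_nonneg fun j _ => mul_nonneg (abs_nonneg _) (mul_nonneg (hpow j) ?_)
    have := I.mono G j {e} e (fun _ _ => (0 : ℝ)) (fun Q _ => hitInd s Q) hs (mem_singleton_self e)
      fun Q g _ _ _ _ => hitInd_nonneg s Q
    rwa [wk_zero I] at this
  · refine (sumcf (12 / mS G) (by positivity) _ fun j => ?_).trans_eq (by ring)
    have h1 : wk G j {e} e (fun Q _ => hitInd s Q) ≤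
        ∑ h ∈ edgesOf s, wk G j {e} e (fun Q _ => ind Q h) := by
      rw [← wk_sum I]
      exact I.mono G j {e} e _ _ hs (mem_singleton_self e) fun Q g _ _ _ _ => hitInd_le s Q
    have h2 : ∀ h ∈ edgesOf s, wk G j {e} e (fun Q _ => ind Q h) ≤
        4 * j * (2 * (1 + B)) ^ j / mS G := fun h hh =>
      I.hit G B j {e} e h H.bnd hs (mem_singleton_self e) fun he => by
        rw [mem_singleton] at he
        exact (mem_filter.1 hse).2 (he ▸ hh)
    have h3 := h1.trans (sum_le_card_nsmul _ _ _ h2)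
    rw [card_edgesOf (card_of_mem_triangles (mem_filter.1 hse).1), nsmul_eq_mul] at h3
    refine (mul_le_mul_of_nonneg_left h3 (hpow j)).trans ?_
    push_cast
    calc rs G ^ j * (3 * (4 * (j : ℝ) * (2 * (1 + B)) ^ j / mS G))
        = 12 / mS G * j * (rs G ^ j * (2 * (1 + B)) ^ j) := by ring
      _ ≤ 12 / mS G * ((j : ℝ) + 1) * (rs G ^ j * (2 * (1 + B)) ^ j) := by
          refine mul_le_mul_of_nonneg_right (mul_le_mul_of_nonneg_left (by linarith) ?_) ?_
          · positivity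
          · exact mul_nonneg (hpow j) (by positivity)
  · rw [show ∑ s ∈ away G e, hitW G e k s = ∑ j ∈ range (k + 1), |cf (stA G) k j| *
        (rs G ^ j * ∑ s ∈ away G e, wk G j {e} e (fun Q _ => hitInd s Q)) by
      simp only [hitW, mul_sum]; exact sum_comm]
    refine (sumcf (3 * mS G) (by positivity) _ fun j => ?_).trans_eq (by ring)
    rw [← wk_sum I]
    have h1 : wk G j {e} e (fun Q _ => ∑ s ∈ away G e, hitInd s Q) ≤
        3 * mS G * ((j : ℝ) + 1) * (2 * (1 + B)) ^ j := by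
      refine (le_abs_self _).trans (wk_abs_const I H (by positivity) fun Q g hQ _ _ hc => ?_)
      rw [abs_of_nonneg (sum_nonneg fun s _ => hitInd_nonneg s Q)]
      calc ∑ s ∈ away G e, hitInd s Q ≤ ∑ s ∈ triangles G, hitInd s Q :=
            sum_le_sum_of_subset_of_nonneg (filter_subset _ _) fun s _ _ => hitInd_nonneg s Q
        _ = (((triangles G).filter fun s => ¬ Disjoint Q (edgesOf s)).card : ℝ) := by
            rw [← sum_boole]
            exact sum_congr rfl fun s _ => by unfold hitInd; split_ifs <;> rfl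
        _ ≤ ∑ g ∈ Q, cd G g := (I.meet G Q hQ).1
        _ ≤ (Q.card : ℝ) * (3 / 2 * mS G) := by
            refine (sum_le_card_nsmul _ _ (3 / 2 * mS G) fun g hg => ?_).trans_eq (nsmul_eq_mul _ _)
            rw [cd_eq g (hQ hg) hm, mul_comm]
            have := (abs_le.1 (H.bnd.dev g (hQ hg))).2
            exact mul_le_mul_of_nonneg_right (by linarith [H.bnd.le]) hm.le
        _ ≤ _ := by
            refine (mul_le_mul_of_nonneg_right hc (by positivity)).trans ?_
            nlinarith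
    refine (mul_le_mul_of_nonneg_left h1 (hpow j)).trans_eq ?_
    ring

/-- The linear part of one change. -/
noncomputable def linPart (G : Gr n) (e : Sym2 (Fin n)) (k : ℕ) (s : Finset (Fin n)) : ℝ :=
  rs G * ∑ j ∈ range (k + 1), cf (stA G) k j *
    (rs G ^ j * (Spectral.apply (nh G))^[j] (Spectral.apply (nh G) (ind (edgesOf s))) e)

lemma linPart_abs (I : Ifc) (H : StepHyp G B e k) {s : Finset (Fin n)} (hs : s ∈ triangles G) :
    |linPart G e k s| ≤ 23 * LL G B k * EL G B k / mS G := by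
  have hm := H.mpos
  obtain ⟨r1, r2, -⟩ := H.rs_bounds
  rw [linPart, abs_mul, abs_of_nonneg (zero_le_one.trans r1)]
  have hc := cf_sum_le I H (i := 1) (by norm_num) (A := 3 / mS G) (by positivity)
    (u := fun j => rs G ^ j *
      (Spectral.apply (nh G))^[j] (Spectral.apply (nh G) (ind (edgesOf s))) e) fun j => by
      rw [← I.indep G j {e} e, abs_mul, abs_of_nonneg (zero_le_one.trans (H.rpow_bounds j).1)]
      have h := wk_abs_const I H (j := j) (A := 3 / mS G) (by positivity)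
        (φ := fun _ g => Spectral.apply (nh G) (ind (edgesOf s)) g) fun Q g _ _ _ _ => by
        obtain ⟨a, b⟩ := I.lossSmall G s g hs hm
        rwa [abs_of_nonneg a]
      refine (mul_le_mul_of_nonneg_left h (zero_le_one.trans (H.rpow_bounds j).1)).trans ?_
      rw [pow_one]
      have : 1 ≤ (j : ℝ) + 1 := by linarith [Nat.cast_nonneg (α := ℝ) j]
      have := H.bnd.nonneg
      calc rs G ^ j * (3 / mS G * (2 * (1 + B)) ^ j)
          = 3 / mS G * 1 * (rs G ^ j * (2 * (1 + B)) ^ j) := by ring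
        _ ≤ _ := by
            gcongr
  refine (mul_le_mul r2 hc (abs_nonneg _) (by norm_num)).trans ?_
  have : 0 ≤ LL G B k * EL G B k / mS G := by
    have := H.LL_one; have := H.LE_one; positivity
  calc 5 / 4 * (6 * (3 / mS G) * LL G B k ^ 1 * EL G B k)
      = 45 / 2 * (LL G B k * EL G B k / mS G) := by ring
    _ ≤ 23 * (LL G B k * EL G B k / mS G) := by linarith
    _ = _ := by ring

/-- The square sum of the linear parts. -/
lemma linPart_sq (I : Ifc) (H : StepHyp G B e k) :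
    ∑ s ∈ away G e, linPart G e k s ^ 2 ≤
      15 * EL G B k * Real.exp (15 * ∑ l ∈ range k, stA G l ^ 2) := by
  have hm := H.mpos
  obtain ⟨r1, r2, -⟩ := H.rs_bounds
  have hB := H.bnd.nonneg
  obtain ⟨v, hv⟩ : ∃ v : Sym2 (Fin n) → ℝ,
      v = propA G (fun l => rs G * stA G l) k (Spectral.apply (nh G) (ind {e})) := ⟨_, rfl⟩
  have hdelta : ∀ w : Sym2 (Fin n) → ℝ, ∑ f, ind ({e} : Gr n) f * w f = w e := fun w => by
    simp [ind]
  have hlin : ∀ s, linPart G e k s = rs G * ∑ f ∈ edgesOf s, v f := by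
    intro s
    rw [linPart]
    congr 1
    obtain ⟨h1, h2⟩ := I.symm G (fun l => rs G * stA G l) k (Spectral.apply (nh G) (ind {e}))
      (ind (edgesOf s))
    have hL : propA G (fun l => rs G * stA G l) k (Spectral.apply (nh G) (ind (edgesOf s))) e =
        ∑ f ∈ edgesOf s, v f := by
      rw [(I.symm G (fun l => rs G * stA G l) k (ind (edgesOf s)) (ind (edgesOf s))).2,
        ← hdelta (Spectral.apply (nh G) _),
        ← Spectral.apply_adjoint (fun a b => by unfold nh; rw [Spectral.adj_symm]) (ind {e}),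
        ← h1, ← hv]
      simp [ind, sum_ite_mem]
    rw [← hL, I.poly]
    exact sum_congr rfl fun j _ => by rw [cf_smul]; ring
  simp only [hlin]
  calc ∑ s ∈ away G e, (rs G * ∑ f ∈ edgesOf s, v f) ^ 2
      ≤ ∑ s ∈ triangles G, (rs G * ∑ f ∈ edgesOf s, v f) ^ 2 :=
        sum_le_sum_of_subset_of_nonneg (filter_subset _ _) fun s _ _ => sq_nonneg _
    _ ≤ ∑ s ∈ triangles G, 75 / 16 * ∑ f ∈ edgesOf s, v f ^ 2 := by
        refine sum_le_sum fun s hs => ?_
        rw [mul_pow]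
        have h2 := sq_sum_le_card_mul_sum_sq (s := edgesOf s) (f := v)
        rw [card_edgesOf (card_of_mem_triangles hs)] at h2
        refine (mul_le_mul (show rs G ^ 2 ≤ 25 / 16 by nlinarith) h2 (sq_nonneg _)
          (by norm_num)).trans_eq ?_
        push_cast; ring
    _ = 75 / 16 * ∑ f ∈ G, cd G f * v f ^ 2 := by
        rw [← mul_sum]
        congr 1
        simp only [cd, card_filter, Nat.cast_sum, sum_mul]
        rw [sum_comm]
        refine sum_congr rfl fun s hs => ?_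
        simp only [Nat.cast_ite, Nat.cast_one, Nat.cast_zero, ite_mul, one_mul, zero_mul,
          ← sum_filter, filter_mem_eq_inter, inter_eq_right.2 (edgesOf_subset hs)]
    _ ≤ 75 / 16 * ((5 / 4 * mS G) * ∑ f, v f ^ 2) := by
        gcongr
        rw [mul_sum]
        refine (sum_le_sum fun f hf => mul_le_mul_of_nonneg_right ?_ (sq_nonneg _)).trans
          (sum_le_sum_of_subset_of_nonneg (subset_univ G) fun f _ _ => by positivity)
        rw [cd_eq f hf hm, mul_comm]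
        have := (abs_le.1 (H.bnd.dev f hf)).2
        exact mul_le_mul_of_nonneg_right (by linarith [H.bnd.le]) hm.le
    _ ≤ 75 / 16 * ((5 / 4 * mS G) *
          (EL G B k * Real.exp (15 * ∑ l ∈ range k, stA G l ^ 2) * (5 / 2 / mS G))) := by
        gcongr
        rw [hv]
        have ha : ∀ l, l < k → 0 ≤ rs G * stA G l := fun l hl =>
          mul_nonneg (zero_le_one.trans r1) (H.stA_nonneg l hl)
        refine (I.norm G B _ k _ H.bnd ha).trans ?_
        refine mul_le_mul ?_ ((I.row G B e H.bnd).trans ?_) (sum_nonneg fun f _ => sq_nonneg _)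
          (mul_nonneg (zero_le_one.trans H.LE_one) (Real.exp_nonneg _))
        · rw [EL, ← Real.exp_add]
          refine Real.exp_le_exp.2 ?_
          rw [tot, yy, sum_mul, mul_sum, ← sum_add_distrib]
          refine sum_le_sum fun l hl => ?_
          have h0 := H.stA_nonneg l (mem_range.1 hl)
          have : (9 * rs G ^ 2) * stA G l ^ 2 ≤ 15 * stA G l ^ 2 :=
            mul_le_mul_of_nonneg_right (by nlinarith) (sq_nonneg _)
          linarith
        · gcongr; linarith [H.bnd.le]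
    _ ≤ _ := by
        have : 0 ≤ EL G B k * Real.exp (15 * ∑ l ∈ range k, stA G l ^ 2) :=
          mul_nonneg (zero_le_one.trans H.LE_one) (Real.exp_nonneg _)
        have e1 : 75 / 16 * ((5 / 4 * mS G) *
            (EL G B k * Real.exp (15 * ∑ l ∈ range k, stA G l ^ 2) * (5 / 2 / mS G))) =
            1875 / 128 * (EL G B k * Real.exp (15 * ∑ l ∈ range k, stA G l ^ 2)) := by
          field_simp; ring
        rw [e1]
        linarith

/-- One change splits into a negligible part, the linear part and the hit part. -/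
lemma stepD_split (I : Ifc) (H : StepHyp G B e k) {s : Finset (Fin n)} (hs : s ∈ away G e) :
    |stepD G e k s + linPart G e k s| ≤ 48 * a0 G * LL G B k * EL G B k +
      (2 * B + 4 * a0 G + 4 / mS G) * hitW G e k s := by
  have hm := H.mpos
  have hB := H.bnd.nonneg
  obtain ⟨ha, ha1, -⟩ := H.a0_bounds
  obtain ⟨hb, hb1, -⟩ := H.b0_bounds
  obtain ⟨r1, r2, r3, -⟩ := H.rs_bounds
  have hst := (mem_filter.1 hs).1
  obtain ⟨c, hc⟩ : ∃ c : Sym2 (Fin n) → ℝ, c = fun f => rs G * (1 + dv G f) - 1 := ⟨_, rfl⟩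
  obtain ⟨l, hl⟩ : ∃ l : Sym2 (Fin n) → ℝ,
      l = fun f => Spectral.apply (nh G) (ind (edgesOf s)) f := ⟨_, rfl⟩
  obtain ⟨ψ, hψ⟩ : ∃ ψ : Sym2 (Fin n) → ℝ,
      ψ = fun f => dv G f - b0 G * Spectral.apply (nh G) (dv G) f := ⟨_, rfl⟩
  have key : stepD G e k s + linPart G e k s =
      ∑ j ∈ range (k + 1), cf (stA G) k j *
          (wk G j {e} e (fun _ f => rs G ^ j * c f - ψ f) -
            rs G ^ j * wk G j {e} e (fun Q f => hitInd s Q * (c f - rs G * l f))) := by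
    rw [stepD, Z_step_eq I H hs, Z_succ_eq I H, linPart, mul_sum, ← sum_sub_distrib,
      ← sum_add_distrib]
    refine sum_congr rfl fun j _ => ?_
    rw [← I.indep G j {e} e]
    have e1 : (fun (Q : Gr n) f => if Disjoint Q (edgesOf s) then
        rs G * (1 + dv G f) - 1 - rs G * Spectral.apply (nh G) (ind (edgesOf s)) f else 0) =
        fun Q f => 1 * ((1 : ℝ) * c f + (-rs G) * l f) + (-1) * (hitInd s Q * (c f - rs G * l f)) := by
      funext Q f
      rw [hc, hl]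
      unfold hitInd
      split_ifs <;> ring
    have e2 : (fun (_ : Gr n) f => rs G ^ j * c f - ψ f) =
        fun _ f => rs G ^ j * c f + (-1) * ψ f := by
      funext Q f; ring
    rw [e1, e2, I.lin, I.lin, I.lin, hψ, hl]
    ring
  have hcf : ∀ f ∈ G, |c f| ≤ 2 * B + 4 * a0 G ∧ |c f| ≤ 2 := by
    intro f hf
    have hd := H.bnd.dev f hf
    have h1 : |c f| ≤ 5 / 4 * B + 3 * a0 G := by
      simp only [hc]
      rw [show rs G * (1 + dv G f) - 1 = rs G * dv G f + (rs G - 1) by ring]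
      refine (abs_add_le _ _).trans (add_le_add
        (abs_mul_le' (by rw [abs_of_nonneg (zero_le_one.trans r1)]; exact r2) hd) ?_)
      rw [abs_of_nonneg (by linarith)]; exact r3
    exact ⟨by linarith, by linarith [H.bnd.le]⟩
  rw [key]
  refine (abs_sum_le_sum_abs _ _).trans ?_
  rw [hitW, mul_sum]
  have hA : ∀ j : ℕ, |wk G j {e} e (fun _ f => rs G ^ j * c f - ψ f)| ≤
      8 * a0 G * ((j : ℝ) + 1) * (rs G ^ j * (2 * (1 + B)) ^ j) := by
    intro j
    obtain ⟨p1, p2, -⟩ := H.rpow_bounds j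
    refine (wk_abs_const I H (A := 8 * a0 G * ((j : ℝ) + 1) * rs G ^ j) (by positivity)
      fun Q g hQ _ hg _ => ?_).trans_eq (by ring)
    have hN := H.apply_dv_le (hQ hg)
    have hd := H.bnd.dev g (hQ hg)
    rw [show rs G ^ j * c g - ψ g = (rs G ^ j - 1) * c g + (rs G - 1) * (1 + dv G g) +
        b0 G * Spectral.apply (nh G) (dv G) g by simp only [hψ, hc]; ring]
    have h1 : |(rs G ^ j - 1) * c g| ≤ 6 * j * a0 G * rs G ^ j := by
      have hp : |rs G ^ j - 1| ≤ 3 * j * a0 G * rs G ^ j := by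
        rw [abs_of_nonneg (by linarith)]; exact p2
      exact (abs_mul_le' hp (hcf g (hQ hg)).2).trans (le_of_eq (by ring))
    have h2 : |(rs G - 1) * (1 + dv G g)| ≤ 3 * a0 G * 2 :=
      abs_mul_le' (by rw [abs_of_nonneg (by linarith)]; exact r3)
        (by rw [abs_le]; constructor <;> linarith [abs_le.1 hd, H.bnd.le])
    have h3 : |b0 G * Spectral.apply (nh G) (dv G) g| ≤ 2 * a0 G * 1 :=
      abs_mul_le' (by rw [abs_of_nonneg hb]; exact hb1) (by linarith [H.bnd.le])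
    have h4 := le_mul_of_one_le_right (show 0 ≤ 8 * a0 G by positivity) p1
    refine ((abs_add_le _ _).trans (add_le_add (abs_add_le _ _) le_rfl)).trans ?_
    have : 0 ≤ (j : ℝ) * (a0 G * rs G ^ j) := by positivity
    linarith
  have hC : ∀ j : ℕ, |rs G ^ j * wk G j {e} e (fun Q f => hitInd s Q * (c f - rs G * l f))| ≤
      (2 * B + 4 * a0 G + 4 / mS G) * (rs G ^ j * wk G j {e} e (fun Q _ => hitInd s Q)) := by
    intro j
    obtain ⟨p1, -⟩ := H.rpow_bounds j
    rw [abs_mul, abs_of_nonneg (zero_le_one.trans p1), mul_left_comm, ← wk_smul I]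
    refine mul_le_mul_of_nonneg_left (wk_abs I H fun Q g hQ _ hg _ => ?_) (zero_le_one.trans p1)
    rw [abs_mul, abs_of_nonneg (hitInd_nonneg s Q), mul_comm]
    refine mul_le_mul_of_nonneg_right ?_ (hitInd_nonneg s Q)
    obtain ⟨la, lb⟩ := I.lossSmall G s g hst hm
    have : |rs G * l g| ≤ 5 / 4 * (3 / mS G) :=
      abs_mul_le' (by rw [abs_of_nonneg (zero_le_one.trans r1)]; exact r2)
        (by rw [hl, abs_of_nonneg la]; exact lb)
    refine (abs_sub _ _).trans ?_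
    have h5 : 5 / 4 * (3 / mS G) ≤ 4 / mS G := by
      rw [← mul_div_assoc]; exact div_le_div_of_nonneg_right (by norm_num) hm.le
    linarith [(hcf g (hQ hg)).1]
  refine (sum_le_sum (g := fun j => |cf (stA G) k j| *
      (8 * a0 G * ((j : ℝ) + 1) ^ 1 * (rs G ^ j * (2 * (1 + B)) ^ j)) +
      (2 * B + 4 * a0 G + 4 / mS G) *
        (|cf (stA G) k j| * (rs G ^ j * wk G j {e} e (fun Q _ => hitInd s Q)))) fun j _ => ?_).trans ?_
  · rw [abs_mul]
    refine (mul_le_mul_of_nonneg_left ((abs_sub _ _).trans (add_le_add (hA j) (hC j)))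
      (abs_nonneg _)).trans_eq ?_
    ring
  rw [sum_add_distrib]
  refine add_le_add ?_ le_rfl
  have := I.cfBound (stA G) k (yy G B) H.stA_nonneg (zero_le_one.trans H.yy_pos) 1 (by norm_num)
  calc ∑ j ∈ range (k + 1),
        |cf (stA G) k j| * (8 * a0 G * ((j : ℝ) + 1) ^ 1 * (rs G ^ j * (2 * (1 + B)) ^ j))
      = 8 * a0 G * ∑ j ∈ range (k + 1), |cf (stA G) k j| * ((j : ℝ) + 1) ^ 1 * yy G B ^ j := by
        rw [mul_sum]
        exact sum_congr rfl fun j _ => by rw [yy, mul_pow (rs G)]; ring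
    _ ≤ 8 * a0 G * (6 * LL G B k ^ 1 * EL G B k) :=
        mul_le_mul_of_nonneg_left this (by positivity)
    _ = _ := by ring

/-- The size of one change. -/
theorem jump_bound (I : Ifc) (H : StepHyp G B e k) {s : Finset (Fin n)} (hs : s ∈ away G e) :
    |stepD G e k s| ≤ 500 * LL G B k * EL G B k / mS G := by
  have hm := H.mpos
  have h1 := stepD_split I H hs
  have h2 := linPart_abs I H (mem_filter.1 hs).1
  obtain ⟨h3, h4⟩ := (hitW_bounds I H).1 s hs
  obtain ⟨ha, ha1, hma⟩ := H.a0_bounds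
  have hβ : 2 * B + 4 * a0 G + 4 / mS G ≤ 5 := by
    have : 4 / mS G ≤ 4 := div_le_self (by norm_num) H.bnd.pos
    linarith [H.bnd.le]
  have h0 : 0 ≤ LL G B k * EL G B k := by
    have := H.LL_one; have := H.LE_one; positivity
  have hA : a0 G * (LL G B k * EL G B k) ≤ LL G B k * EL G B k / mS G := by
    rw [le_div_iff₀ hm]
    calc a0 G * (LL G B k * EL G B k) * mS G = mS G * a0 G * (LL G B k * EL G B k) := by ring
      _ ≤ 1 * (LL G B k * EL G B k) := mul_le_mul_of_nonneg_right hma h0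
      _ = _ := one_mul _
  have h5 : (2 * B + 4 * a0 G + 4 / mS G) * hitW G e k s ≤
      5 * (72 * (LL G B k * EL G B k / mS G)) := by
    rw [show 72 * (LL G B k * EL G B k / mS G) = 72 * LL G B k * EL G B k / mS G by ring]
    exact mul_le_mul hβ h4 h3 (by norm_num)
  have e1 : 23 * LL G B k * EL G B k / mS G = 23 * (LL G B k * EL G B k / mS G) := by ring
  have e2 : 500 * LL G B k * EL G B k / mS G = 500 * (LL G B k * EL G B k / mS G) := by ring
  have e3 : 48 * a0 G * LL G B k * EL G B k = 48 * (a0 G * (LL G B k * EL G B k)) := by ring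
  have h6 : 0 ≤ LL G B k * EL G B k / mS G := div_nonneg h0 hm.le
  rw [e2]; rw [e1] at h2; rw [e3] at h1
  rw [abs_le] at h1 h2 ⊢
  constructor <;> linarith

/-- The square sum of the changes. -/
theorem var_bound (I : Ifc) (H : StepHyp G B e k) :
    ∑ s ∈ away G e, stepD G e k s ^ 2 ≤
      45 * EL G B k * Real.exp (15 * ∑ l ∈ range k, stA G l ^ 2) +
        LL G B k ^ 2 * EL G B k ^ 2 *
          (10000 * (mS G * a0 G) + 4000 * (2 * B + 4 * a0 G + 4 / mS G) ^ 2) := by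
  have hm := H.mpos
  obtain ⟨β, hβ⟩ : ∃ β : ℝ, β = 2 * B + 4 * a0 G + 4 / mS G := ⟨_, rfl⟩
  obtain ⟨ha, ha1, hma⟩ := H.a0_bounds
  have hβ0 : 0 ≤ β := by have := H.bnd.nonneg; rw [hβ]; positivity
  obtain ⟨hb1, hb2⟩ := hitW_bounds I H
  have h0 : 0 ≤ LL G B k * EL G B k := by
    have := H.LL_one; have := H.LE_one; positivity
  have one : ∀ s ∈ away G e, stepD G e k s ^ 2 ≤ 3 * linPart G e k s ^ 2 +
      3 * (48 * a0 G * LL G B k * EL G B k) ^ 2 +
      3 * β ^ 2 * (72 * LL G B k * EL G B k / mS G) * hitW G e k s := by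
    intro s hs
    have h1 := stepD_split I H hs
    rw [← hβ] at h1
    obtain ⟨h3, h4⟩ := hb1 s hs
    have h5 : (β * hitW G e k s) ^ 2 ≤
        β ^ 2 * (72 * LL G B k * EL G B k / mS G) * hitW G e k s := by
      rw [mul_pow, sq (hitW G e k s), ← mul_assoc]
      exact mul_le_mul_of_nonneg_right (mul_le_mul_of_nonneg_left h4 (sq_nonneg β)) h3
    generalize 48 * a0 G * LL G B k * EL G B k = u at *
    generalize β * hitW G e k s = w at *
    generalize stepD G e k s = D at *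
    generalize linPart G e k s = M at *
    have h6 : D ^ 2 ≤ (|M| + |u| + |w|) ^ 2 := by
      refine sq_le_sq' ?_ ?_ <;>
        linarith [abs_le.1 h1, le_abs_self M, neg_abs_le M, le_abs_self u, le_abs_self w]
    nlinarith [sq_nonneg (|M| - |u|), sq_nonneg (|M| - |w|), sq_nonneg (|u| - |w|), sq_abs M,
      sq_abs u, sq_abs w]
  refine (sum_le_sum one).trans ?_
  rw [sum_add_distrib, sum_add_distrib, ← mul_sum, sum_const, nsmul_eq_mul, ← mul_sum, ← hβ]
  have hL := linPart_sq I H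
  have hc : ((away G e).card : ℝ) * (a0 G * a0 G) ≤ 5 / 4 * (mS G * a0 G) := by
    have hle : ((away G e).card : ℝ) ≤ (triangles G).card := by
      exact_mod_cast card_le_card (filter_subset _ _)
    calc ((away G e).card : ℝ) * (a0 G * a0 G)
        ≤ (triangles G).card * a0 G * a0 G := by
          rw [← mul_assoc]; gcongr
      _ = mS G * (1 + mean G) * a0 G := by rw [H.card_T]
      _ ≤ mS G * (5 / 4) * a0 G := by
          gcongr; linarith [(abs_le.1 H.mean_le).2, H.bnd.le]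
      _ = _ := by ring
  have hH : β ^ 2 * (72 * LL G B k * EL G B k / mS G) * ∑ s ∈ away G e, hitW G e k s ≤
      1296 * β ^ 2 * (LL G B k * EL G B k) ^ 2 := by
    refine (mul_le_mul_of_nonneg_left hb2 ?_).trans_eq ?_
    · have := H.LL_one; have := H.LE_one; positivity
    · field_simp; ring
  have hA := mul_le_mul_of_nonneg_left hc
    (show 0 ≤ 3 * 2304 * (LL G B k * EL G B k) ^ 2 by positivity)
  have e1 : ((away G e).card : ℝ) * (3 * (48 * a0 G * LL G B k * EL G B k) ^ 2) =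
      3 * 2304 * (LL G B k * EL G B k) ^ 2 * (((away G e).card : ℝ) * (a0 G * a0 G)) := by ring
  rw [e1]
  have h7 : 0 ≤ (LL G B k * EL G B k) ^ 2 * (mS G * a0 G) := by positivity
  have h8 : 0 ≤ β ^ 2 * (LL G B k * EL G B k) ^ 2 := by positivity
  linarith

end

end Vale.Agent.P046.Full
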