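import Vale.Agent.P046.Full.Params
import Vale.Agent.P046.Trees.Expect

/-!
Module 3: at the stopping stage all but `n^(13/10)` edges have hypertree balls, in expectation.
-/

namespace Vale.Agent.P046.Full

open Finset Filter
open scoped Classical Topology

variable {n : ℕ}

/-- The window of the codegrees in the first phase. -/
noncomputable def winA (n : ℕ) : ℝ := lg n ^ 5 * Real.sqrt ((n : ℝ) ^ 3) / 2

lemma Bd_mI {E : ℝ} (hE : 0 < E) : Bd n (mI n E) = winA n / E := by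
  unfold Bd mI winA
  rw [show 4 * E ^ 2 / (n : ℝ) ^ 3 = (2 * E) ^ 2 / (n : ℝ) ^ 3 by ring,
    Real.sqrt_div' _ (by positivity), Real.sqrt_sq (by linarith), div_div_eq_mul_div, div_div]

/-- The logarithms of all walk counts are small against `log n`. -/
lemma eventually_trees_facts : ∀ᶠ n : ℕ in atTop,
    12 ≤ n ∧ 16 ≤ lg n ∧ ((rad n + 1 : ℕ) : ℝ) + 1 ≤ lg n ∧ 16 * mHi n ≤ n ∧
      5000 * (((rad n + 1 : ℕ) : ℝ) + 1) * Real.log (lg n) ≤ 3 / 10 * lg n := by
  have h5 : ∀ᶠ x : ℝ in atTop, Real.log x ^ 5 ≤ 1 / 200000 * x := by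
    filter_upwards [(Real.isLittleO_pow_log_id_atTop (n := 5)).bound
      (show (0 : ℝ) < 1 / 200000 by norm_num), eventually_ge_atTop (0 : ℝ)] with x hx h0
    simp only [Real.norm_eq_abs, id_eq, abs_of_nonneg h0] at hx
    exact (le_abs_self _).trans hx
  have h2000 : ∀ᶠ x : ℝ in atTop, Real.log x ^ 2000 ≤ 1 / 16 * x := by
    filter_upwards [(Real.isLittleO_pow_log_id_atTop (n := 2000)).bound
      (show (0 : ℝ) < 1 / 16 by norm_num), eventually_ge_atTop (0 : ℝ)] with x hx h0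
    simp only [Real.norm_eq_abs, id_eq, abs_of_nonneg h0] at hx
    exact (le_abs_self _).trans hx
  filter_upwards [eventually_ge_atTop 12, tendsto_lg.eventually_ge_atTop 16, tendsto_lg.eventually h5,
    (Real.tendsto_log_atTop.comp tendsto_lg).eventually_ge_atTop 1,
    tendsto_natCast_atTop_atTop.eventually h2000] with n hn hL h5 hl h2000
  simp only [Function.comp_apply] at hl
  have hR : ((rad n + 1 : ℕ) : ℝ) + 1 ≤ 6 * Real.log (lg n) ^ 4 := by
    have h4 : 1 ≤ Real.log (lg n) ^ 4 := one_le_pow₀ hl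
    have := Nat.ceil_lt_add_one (show 0 ≤ Real.log (lg n) ^ 4 by positivity)
    rw [rad]
    push_cast
    linarith
  refine ⟨hn, hL, ?_, ?_, ?_⟩
  · have h45 : Real.log (lg n) ^ 4 ≤ Real.log (lg n) ^ 5 := pow_le_pow_right₀ hl (by norm_num)
    linarith
  · rw [mHi, lg]; linarith
  · have := mul_le_mul_of_nonneg_right hR (show 0 ≤ Real.log (lg n) by linarith)
    have e : Real.log (lg n) ^ 4 * Real.log (lg n) = Real.log (lg n) ^ 5 := by ring
    nlinarith

/-- **Module 3.** -/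
theorem treeStep : TreeStep := by
  filter_upwards [eventually_trees_facts] with n hh
  obtain ⟨hn, hL, hR, hM, hlog⟩ := hh
  obtain ⟨R, hRdef⟩ : ∃ R, R = rad n + 1 := ⟨_, rfl⟩
  rw [← hRdef] at hR hlog
  have hn0 : (12 : ℝ) ≤ n := by exact_mod_cast hn
  have hn1 : (0 : ℝ) < n := by linarith
  have hL1 : 1 ≤ lg n := by linarith
  obtain ⟨Q, hQ⟩ : ∃ Q, Q = Real.sqrt ((n : ℝ) ^ 3) := ⟨_, rfl⟩
  have hQ0 : 0 < Q := by rw [hQ]; positivity
  have hQ2 : Q ^ 2 = (n : ℝ) ^ 3 := by rw [hQ]; exact Real.sq_sqrt (by positivity)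
  have hQn : (n : ℝ) ≤ Q := by
    rw [hQ, Real.le_sqrt hn1.le (by positivity)]
    nlinarith [pow_pos hn1 2]
  have hsqrt : Real.sqrt (mHi n * (n : ℝ) ^ 3) = lg n ^ 1000 * Q := by
    rw [mHi, show lg n ^ 2000 = (lg n ^ 1000) ^ 2 by rw [← pow_mul], Real.sqrt_mul (by positivity),
      Real.sqrt_sq (by positivity), hQ]
  have he1 : lg n ^ 1000 * Q / 2 ≤ eHi n := hsqrt ▸ le_eHi n
  have he2 : (eHi n : ℝ) ≤ lg n ^ 1000 * Q := by
    have h : (eHi n : ℝ) < Real.sqrt (mHi n * (n : ℝ) ^ 3) / 2 + 1 :=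
      Nat.ceil_lt_add_one (div_nonneg (Real.sqrt_nonneg _) zero_le_two)
    rw [hsqrt] at h
    nlinarith [one_le_pow₀ (M₀ := ℝ) hL1 (n := 1000)]
  have hLQ : Q ≤ lg n ^ 1000 * Q := le_mul_of_one_le_left hQ0.le (one_le_pow₀ hL1)
  have hLn : lg n ^ 1000 * Q ≤ (n : ℝ) ^ 2 / 4 := by
    refine abs_le_of_sq_le_sq' ?_ (by positivity) |>.2
    rw [mul_pow, hQ2, ← pow_mul, show 1000 * 2 = 2000 from rfl, ← mHi]
    calc mHi n * (n : ℝ) ^ 3 ≤ (n / 16) * (n : ℝ) ^ 3 :=
          mul_le_mul_of_nonneg_right (by linarith) (by positivity)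
      _ = ((n : ℝ) ^ 2 / 4) ^ 2 := by ring
  have hch : (n : ℝ) ^ 2 / 4 ≤ (n.choose 2 : ℝ) := by
    rw [Nat.cast_choose_two]; nlinarith
  have hw : Trees.Window (eHi n) (Good (n := n)) (fun k => mI n k) (winA n) (4 * R + 1) := by
    refine ⟨?_, ?_, ?_, ?_, ?_, ?_, ?_⟩
    · have : (6 : ℝ) ≤ eHi n := by linarith
      exact_mod_cast this
    · have : (eHi n : ℝ) ≤ n.choose 2 := by linarith
      exact_mod_cast this
    · unfold winA; positivity
    · push_cast
      rw [winA, ← hQ]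
      have h7 : lg n ^ 7 ≤ lg n ^ 1000 := pow_le_pow_right₀ hL1 (by norm_num)
      have h1 : 1 ≤ lg n ^ 5 * Q := by
        nlinarith [one_le_pow₀ (M₀ := ℝ) hL1 (n := 5)]
      have h2 : 96 * lg n * (lg n ^ 5 * Q) ≤ lg n ^ 1000 * Q / 2 := by
        have h8 : lg n ^ 8 ≤ lg n ^ 1000 := pow_le_pow_right₀ hL1 (by norm_num)
        have h9 : 192 * lg n ^ 6 ≤ lg n ^ 8 := by
          rw [show lg n ^ 8 = lg n ^ 2 * lg n ^ 6 by ring]
          exact mul_le_mul_of_nonneg_right (by nlinarith) (by positivity)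
        nlinarith [mul_le_mul_of_nonneg_right (h9.trans h8) hQ0.le]
      nlinarith [mul_nonneg (show 0 ≤ lg n by linarith) (show (0 : ℝ) ≤ lg n ^ 5 * Q by positivity),
        mul_le_mul_of_nonneg_right hR (show 0 ≤ lg n ^ 5 * Q by positivity), Nat.cast_nonneg (α := ℝ) R]
    · intro k hk
      have hkr : (eHi n : ℝ) ≤ k := by exact_mod_cast hk.le
      have hk0 : (0 : ℝ) < k := by linarith
      push_cast
      have e : mI n (k : ℝ) * (winA n / k) = 2 * k * lg n ^ 5 / Q := by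
        rw [winA, mI, ← hQ, ← hQ2]; field_simp; ring
      rw [e, le_div_iff₀ hQ0]
      have h1 : lg n ^ 1000 * Q ≤ 2 * k := by linarith
      have h2 : lg n ^ 1000 * Q * lg n ^ 5 ≤ 2 * k * lg n ^ 5 :=
        mul_le_mul_of_nonneg_right h1 (by positivity)
      have h3 : 4 * lg n ≤ lg n ^ 1000 * lg n ^ 5 := by
        rw [← pow_add]
        refine le_trans ?_ (pow_le_pow_right₀ hL1 (show 2 ≤ 1000 + 5 by norm_num))
        nlinarith
      nlinarith [mul_le_mul_of_nonneg_right h3 hQ0.le]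
    · intro k hk
      have : (0 : ℝ) < k := by exact_mod_cast lt_of_le_of_lt (Nat.zero_le _) hk
      rw [mI]; positivity
    · intro G hG hE hg f hf
      have hm : mHi n ≤ mI n G.card :=
        mHi_le_mI (by omega) hL1 (by exact_mod_cast hE.le)
      have h := hg f hf 0 (by omega) (by
        simpa using (mLo_le_mHi hL1).trans hm)
      have hE0 : (0 : ℝ) < G.card := by exact_mod_cast lt_of_le_of_lt (Nat.zero_le _) hE
      simp only [Nat.cast_zero, mul_zero, sub_zero, Z, prop, dv, if_pos hf, Bd_mI hE0, cd, mS] at h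
      have hm0 : 0 < mI n G.card := by rw [mI]; positivity
      obtain ⟨hlo, hhi⟩ := abs_le.1 h
      rw [le_sub_iff_add_le, le_div_iff₀ hm0] at hlo
      rw [sub_le_iff_le_add, div_le_iff₀ hm0] at hhi
      simp only [Trees.through] at hlo hhi ⊢
      constructor <;> linarith
  obtain ⟨p, hp⟩ : ∃ p, p = 4 * (lg n ^ 1000 * Q) / (n : ℝ) ^ 2 := ⟨_, rfl⟩
  have hpd : Trees.dens n (eHi n) ≤ p := by
    rw [hp, Trees.dens, show 4 * (lg n ^ 1000 * Q) / (n : ℝ) ^ 2 =
      lg n ^ 1000 * Q / ((n : ℝ) ^ 2 / 4) by ring]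
    exact div_le_div₀ (by positivity) he2 (by positivity) hch
  have hp1 : p ≤ 1 := by rw [hp, div_le_one (by positivity)]; linarith
  have hpM : (n : ℝ) * p ^ 2 = 16 * mHi n := by
    rw [hp, mHi, div_pow, mul_pow, mul_pow, hQ2, ← pow_mul (lg n), show 1000 * 2 = 2000 from rfl]
    field_simp
    ring
  have hM1 : 1 ≤ (n : ℝ) * p ^ 2 := by
    rw [hpM, mHi]; linarith [one_le_pow₀ (M₀ := ℝ) hL1 (n := 2000)]
  have hstop : Trees.stageStop (eHi n) (Good (n := n)) = Stop := by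
    funext G
    exact propext or_comm
  have hmain := Trees.expected_notUnique (R := R) hw hpd hp1 hM1
  rw [hstop, hpM] at hmain
  refine le_trans (EvUntil_mono fun G _ _ => ?_) (hmain.trans ?_)
  · by_cases hg : Good G
    · rw [if_pos hg, if_pos hg, nonTree]
      refine Nat.cast_le.2 (card_le_card fun f hf => mem_filter.2 ⟨(mem_filter.1 hf).1,
        fun hU => (mem_filter.1 hf).2 ⟨hU.tree_root (by omega), hU.tree_root (by omega)⟩⟩)
    · rw [if_neg hg, if_neg hg]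
  · have hL0 : 0 < lg n := by linarith
    have hb1 : 10 * ((R : ℝ) + 1) ≤ lg n ^ 2 := by nlinarith
    have hb2 : 16 * mHi n ≤ lg n ^ 2001 := by
      rw [mHi, pow_succ, mul_comm (16 : ℝ)]
      exact mul_le_mul_of_nonneg_left hL (by positivity)
    have hm0 : 0 ≤ 16 * mHi n := by rw [mHi]; positivity
    have hkey : 2 * (10 * ((R : ℝ) + 1)) ^ (2 * R) * (16 * mHi n) ^ (2 * R + 1) ≤
        lg n ^ (5000 * (R + 1)) := by
      calc 2 * (10 * ((R : ℝ) + 1)) ^ (2 * R) * (16 * mHi n) ^ (2 * R + 1)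
          ≤ lg n * (lg n ^ 2) ^ (2 * R) * (lg n ^ 2001) ^ (2 * R + 1) :=
            mul_le_mul (mul_le_mul (by linarith) (pow_le_pow_left₀ (by positivity) hb1 _)
              (by positivity) hL0.le) (pow_le_pow_left₀ hm0 hb2 _) (pow_nonneg hm0 _) (by positivity)
        _ = lg n ^ (1 + 2 * (2 * R) + 2001 * (2 * R + 1)) := by ring
        _ ≤ _ := pow_le_pow_right₀ hL1 (by omega)
    have hexp : lg n ^ (5000 * (R + 1)) ≤ (n : ℝ) ^ (3 / 10 : ℝ) := by
      rw [Real.rpow_def_of_pos hn1, ← Real.exp_log (pow_pos hL0 _), Real.log_pow]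
      refine Real.exp_le_exp.2 ?_
      rw [show Real.log (n : ℝ) = lg n from rfl]
      push_cast
      linarith
    calc 2 * (n : ℝ) * (10 * ((R : ℝ) + 1)) ^ (2 * R) * (16 * mHi n) ^ (2 * R + 1)
        = (n : ℝ) * (2 * (10 * ((R : ℝ) + 1)) ^ (2 * R) * (16 * mHi n) ^ (2 * R + 1)) := by ring
      _ ≤ (n : ℝ) * (n : ℝ) ^ (3 / 10 : ℝ) := mul_le_mul_of_nonneg_left (hkey.trans hexp) hn1.le
      _ = (n : ℝ) ^ (13 / 10 : ℝ) := by
        rw [← Real.rpow_one_add' hn1.le (by norm_num)]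
        norm_num

end Vale.Agent.P046.Full
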